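import Vale.Agent.P283R.T3.St
import Vale.Agent.P283R.Mi.Loc
import Vale.Agent.P283R.Tp.Eig

/-!
# P283R, block T3: shrinking and the choice of coordinates
-/

open Set

noncomputable section

namespace Vale.Agent.P283R.T3.H95

open Vale.Agent.P287D Vale.Agent.P283M Vale.Agent.P297Z Vale.Agent.P283R.Uc

variable {F : Type} [Field F] [Algebra ℂ F] {n : ℕ} {S T : Subalgebra ℂ F} {p : Ideal S}
  {q : Ideal T} {R : Pl F} {v : Finset F}

theorem ring_of (o : Ov v R) : ∀ a ∈ Ad v, a ∈ R.ring := fun a h => by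
  induction h using Algebra.adjoin_induction with
  | mem x hx => exact o x hx
  | algebraMap c => exact R.con c
  | add _ _ _ _ a b => exact add_mem a b
  | mul _ _ _ _ a b => exact mul_mem a b

/-- prime divisors of the affine variety are prime divisors of its closure -/
theorem on_of (hA : Aff (n + 1) (Ad v)) (h : PD (Ad v) R) : On n (inf v) R := by
  classical
  obtain ⟨r, c, l⟩ := h
  have o : Ov v R := Kw.ov rfl c
  have m : ∀ a ∈ Ad v, R.rd a ∈ Ad (v.image R.rd) := fun a ha => by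
    induction ha using Algebra.adjoin_induction with
    | mem x hx => exact Algebra.subset_adjoin (Finset.mem_image_of_mem _ hx)
    | algebraMap c => exact Cb.rd_const (P := R) c ▸ algebraMap_mem _ c
    | add a b ka kb ha hb => exact Cb.rd_add (ring_of o a ka) (ring_of o b kb) ▸ add_mem ha hb
    | mul a b ka kb ha hb => exact Cb.rd_mul (ring_of o a ka) (ring_of o b kb) ▸ mul_mem ha hb
  refine (P287D.res'.on n F hA.ff _ R (Kl.inf_smp v)).2 ?_
  rw [Kl.res_inf hA.ff o]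
  refine Kw.big (N := n) ⟨Gm.ff_κ R hA.ff, ⟨_, rfl⟩, fun z => ?_⟩ rfl
  obtain ⟨a, ha⟩ := IsLocalRing.residue_surjective (R := R.ring) z
  have ha' : R.rd a = z := (Cb.rd_of a.2).trans ha
  obtain ⟨s, t, ht, e⟩ := l a a.2
  refine ⟨⟨_, m s s.2⟩, ⟨_, m t t.2⟩, ?_⟩
  rw [← ha', eq_div_iff fun k => ht ((c t).2.2 k), ← Cb.rd_mul a.2 (c t).1, e,
    div_mul_cancel₀ _ (Hr.ne_of_notMem ht)]

/-- a neighbourhood on which the canonical class is trivial and the pair is klt -/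
theorem nbh (hA : Aff (n + 1) S) (hp : p.IsPrime) {y : Fin (n + 1) → F} {h : F} (hy : Frm y)
    (h0 : h ≠ 0) (h1 : ∀ R, PDat S p R → ld y 1 h R = 1)
    (h2 : ∀ r : Ideal S, r ≤ p → ∀ R, Cen S r R → 0 < ld y 1 h R) :
    ∃ g : S, g ∉ p ∧ ∀ R : Pl F, (∀ a ∈ S, a ∈ R.ring) → R.rd g ≠ 0 →
      0 < ld y 1 h R ∧ (PD S R → ld y 1 h R = 1) := by
  classical
  obtain ⟨u, rfl⟩ := hA.fg
  obtain ⟨g, g0, c, -, hg⟩ := Sk1.twi _ F _ p y 1 h u hA.ff hp hy.ind h0 rfl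
    fun R ⟨a, _, rfl, b⟩ => by
      obtain ⟨r, k⟩ := Kw.cen_of a
      exact h2 r (fun x hx => b x ((k x).2.1 hx)) R k
  obtain ⟨j, -, e⟩ := Cb.kap_cn hA.ff hy.ind
  have i := Api.mod.isb n F hA.ff
  have f := Sf.isB_add i.2.1 (i.1 _ (sub_mem (dv_mem_Car j) (dv_mem_Car h))) _ (Kw.big hA rfl)
  have f1 : {R | PD (Ad u) R ∧ ld y 1 h R ≠ 1}.Finite := f.subset fun R a =>
    ⟨on_of hA a.1, fun z => a.2 (by
      simp only [Pi.add_apply, Pi.sub_apply, dv] at z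
      simp only [ld, e, Pi.add_apply, dv, Nat.cast_one, div_one]
      linarith)⟩
  have k : ∀ R ∈ f1.toFinset, ∃ s : Ad u, s ∉ p ∧ R.rd s = 0 := fun R a => by
    obtain ⟨⟨r, a1, a2⟩, a3⟩ := f1.mem_toFinset.1 a
    obtain ⟨s, s1, s2⟩ := not_subset.1 fun w : (r : Set (Ad u)) ⊆ p => a3 (h1 R ⟨r, w, a1, a2⟩)
    exact ⟨s, s2, (a1 s).2.1 s1⟩
  choose! s s1 s2 using k
  have := hp
  refine ⟨g * ∏ R ∈ f1.toFinset, s R, fun z => (hp.mem_or_mem z).elim g0 fun w => ?_,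
    fun R a b => ?_⟩
  · obtain ⟨R, a, b⟩ := Ideal.IsPrime.prod_mem_iff.1 w
    exact s1 R a b
  obtain ⟨r, k⟩ := Kw.cen_of a
  have b1 := mt (k _).2.1 b
  refine ⟨?_, fun d => by_contra fun z => b1 (r.mul_mem_left _ ?_)⟩
  · have := hg R
    rwa [Kw.inf0 rfl k, Hr.cen_ord k fun w => b1 (r.mul_mem_right _ w), mul_zero, add_zero,
      Int.cast_zero, add_zero] at this
  · have m := f1.mem_toFinset.2 ⟨d, z⟩
    rw [← Finset.mul_prod_erase _ _ m]
    exact r.mul_mem_right _ ((k _).2.2 (s2 R m))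

/-- coordinates centred at a closed point -/
theorem crd (hA : Aff n T) (hq : q.IsMaximal) : ∃ v : Finset F, Ad v = T ∧
    Ideal.span {a : T | (a : F) ∈ v} = q := by
  classical
  obtain ⟨u, hu⟩ := hA.fg
  choose c hc using Eg.res_max hA q
  have m : ∀ a ∈ u, a ∈ T := fun a ha => hu ▸ Algebra.subset_adjoin ha
  let v : Finset F := u.attach.image fun a => a.1 - algebraMap ℂ F (c ⟨a.1, m a.1 a.2⟩)
  have e : Ad v = T := le_antisymm (Algebra.adjoin_le fun x hx => by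
      obtain ⟨a, -, rfl⟩ := Finset.mem_image.1 hx
      exact sub_mem (m a a.2) (algebraMap_mem _ _)) (hu ▸ Algebra.adjoin_le fun a ha => by
      have : a - algebraMap ℂ F (c ⟨a, m a ha⟩) ∈ Ad v :=
        Algebra.subset_adjoin (Finset.mem_image.2 ⟨⟨a, ha⟩, Finset.mem_attach _ _, rfl⟩)
      simpa using add_mem this (algebraMap_mem _ (c ⟨a, m a ha⟩)))
  have le : Ideal.span {a : T | (a : F) ∈ v} ≤ q := Ideal.span_le.2 fun x hx => by
    obtain ⟨a, -, k⟩ := Finset.mem_image.1 hx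
    have := hc ⟨a, m a a.2⟩
    rwa [show _ - _ = x from Subtype.ext k] at this
  have k : ∀ a ∈ Ad v, ∀ b : T, (b : F) = a →
      ∃ d : ℂ, b - algebraMap ℂ T d ∈ Ideal.span {a : T | (a : F) ∈ v} := fun a ha => by
    induction ha using Algebra.adjoin_induction with
    | mem x hx => exact fun b k => ⟨0, by
        subst k
        simpa using Ideal.subset_span (s := {a : T | (a : F) ∈ v}) hx⟩
    | algebraMap d => exact fun b k => ⟨d, by rw [show b = algebraMap ℂ T d from Subtype.ext k]; simp⟩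
    | add x y kx ky hx hy =>
      intro b k
      obtain ⟨d, hd⟩ := hx ⟨x, e ▸ kx⟩ rfl
      obtain ⟨d', hd'⟩ := hy ⟨y, e ▸ ky⟩ rfl
      refine ⟨d + d', ?_⟩
      rw [show b = ⟨x, e ▸ kx⟩ + ⟨y, e ▸ ky⟩ from Subtype.ext k, map_add, add_sub_add_comm]
      exact add_mem hd hd'
    | mul x y kx ky hx hy =>
      intro b k
      obtain ⟨d, hd⟩ := hx ⟨x, e ▸ kx⟩ rfl
      obtain ⟨d', hd'⟩ := hy ⟨y, e ▸ ky⟩ rfl
      refine ⟨d * d', ?_⟩
      rw [show b = ⟨x, e ▸ kx⟩ * ⟨y, e ▸ ky⟩ from Subtype.ext k, map_mul]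
      exact Ideal.mul_sub_mul_mem _ hd hd'
  refine ⟨v, e, le_antisymm le fun b hb => ?_⟩
  obtain ⟨d, hd⟩ := k b (e.ge b.2) b rfl
  by_cases d0 : d = 0
  · simpa [d0] using hd
  · exact (hq.ne_top (q.eq_top_of_isUnit_mem (by simpa using q.sub_mem hb (le hd))
      ((IsUnit.mk0 d d0).map (algebraMap ℂ T)))).elim

theorem ord_ge (o : ∀ a ∈ T, a ∈ R.ring) {x : T} (hx : x ∈ Ideal.span {a : T | (a : F) ∈ v}) :
    (x : F) ∈ R.sub (mx v R) := by
  induction hx using Submodule.span_induction with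
  | mem x hx => exact R.span_le_sub v (Submodule.subset_span hx)
  | zero => exact zero_mem _
  | add a b _ _ ha hb => exact add_mem ha hb
  | smul c a _ ha =>
    refine or_iff_not_imp_left.2 fun z => ?_
    have z : (c : F) * a ≠ 0 := z
    have b := ha.resolve_left (right_ne_zero_of_mul z)
    have d := Int.cast_nonneg (R := ℝ) (Pl.ord_nonneg_of_mem _ (o c c.2))
    change 0 ≤ (R.ord ((c : F) * a) : ℝ) + _
    rw [Pl.ord_mul _ (left_ne_zero_of_mul z) (right_ne_zero_of_mul z)]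
    push_cast
    linarith

/-- a place centred at a closed point -/
theorem plc (hA : Aff (n + 1) T) (hq : q.IsMaximal) : ∃ x ∈ q, x ≠ 0 ∧ ∃ R, Cen T q R := by
  obtain ⟨x, x1, x0⟩ : ∃ x ∈ q, x ≠ 0 := q.ne_bot_iff.1 fun z => by
    obtain ⟨P, -⟩ := On.exists_unit hA.ff finite_empty
    have k : ∀ a : T, P.ord (a : F) = 0 := fun a => by
      obtain ⟨c, hc⟩ := Eg.res_max hA q a
      rw [z, Ideal.mem_bot, sub_eq_zero] at hc
      rw [hc]
      exact P.ord_const c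
    obtain ⟨a, b, e⟩ := hA.fr P.t
    have a0 : (a : F) ≠ 0 := fun w => P.t_ne (by simp [e, w])
    have b0 : (b : F) ≠ 0 := fun w => P.t_ne (by simp [e, w])
    have := P.ord_t
    rw [e, Pl.ord_div _ a0 b0, k, k] at this
    simp at this
  obtain ⟨V, v1, v2⟩ := Ideal.image_subset_nonunits_valuationSubring (A := T.toSubring) q hq.ne_top
  have w : ∀ a ∈ q, a ≠ 0 → (a : F)⁻¹ ∉ V := fun a ha a0 =>
    (V.mem_nonunits_iff_or.1 (v2 ⟨a, ha, rfl⟩)).resolve_left fun z => a0 (Subtype.ext z)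
  obtain ⟨R, r1, r2⟩ := On.apx hA.ff V hA.fg v1 ⟨x, x.2, w x x1 x0⟩
  obtain ⟨r, k⟩ := Kw.cen_of r1
  refine ⟨x, x1, x0, R, Kw.eq_of_le (Eg.res_max hA q) k (fun a ha => by_contra fun z => ?_) ▸ k⟩
  exact w a ha (fun e => z (e ▸ r.zero_mem)) ((r2 a a.2).1
    ((Pl.ord_eq_zero_iff R.toPlace (Hr.ne_of_notMem z)).1 (Hr.cen_ord k z)).2)

theorem emd (l : Lz S T p q) {E : ℕ} (h : Bx.Emd E T q) : Bx.Emd E S p := by
  obtain ⟨z, z1, z2⟩ := h
  choose s t ht e using fun j => l.lo _ (z j).2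
  refine ⟨s, fun j => (l.frac (ht j) (e j)).1 (z1 j), fun a ha => ?_⟩
  obtain ⟨c, c1, c2⟩ := z2 ⟨a, l.le a.2⟩ ((l.com a _ rfl).1 ha)
  refine ⟨fun j => c j / t j, fun j => ?_, c2.trans (Finset.sum_congr rfl fun j _ => ?_)⟩
  · obtain ⟨a, b, hb, k⟩ := l.lo_eq ▸ c1 j
    exact ⟨a, b * t j, fun w => (l.prime.mem_or_mem w).elim hb (ht j), by
      simp only [k, div_div]; rfl⟩
  · rw [e j]
    ring

/-- **SHR** -/
theorem sh95 : SHR := by
  intro n E b b0 th F _ _ S p y h hA nor hp hy h0 h1 h2 h3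
  obtain ⟨g, g0, hg⟩ := nbh hA hp.isPrime hy h0 h1 h2
  have g1 := Hr.ne_of_notMem g0
  have l := lz_ex (Mi.le_Aw S g) hp.isPrime (Mi.lo_Aw g1 hp.isPrime g0)
  have mq := Mi.Ov.max g1 l.pri (fun a => l.com a _ rfl) hp
  have hT := Mi.aff_Aw hA (g : F)
  have nT := Mi.nor_Aw hA g1 nor
  have gi := Mi.inv_Aw S (g : F)
  have pd : ∀ R, PD (Mi.Aw S g) R → PD S R := fun R ⟨r, a1, a2⟩ => by
    have k := Mi.Ov.lz (p := r.comap (Subalgebra.inclusion (Mi.le_Aw S g))) g1 (Hr.cen_prime a1)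
      fun _ => Iff.rfl
    exact ⟨_, (k.cen R).1 a1, k.lo_eq ▸ a2⟩
  generalize ex hp.isPrime (Mi.lo_Aw g1 hp.isPrime g0) = q at l mq
  generalize Mi.Aw S g = T at *
  obtain ⟨v, rfl, sp⟩ := crd hT mq
  have un : ∀ R : Pl F, (∀ a ∈ Ad v, a ∈ R.ring) → R.rd g ≠ 0 := fun R o z => by
    have := ((Bm.rd_zero_iff R (o _ (l.le g.2))).1 z).resolve_left g1
    have k := Pl.ord_nonneg_of_mem _ (o _ gi)
    rw [Pl.ord_inv] at k
    omega
  have hg' := fun R o => hg R (fun a ha => o a (l.le ha)) (un R o)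
  refine emd l (th F v y h q ⟨hT, nT, hy, h0, fun R a => ?_, fun R o => (hg' R (ring_of o)).1,
    fun R o m => ?_, ?_⟩ ⟨mq, fun a ha => sp ▸ Ideal.subset_span ha⟩)
  · exact (hg' R fun x hx => (a.choose_spec.1 ⟨x, hx⟩).1).2 (pd R a)
  · obtain ⟨r, k⟩ := Kw.cen_of (ring_of o)
    have e := Kw.eq_of_le (Eg.res_max hT q) k fun a ha => (Hr.cen_iff k a).2
      ((ord_ge (ring_of o) (sp ▸ ha)).imp_right fun w => by
        exact_mod_cast (by linarith : (0 : ℝ) < R.ord (a : F)))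
    obtain ⟨x, x1, x0, x2⟩ := h3 R ((l.cen R).1 (e ▸ k))
    have := (ord_ge (x := ⟨x, l.le x.2⟩) (ring_of o) (sp ▸ (l.com x _ rfl).1 x1)).resolve_left
      fun z => x0 (Subtype.ext z)
    have := mul_nonneg b0 this
    linarith
  · obtain ⟨x, x1, x0, R, k⟩ := plc hT mq
    have nz : Nz v := by_contra fun z => x0 (by
      have : Ideal.span {a : Ad v | (a : F) ∈ v} ≤ ⊥ := Ideal.span_le.2 fun a ha =>
        Subtype.ext (by_contra fun w => z ⟨a, ha, w⟩)
      exact this (sp ▸ x1))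
    refine ⟨R, Kw.ov rfl k, ?_⟩
    have : R.mz v ≤ -1 := R.mz_le nz fun f hf f0 => by
      have := ((Hr.cen_iff k ⟨f, Algebra.subset_adjoin hf⟩).1
        (sp ▸ Ideal.subset_span hf)).resolve_left f0
      change 0 < R.ord f at this
      omega
    rw [mx_apply]
    exact_mod_cast (by omega : R.mz v < 0)

end Vale.Agent.P283R.T3.H95
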