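import Vale.Agent.P283R.T3.Lf45

/-!
# P283R, block T3: frames adapted to a hypersurface
-/

open Set

noncomputable section

namespace Vale.Agent.P283R.T3.A78

open Vale.Agent.P287D Vale.Agent.P283M Vale.Agent.P297Z
open Vale.Agent.P285N.Brep (jac)

variable {K : Type} [Field K] [Algebra ℂ K] {n m : ℕ} {P : Pl K} {t h : K}

/-- a frame of the residue field lifts -/
theorem frame (hK : FF K (n + 1)) (P : Pl K) :
    ∃ y : Fin n → K, (∀ i, y i ∈ P.ring) ∧ Frm fun i => P.rd (y i) := by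
  obtain ⟨x, D, hD, -⟩ := Cb.exists_cn (Gm.ff_κ P hK)
  choose y h1 h2 using fun i => Cb.rd_surj (P := P) (x i)
  exact ⟨y, h1, D, by simpa only [h2] using hD⟩

/-- change of the frame -/
theorem chg {d : ℕ} {y z : Fin d → K} (hy : Frm y) (hz : Frm z) (hm : 0 < m) (h0 : h ≠ 0) :
    ∃ w, w ≠ 0 ∧ ld z m w = ld y m h := by
  obtain ⟨D, hD⟩ := hy
  have j0 := (Cb.jac_ne_iff hD z).2 hz.ind
  have e := Cb.kap_chg hD j0
  have m0 : (m : ℝ) ≠ 0 := Nat.cast_ne_zero.2 hm.ne'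
  refine ⟨h * jac D z ^ m, mul_ne_zero h0 (pow_ne_zero _ j0), funext fun R => ?_⟩
  rw [ld, ld, e, Pl.ord_mul _ h0 (pow_ne_zero _ j0), Pl.ord_pow]
  simp only [Pi.add_apply, dv]
  push_cast
  field_simp
  ring

/-- the principal b-divisor of a frame and a function -/
theorem gam {d : ℕ} {y : Fin d → K} (hy : Frm y) (h0 : h ≠ 0) :
    ∃ g : K, g ≠ 0 ∧ ∀ R, dsc d (dv g) R + 1 = ld y 1 h R := by
  obtain ⟨j, j0, e⟩ := Cb.kap_cn hy.ff hy.ind
  refine ⟨h / j, div_ne_zero h0 j0, fun R => ?_⟩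
  rw [ld, e]
  simp only [dsc, Pi.sub_apply, Pi.add_apply, dv, Pl.ord_div _ h0 j0]
  push_cast
  ring

/-- **ADJ** -/
theorem adj78 (hK : FF K (n + 1)) (ht : 0 < P.ord t) {y₀ : Fin (n + 1) → K} (hy : Frm y₀)
    (hm : 0 < m) (h0 : h ≠ 0) (hP : ld y₀ m h P = P.ord t) :
    ∃ (y : Fin n → K) (w : K), (∀ i, y i ∈ P.ring) ∧ (Frm fun i => P.rd (y i)) ∧ w ≠ 0 ∧
      P.ord w = 0 ∧ P.rd w ≠ 0 ∧ ld (Fin.cons t y : Fin (n + 1) → K) m w = ld y₀ m h ∧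
      ∀ Γ : BD K, (∀ R, dsc (n + 1) Γ R + 1 = ld y₀ m h R) →
        ∀ Q, dsc n (adj n P (Γ + dv t)) Q + 1 = ld (fun i => P.rd (y i)) m (P.rd w) Q := by
  obtain ⟨y, h1, h2⟩ := frame hK P
  obtain ⟨f, e⟩ := L45.ld_self (m := m) (w := 1) hK ht h1 h2 (by simp)
  obtain ⟨w, w0, ew⟩ := chg hy f hm h0
  have m0 : (m : ℝ) ≠ 0 := Nat.cast_ne_zero.2 hm.ne'
  have ow : P.ord w = 0 := by
    have a := congrFun ew P
    rw [hP, ← e, ld, ld] at a
    have b : (P.ord w : ℝ) / m = 0 := by simpa using a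
    exact_mod_cast (div_eq_zero_iff.1 b).resolve_right m0
  have wr : w ∈ P.ring := (Pl.ord_nonneg_iff _ w0).1 ow.ge
  refine ⟨y, w, h1, h2, w0, ow,
    fun e => ((Bm.rd_zero_iff P wr).1 e).elim w0 fun k => by omega, ew, fun Γ hΓ => ?_⟩
  refine (H.adf hK P ht h1 h2 ow m (funext fun R => ?_)).2.2.2.2
  have a := hΓ R
  rw [← ew, ld] at a
  simp only [dsc, Pi.sub_apply, Pi.add_apply, Pi.smul_apply, dv, smul_eq_mul] at a ⊢
  rw [div_eq_inv_mul] at a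
  linarith

end Vale.Agent.P283R.T3.A78
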