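import Vale.Agent.P283R.T3.Lf45
import Vale.Agent.P283R.Tg.St

/-!
# P283R, block T3: mild points have small embedding dimension, statements
-/

open Set

noncomputable section

namespace Vale.Agent.P283R.T3

open Vale.Agent.P287D Vale.Agent.P283M

section defs

variable {K : Type} [Field K] [Algebra ℂ K]

/-- the coordinate ring -/
abbrev Ad (v : Finset K) : Subalgebra ℂ K := Algebra.adjoin ℂ (v : Set K)

/-- the variety `Spec (Ad v)` with `K = div h`, klt, mild at the origin -/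
structure Th (n : ℕ) (b : ℝ) (v : Finset K) (y : Fin (n + 2) → K) (h : K) : Prop where
  aff : Aff (n + 2) (Ad v)
  nor : IsIntegrallyClosed (Ad v)
  frm : Frm y
  ne : h ≠ 0
  pd : ∀ R, PD (Ad v) R → ld y 1 h R = 1
  klt : ∀ R, Ov v R → 0 < ld y 1 h R
  ter : ∀ R, Ov v R → mx v R < 0 → 1 - b * mx v R < ld y 1 h R
  ex : ∃ R, Ov v R ∧ mx v R < 0

/-- the hyperplane section with the discrepancy function `a` -/
structure Sf (n : ℕ) (b : ℝ) (v : Finset K) (a : Pl K → ℝ) : Prop where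
  ff : FF K (n + 1)
  big : Big (inf v)
  ex : ∃ Q, Ov v Q ∧ mx v Q < 0
  h0 : ∀ Q, Ov v Q → ¬ mx v Q < 0 → 0 ≤ a Q
  h1 : ∀ Q, Ov v Q → mx v Q < 0 → (1 - b) * mx v Q < a Q

open Classical in
/-- the residues -/
def rv (P : Pl K) (v : Finset K) : Finset P.κ := v.image P.rd

/-- `p` is the origin -/
def Og (v : Finset K) (p : Ideal (Ad v)) : Prop :=
  p.IsMaximal ∧ ∀ a : Ad v, (a : K) ∈ v → a ∈ p

end defs

/-- **BRT**: the general hyperplane section -/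
def BRT : Prop := ∀ (n : ℕ) (b : ℝ) (K : Type) [Field K] [Algebra ℂ K] (v : Finset K)
  (y : Fin (n + 2) → K) (h : K), 0 ≤ b → Th n b v y h →
    ∃ t ∈ Submodule.span ℂ (v : Set K), ∃ P : Pl K, Ov v P ∧ P.ord t = 1 ∧ ld y 1 h P = 1 ∧
      Sf n b (rv P v) (dsc (n + 1) (adj (n + 1) P (cn K (n + 2) - kap y + dv h + dv t)))

/-- **ADJ**: the adapted frame -/
def ADJ : Prop := ∀ (n : ℕ) (K : Type) [Field K] [Algebra ℂ K] (y : Fin (n + 1) → K) (h t : K)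
  (P : Pl K), FF K (n + 1) → Frm y → h ≠ 0 → P.ord t = 1 → ld y 1 h P = 1 →
    ∃ (x : Fin n → K) (w : K), (∀ i, x i ∈ P.ring) ∧ Frm (fun i => P.rd (x i)) ∧ w ≠ 0 ∧
      P.ord w = 0 ∧ ld (Fin.cons t x : Fin (n + 1) → K) 1 w = ld y 1 h ∧
      ∀ Q, dsc n (adj n P (cn K (n + 1) - kap y + dv h + dv t)) Q + 1 =
        ld (fun i => P.rd (x i)) 1 (P.rd w) Q

/-- **SF**: the surface lemma -/
def SF : Prop := ∀ (K : Type) [Field K] [Algebra ℂ K] (v : Finset K) (y : Fin 2 → K) (w : K),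
  Frm y → w ≠ 0 → Sf 1 0 v (fun Q => ld y 1 w Q - 1) → ∃ f : K, f ≠ 0 ∧
    (∀ Q, Ov v Q → 0 < ld y 1 w Q + Q.ord f) ∧
    ∃ Q, Ov v Q ∧ mx v Q < 0 ∧ (Q.ord f : ℝ) + mx v Q < 0

/-- **UNI**: places of the section over the origin; functions outside of the maximal ideal -/
def UNI : Prop := ∀ (K : Type) [Field K] [Algebra ℂ K] (v : Finset K) (P : Pl K)
  (p : Ideal (Ad v)), Og v p → Ov v P → (∃ Q, Ov (rv P v) Q ∧ mx (rv P v) Q < 0) →
    Thp (Ad v) {p} P ∧ (∀ Q, L45.Thr (Ad v) p P Q → Ov (rv P v) Q) ∧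
    ∀ g ∈ Lo (Ad v) p, P.rd g ≠ 0 →
      (∃ Q, Ov (rv P v) Q ∧ mx (rv P v) Q < 0 ∧ (Q.ord (P.rd g) : ℝ) + mx (rv P v) Q < 0) →
      ∀ Q, Ov (rv P v) Q → mx (rv P v) Q < 0 → Q.ord (P.rd g) = 0

/-- **NRM**: a klt hyperplane section -/
def NRM : Prop := ∀ (n : ℕ) (K : Type) [Field K] [Algebra ℂ K] (S : Subalgebra ℂ K) (p : Ideal S)
  (P : Pl K) (t : S) (x : Fin n → K) (w : K), Aff (n + 1) S → IsIntegrallyClosed S →
    p.IsMaximal → Thp S {p} P → t ∈ p → 0 < P.ord (t : K) → (∀ i, x i ∈ P.ring) →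
    Frm (fun i => P.rd (x i)) → w ≠ 0 → P.ord w = 0 →
    (∀ R, PDat S p R → ld (Fin.cons (t : K) x : Fin (n + 1) → K) 1 w R = 1) →
    (∀ Q, L45.Thr S p P Q → 0 < ld (fun i => P.rd (x i)) 1 (P.rd w) Q) →
    ∃ (S₁ : Subalgebra ℂ P.κ) (p₁ : Ideal S₁), Aff n S₁ ∧ IsIntegrallyClosed S₁ ∧ p₁.IsMaximal ∧
      (∀ Q, Thp S₁ {p₁} Q → L45.Thr S p P Q) ∧ (∀ a ∈ p, ∃ a₁ ∈ p₁, (a₁ : P.κ) = P.rd a) ∧
      (∀ Q, PDat S₁ p₁ Q → ld (fun i => P.rd (x i)) 1 (P.rd w) Q = 1) ∧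
      ∀ E, Bx.Emd E S₁ p₁ → Bx.Emd (E + 1) S p

/-- **M2**: rational double points -/
def M2 : Prop := Tg.EM 2 3 0 0

/-- **TH**: the theorem, with coordinates -/
def TH (n E : ℕ) (b : ℝ) : Prop := ∀ (K : Type) [Field K] [Algebra ℂ K] (v : Finset K)
  (y : Fin (n + 2) → K) (h : K) (p : Ideal (Ad v)), Th n b v y h → Og v p → Bx.Emd E (Ad v) p

/-- **SHR**: shrinking, the choice of coordinates -/
def SHR : Prop := ∀ (n E : ℕ) (b : ℝ), 0 ≤ b → TH n E b → Tg.EM (n + 2) E 1 b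

/-- **TH3**: threefolds -/
def TH3 : Prop := BRT → ADJ → SF → UNI → NRM → M2 → TH 1 4 0

/-- **IND**: the step of the induction -/
def IND : Prop := BRT → ADJ → UNI → NRM → ∀ (n E : ℕ) (b : ℝ), 0 ≤ b →
  Tg.EM (n + 1) E 1 b → TH n (E + 1) (b + 1)

/-- **MILD**: all dimensions -/
def MILD : Prop := ∀ n : ℕ, Tg.EM (n + 3) (n + 4) 1 n

end Vale.Agent.P283R.T3
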