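import Vale.Agent.P283R.T3.M2w
import Vale.Agent.P283R.T3.Sh95
import Vale.Agent.P283R.Tg.Cdv

/-!
# P283R, block T3: mild points have embedding dimension at most `d + 1`
-/

namespace Vale.Agent.P283R

/-- **MILD** -/
theorem T3.mild : T3.MILD := T3.mild_of' T3.m2 T3.H95.sh95

theorem T3.em {d : ℕ} (hd : 3 ≤ d) : Tg.EM d (d + 1) 1 (d - 3) := T3.mild.em hd

theorem T3.em0 {d : ℕ} (hd : 2 ≤ d) : Tg.EM d (d + 1) 0 (d - 2) := T3.mild.em0 T3.m2 hd

/-- **mild index one covers** -/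
theorem Sl.on_cdv :
    Sl.On fun d _ Z f ω B z => 3 ≤ d ∧ Sl.Crepant f ω B z ∧ Sl.MildCover d (d - 3) Z z :=
  Sl.on_cdv_of T3.mild

end Vale.Agent.P283R
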