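import Vale.Agent.P283R.T3.St
import Vale.Agent.P283R.T3.Ad78

/-!
# P283R, block T3: the row ADJ
-/

noncomputable section

namespace Vale.Agent.P283R.T3

open Vale.Agent.P287D Vale.Agent.P283M

/-- **ADJ** -/
theorem adj : ADJ := by
  intro n K _ _ y h t P hK hy h0 ht hP
  obtain ⟨x, w, a, b, c, d, -, e, f⟩ := A78.adj78 (m := 1) (t := t) (P := P) hK (by omega) hy one_pos h0
    (by rw [hP, ht, Int.cast_one])
  refine ⟨x, w, a, b, c, d, e, f _ fun R => ?_⟩
  simp only [dsc, ld, Pi.sub_apply, Pi.add_apply, dv, Nat.cast_one, div_one]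
  ring

end Vale.Agent.P283R.T3
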