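import Vale.Agent.P287D.Ti.Plt
import Vale.Agent.P287D.I.Sm
import Vale.Agent.P287D.Ad.All
import Vale.Agent.P283R.Br.Opn
import Vale.Agent.P283M.Kl.Bas

/-!
# P283R, block T3: the general hyperplane section through a point
-/

open Set MeasureTheory
open Vale.Agent.P297 (Place)
open Vale.Agent.P277Z Vale.Agent.P277Z.FI Vale.Agent.P277Z.F5

noncomputable section

namespace Vale.Agent.P283R.T3

open Vale.Agent.P287D Vale.Agent.P287D.Pr Vale.Agent.P287D.Ba Vale.Agent.P283M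

variable {n : ℕ} {K : Type} [Field K] [Algebra ℂ K]

/-- one smooth general member of a system -/
theorem ber2 {T₀ : Set (Pl K)} {B : Set (BD K)} (hK : FF K (n + 1)) (hT : T₀.Finite)
    (hB : B.Finite) (hc : ∀ β ∈ B, β ∈ Car K) {u : Finset K} (hu : Nz u) :
    ∃ (s : Finset K) (κ : BD K) (T Y : Finset (Pl K)) (h : Pl K → BD K) (f : K),
      LS n (mx s) κ T h ∧ (∀ P ∈ Y, On n (mx s) P ∧ P ∉ T) ∧ (∀ P ∈ T₀, P ∈ T) ∧
      Sup n (mx s) T κ ∧ (∀ β ∈ B, Sup n (mx s) T β) ∧ f ∈ Submodule.span ℂ (u : Set K) ∧ f ≠ 0 ∧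
      Sup n (mx s) Y (dv f + mx u) ∧ (∀ P ∈ Y, (dv f + mx u) P = 1) ∧
      ∀ Q ∉ Y, (dv f + mx u) Q ≤ dsc (n + 1) κ Q := by
  classical
  obtain ⟨M₀, h₀⟩ := Bm.exists_mdl hK
  obtain ⟨M, m, U, hM, u1, u2, u3, u4, u5, u6⟩ := com h₀ (hB.insert (mx u))
    (forall_mem_insert.2 ⟨mx_mem_Car u, hc⟩) hT (KM M₀).support.finite_toSet
  obtain ⟨D, d1, d2, -, d3⟩ := u6 _ (mem_insert _ _)
  have q1 : ∀ f ∈ u, f ∈ M.H0 D := fun f hf => (sec_bar hM).1 (d2 ▸ P287D.sec_of_mem hf)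
  have q2 := Nb.free_of_mx hM d1 hu d2
  obtain ⟨c, ⟨f, f1, f0, f2, f3, f4⟩, dj⟩ := ((tb.bert _ 0 K M hM U D u u1 u2 d1
    (d3 (mx_mem_CarZ u)) q1 q2).and (I.bert_sm (hloc hM) q1 q2)).exists
  have dj := f1 ▸ dj (f1 ▸ f0)
  have fs : f ∈ Submodule.span ℂ (u : Set K) := f1 ▸ sum_mem fun a _ => by
    rw [← Algebra.smul_def]
    exact Submodule.smul_mem _ _ (Submodule.subset_span a.2)
  have eb : dv f + mx u = bar M (M.div f + D) := by rw [map_add, bar_div hM, d2]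
  obtain ⟨H, s, hH, hs, -⟩ := exists_pol hM
  have g1 := u1.preimage (pl_inj (K := K)).injOn
  have g2 := (M.div f + D).support.finite_toSet.preimage (pl_inj (K := K)).injOn
  have k1 : ∀ P : Pl K, KM M P.toPlace ≠ 0 → P ∈ g1.toFinset := fun P hP => g1.mem_toFinset.2 (by
    have p := KM_dv hM _ (Finsupp.mem_support_iff.2 hP)
    by_cases k : M₀.Pr P.toPlace
    · exact u5 _ (Finsupp.mem_support_iff.2 (by rwa [← KM_pr h₀ k, KM_pr hM p])) p
    · exact u3 ⟨p, k⟩)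
  have k2 : ∀ β ∈ B, Sup n (mx s) g1.toFinset β := fun β hβ => by
    obtain ⟨E, -, rfl, b, -⟩ := u6 β (mem_insert_of_mem _ hβ)
    exact hs ▸ sup_of hM hH fun P hP => g1.mem_toFinset.2 (b (Finsupp.mem_support_iff.2 hP))
  have l : LS n (mx s) _ g2.toFinset _ :=
    hs ▸ ls_of hM hH f4 fun P hP => .inr (g2.mem_toFinset.1 hP)
  have sY : Sup n (mx s) g2.toFinset (dv f + mx u) :=
    eb ▸ hs ▸ sup_of hM hH fun P hP => g2.mem_toFinset.2 (Finsupp.mem_support_iff.2 hP)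
  have one : ∀ P ∈ g2.toFinset, (dv f + mx u) P = 1 := fun P hP => by
    have p := g2.mem_toFinset.1 hP
    have v := (congrFun eb P).trans (bar_pr hM (f4.1 _ (.inr p)) _)
    have a := f2 P.toPlace
    have b := Finsupp.mem_support_iff.1 p
    have c : (0 : ℝ) ≤ _ := (sec_of_span fs).resolve_left f0 P
    obtain ⟨z, hz⟩ := CarZ.int (add_mem (dv_mem_CarZ f) (mx_mem_CarZ u)) P
    rw [← v] at a b
    rw [hz] at a b c ⊢
    have a' : z ≤ 1 := by exact_mod_cast a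
    have b' : z ≠ 0 := by exact_mod_cast b
    have c' : 0 ≤ z := by exact_mod_cast c
    exact_mod_cast (show z = 1 by omega)
  refine ⟨s, _, g1.toFinset, g2.toFinset, _, f,
    hs ▸ ls_of hM hH u2 fun P hP => g1.mem_toFinset.1 hP,
    fun P hP => ⟨l.on P hP, fun a =>
      Finsupp.mem_support_iff.1 (g2.mem_toFinset.1 hP) (f3 _ (g1.mem_toFinset.1 a))⟩,
    fun P hP => g1.mem_toFinset.2 (u4 P hP), hs ▸ sup_of hM hH k1, k2, fs, f0, sY, one,
    fun Q hQ => ?_⟩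
  obtain ⟨x, hx⟩ := ct hM Q
  have z : ∀ P : Pl K, ¬ M.On x P.toPlace → bar M (Finsupp.single P.toPlace 1) Q = 0 :=
    fun P o => by rw [bar_ct hM hx, ordAt_single, one_mul, eqn_off o, P297Z.Pl.ord_one, Int.cast_zero]
  rw [l.exp_apply sY Q]
  by_cases e : ∃ P ∈ g2.toFinset, M.On x P.toPlace
  · obtain ⟨P, hP, o⟩ := e
    rw [Finset.sum_eq_single P (fun P' hP' ne => by
      rw [z P' fun o' => ne (pl_inj (dj x _ (g2.mem_toFinset.1 hP') _ (g2.mem_toFinset.1 hP) o' o)),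
        mul_zero]) (fun k => absurd hP k), one P hP, one_mul]
    exact Ti.plt_bar hM f4 (.inr (g2.mem_toFinset.1 hP)) fun k => hQ (k ▸ hP)
  · rw [Finset.sum_eq_zero fun P hP => by rw [z P fun o => e ⟨P, hP, o⟩, mul_zero]]
    exact l.dn Q

theorem ov_of_cle {u : Finset K} {R P : Pl K} (h : CLe (inf u) R P) (o : Ov u R) : Ov u P :=
  Kl.inf_zero.1 (le_antisymm (not_lt.1 fun k =>
    (h _ (.refl (Kl.inf_nn u)) k).ne' (Kl.inf_zero.2 o)) (Kl.inf_nn u P))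

theorem adj_ring {u : Finset K} {R : Pl K} (o : Ov u R) {a : K}
    (h : a ∈ Algebra.adjoin ℂ (u : Set K)) : a ∈ R.ring := by
  induction h using Algebra.adjoin_induction with
  | mem x hx => exact o x hx
  | algebraMap c => exact R.con c
  | add _ _ _ _ a b => exact add_mem a b
  | mul _ _ _ _ a b => exact mul_mem a b

/-- **the general member, seen from above** -/
theorem brt0 (hK : FF K (n + 1)) {u z : Finset K} {Γ : BD K} (hΓ : Γ ∈ Car K)
    (hz : ∀ a ∈ z, a ∈ Algebra.adjoin ℂ (u : Set K)) (big : Big (inf u))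
    (bd : ∀ R, Ov u R → On n (inf u) R → dsc (n + 1) Γ R ≤ 0)
    (h0 : ∀ R, Ov u R → 0 ≤ dsc (n + 1) Γ R)
    (h1 : ∀ R, Ov u R → mx z R < 0 → 0 < dsc (n + 1) Γ R) {R₀ : Pl K} (o₀ : Ov u R₀)
    (z₀ : mx z R₀ < 0) : ∃ t ∈ Submodule.span ℂ (z : Set K), t ≠ 0 ∧ ∃ P : Pl K, ∃ H ∈ Car K,
      Ov u P ∧ On n (inf u) P ∧ CLe (inf u) R₀ P ∧ P.ord t = 1 ∧ P.mz z = 0 ∧
      dsc (n + 1) Γ P = 0 ∧ H P = 1 ∧ ∀ R, Ov u R → 0 < H R → R ≠ P →
        0 ≤ dsc (n + 1) (Γ + dv t + mx z) R ∧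
          (mx z R < 0 → 0 < dsc (n + 1) (Γ + dv t + mx z) R) := by
  classical
  have nz : Nz z := by_contra fun k => by simp [mx_of_not k] at z₀
  have si := Kl.inf_smp u
  obtain ⟨s, κ, T, Y, h, t, l, y1, -, sκ, sB, ts, t0, sY, one, plt⟩ := ber2 hK finite_empty
    (toFinite {Γ, inf u, mx z})
    (forall_mem_insert.2 ⟨hΓ, forall_mem_insert.2 ⟨si.car, forall_eq.2 (mx_mem_Car z)⟩⟩) nz
  have sΓ := sκ.sub (sB Γ (.inl rfl))
  have sI := (sB (inf u) (.inr (.inl rfl))).1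
  have sz := sB (mx z) (.inr (.inr rfl))
  have ta : t ∈ Algebra.adjoin ℂ ((insert 1 u : Finset K) : Set K) := by
    refine Algebra.adjoin_mono (s := (u : Set K)) (by simp) ?_
    exact (Submodule.span_le (p := Subalgebra.toSubmodule (Algebra.adjoin ℂ (u : Set K)))).2 hz ts
  obtain ⟨k, k0, w⟩ := Br.sec_adj (Finset.mem_insert_self _ _) ta
  have w : 0 ≤ dv t + k • inf u := w.resolve_left t0
  have g0 : 0 ≤ dv t + mx z := (sec_of_span ts).resolve_left t0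
  obtain ⟨P, on, p0, cl⟩ := ((neg'.nn n K hK (inf u) _ si big
    ((Dsc.dv si t).add ((Dsc.refl si).smul k)) fun P _ => w P).2 R₀).1 (by
      have := g0 R₀
      simp only [Pi.add_apply, Pi.smul_apply, Pi.zero_apply, Kl.inf_zero.2 o₀] at this ⊢
      simp only [smul_zero]
      linarith)
  have o := ov_of_cle cl o₀
  have d0 := le_antisymm (bd P o on) (h0 P o)
  have m0 : P.mz z = 0 := le_antisymm (P.mz_le nz fun f hf _ => by
      simpa using P297Z.Pl.ord_nonneg_of_mem _ (adj_ring o (hz f hf)))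
    (by have := mt (h1 P o) d0.not_gt
        simpa [mx] using this)
  have on' := on_mono res' hK si l.smp sI on
  have e1 : (dv t + mx z) P = P.ord t := by simp [dv, mx, m0]
  have py : P ∈ Y := by_contra fun k => by
    have := sY.2 P on' k
    simp only [Pi.add_apply, Pi.smul_apply, Kl.inf_zero.2 o, smul_zero, add_zero, dv] at p0
    linarith
  refine ⟨t, ts, t0, P, h P, CarZ.car (l.hz P), o, on, cl, ?_, m0, d0,
    ((l.hull P on').2 P on').trans P.δ_self, fun R oR hR ne => ?_⟩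
  · exact_mod_cast e1.symm.trans (one P py)
  have ry : R ∉ Y := fun k => by
    rw [(l.hull P on').2 R (y1 R k).1, Pl.δ_ne ne] at hR
    exact hR.false
  have e : dsc (n + 1) (Γ + dv t + mx z) R =
      (dsc (n + 1) κ R - (dv t + mx z) R) + ∑ Q ∈ T, (κ - Γ) Q * h Q R := by
    rw [← l.exp_apply sΓ R]
    simp only [dsc, Pi.add_apply, Pi.sub_apply]
    ring
  have c : ∀ Q ∈ T, (κ - Γ) Q = dsc (n + 1) Γ Q := fun Q q => by
    have := l.d0 (l.on Q q)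
    simp only [dsc, Pi.sub_apply] at this ⊢
    linarith
  have ov : ∀ Q ∈ T, 0 < h Q R → Ov u Q := fun Q q a => ov_of_cle (l.cle (l.on Q q) a sI) oR
  have nn : ∀ Q ∈ T, 0 ≤ (κ - Γ) Q * h Q R := fun Q q =>
    (l.nn (l.on Q q) R).eq_or_lt.elim (fun a => by rw [← a]; simp) fun a =>
      mul_nonneg (c Q q ▸ h0 Q (ov Q q a)) a.le
  have b := sub_nonneg.2 (plt R ry)
  refine ⟨e ▸ add_nonneg b (Finset.sum_nonneg nn), fun a => ?_⟩
  rw [l.exp_apply sz R] at a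
  obtain ⟨Q, q, a⟩ := Finset.exists_lt_of_sum_lt (a.trans_eq (Finset.sum_const_zero (s := T)).symm)
  have a1 : 0 < h Q R := (l.nn (l.on Q q) R).lt_of_ne fun r => by simp [← r] at a
  have a2 : mx z Q < 0 := by_contra fun r => (mul_nonneg (not_lt.1 r) a1.le).not_gt a
  exact e ▸ add_pos_of_nonneg_of_pos b ((mul_pos (c Q q ▸ h1 Q (ov Q q a1) a2) a1).trans_le
    (Finset.single_le_sum nn q))

/-- **BERT**: the general hyperplane section through the point and its adjoint -/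
theorem brt (hK : FF K (n + 1)) {u z : Finset K} {Γ : BD K} (hΓ : Γ ∈ Car K)
    (hz : ∀ a ∈ z, a ∈ Algebra.adjoin ℂ (u : Set K)) (big : Big (inf u))
    (bd : ∀ R, Ov u R → On n (inf u) R → dsc (n + 1) Γ R ≤ 0)
    (h0 : ∀ R, Ov u R → 0 ≤ dsc (n + 1) Γ R)
    (h1 : ∀ R, Ov u R → mx z R < 0 → 0 < dsc (n + 1) Γ R) {R₀ : Pl K} (o₀ : Ov u R₀)
    (z₀ : mx z R₀ < 0) : ∃ t ∈ Submodule.span ℂ (z : Set K), t ≠ 0 ∧ ∃ P : Pl K,
      Ov u P ∧ On n (inf u) P ∧ CLe (inf u) R₀ P ∧ P.ord t = 1 ∧ P.mz z = 0 ∧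
      dsc (n + 1) Γ P = 0 ∧ ∀ Q : Pl P.κ, (∀ a ∈ u, P.rd a ∈ Q.ring) →
        res P (mx z) Q ≤ dsc n (adj n P (Γ + dv t)) Q ∧
          (res P (mx z) Q < 0 → res P (mx z) Q < dsc n (adj n P (Γ + dv t)) Q) := by
  classical
  obtain ⟨t, ts, t0, P, H, cH, o, on, cl, p1, m0, d0, hp, k⟩ := brt0 hK hΓ hz big bd h0 h1 o₀ z₀
  refine ⟨t, ts, t0, P, o, on, cl, p1, m0, d0, fun Q hQ => ?_⟩
  have c1 := add_mem hΓ (dv_mem_Car t)
  have c2 := add_mem c1 (mx_mem_Car z)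
  obtain ⟨R, ⟨r0, r1⟩, r2, -, -, r3⟩ := a2 n K hK P Q {Γ + dv t + mx z, mx z, inf u, H} 0
    (⌊-res P H Q⌋ + 1) (toFinite _) (by
      rintro _ (rfl | rfl | rfl | rfl)
      exacts [c2, mx_mem_Car z, (Kl.inf_smp u).car, cH]) (zero_mem _)
  have oR : Ov u R := Kl.inf_zero.1 (by
    rw [r1 (inf u) (by simp), Kl.inf_zero.2 o, zero_mul, add_zero, Kl.res_inf hK o]
    exact Kl.inf_zero.2 (by simpa [Ov] using hQ))
  have hR : 0 < H R := by
    have a := Int.lt_floor_add_one (-res P H Q)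
    have b : ((⌊-res P H Q⌋ + 1 : ℤ) : ℝ) ≤ R.ord P.t := by exact_mod_cast r2
    rw [r1 H (by simp), hp]
    push_cast at b
    linarith
  obtain ⟨k1, k2⟩ := k R oR hR r0
  have e1 := r3 (Γ + dv t + mx z) (by simp)
  have e2 := r1 (mx z) (by simp)
  have e3 : dsc (n + 1) (Γ + dv t + mx z) P = -1 := by
    rw [dsc_add, dsc_add, d0]
    simp [dv, mx, p1, m0]
  have e4 : mx z P = 0 := by simp [mx, m0]
  rw [e3, (a4 n K hK P _ c1 _ (mx_mem_Car z)).1, dsc_add] at e1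
  rw [e4] at e2
  exact ⟨by linarith, fun a => by linarith [k2 (by linarith)]⟩

end Vale.Agent.P283R.T3
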