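import Vale.Agent.P283R.T3.St
import Vale.Agent.P283R.T3.Brt
import Vale.Agent.P283R.Dg.Spc
import Vale.Agent.P287D.Sc.Sur

/-!
# P283R, block T3: the row BRT
-/

open Set

noncomputable section

namespace Vale.Agent.P283R.T3

open Vale.Agent.P287D Vale.Agent.P287D.Pr Vale.Agent.P283M

namespace B84

variable {n : ℕ} {K : Type} [Field K] [Algebra ℂ K] {v : Finset K} {S : Subalgebra ℂ K}
  {P R : Pl K}

/-- the prime divisors of the model are the prime divisors of the ring -/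
theorem pd_of_on (hA : Aff (n + 1) S) (hN : IsIntegrallyClosed S)
    (hv : Algebra.adjoin ℂ (v : Set K) = S) (o : Ov v R) (on : On n (inf v) R) : PD S R := by
  obtain ⟨q, hq⟩ := Kw.cen_of (S := S) (P := R) fun a ha => adj_ring o (hv ▸ ha)
  have t0 : R.t⁻¹ ∉ R.ring := fun k => by
    have := P297Z.Pl.ord_nonneg_of_mem _ k
    rw [P297Z.Pl.ord_inv, R.ord_t] at this
    omega
  obtain ⟨D, ⟨q', le, c, k⟩, -⟩ : ∃ D, PDat S q D ∧ R.t⁻¹ ∉ D.ring := by
    by_contra! e
    exact t0 (Hr.cen_lo hq ((hrt _ K S hA hN).2.2.1 q (Hr.cen_prime hq) _ e))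
  obtain rfl := On.eq_of_cle hA.ff (Kl.inf_smp v) (Kw.big hA hv) on (Kw.cle_of hA hN hv hq c le)
  exact ⟨q', c, k⟩

theorem pos_of (h : mx v R < 0) {a : K} (ha : a ∈ v) : a = 0 ∨ 0 < R.ord a :=
  or_iff_not_imp_left.2 fun a0 => by
    have := R.le_mz ha a0
    have k : R.mz v < 0 := by simpa [mx] using h
    omega

theorem neg_of (nz : Nz v) (h : ∀ a ∈ v, a = 0 ∨ 0 < R.ord a) :
    Ov v R ∧ mx v R < 0 := by
  obtain ⟨f, hf, f0, e⟩ := R.exists_mz nz
  have := (h f hf).resolve_left f0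
  refine ⟨fun a ha => (h a ha).elim (fun z => z ▸ zero_mem _) fun z =>
    (P297Z.Pl.ord_nonneg_iff _ fun w => by simp [w] at z).1 z.le, ?_⟩
  simp only [mx, e]
  exact_mod_cast (by omega : -R.ord f < 0)

/-- a place of the section over the origin -/
theorem ex (hK : FF K (n + 1)) (o : Ov v P) (o₀ : Ov v R) (z₀ : mx v R < 0)
    (cl : CLe (inf v) R P) (m0 : P.mz v = 0) : ∃ Q, Ov (rv P v) Q ∧ mx (rv P v) Q < 0 := by
  classical
  have nz : Nz v := by_contra fun k => by simp [mx_of_not k] at z₀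
  obtain ⟨f, hf, f0, e⟩ := P.exists_mz nz
  have f1 : P.rd f ≠ 0 := fun k => ((Bm.rd_zero_iff P (o f hf)).1 k).elim f0 fun k => by omega
  obtain ⟨Q, hQ⟩ := Dg.Spc.org (Gm.ff_κ P hK) (fun a : v => P.rd a) ⟨⟨f, hf⟩, f1⟩ fun p hp k => by
    have m : MvPolynomial.aeval (fun a : v => (a : K)) p ∈ Algebra.adjoin ℂ (v : Set K) := by
      rw [Algebra.adjoin_eq_range]
      exact ⟨p, rfl⟩
    rw [← Cb.rd_aeval (P := P) (u := fun a : v => (a : K)) fun a => o a a.2,
      Bm.rd_zero_iff P (adj_ring o m)] at k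
    have k' := (Bm.rd_zero_iff R (adj_ring o₀ m)).2
      (k.imp_right ((Kw.ch o₀).pos cl _ (Kw.mem_af rfl m)))
    rw [Cb.rd_aeval (P := R) (u := fun a : v => (a : K)) fun a => o₀ a a.2,
      show (fun a : v => R.rd a) = 0 from funext fun a =>
        (Bm.rd_zero_iff R (o₀ a a.2)).2 (pos_of z₀ a.2), MvPolynomial.aeval_zero] at k'
    exact hp ((map_eq_zero _).1 k')
  refine ⟨Q, neg_of ⟨_, Finset.mem_image_of_mem _ hf, f1⟩ fun a ha => ?_⟩
  obtain ⟨b, hb, rfl⟩ := Finset.mem_image.1 ha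
  exact hQ ⟨b, hb⟩

end B84

/-- **BRT** -/
theorem brt84 : BRT := by
  classical
  intro n b K _ _ v y h b0 H
  have hK := H.aff.ff
  obtain ⟨j, -, e⟩ := Cb.kap_cn hK H.frm.ind
  set Γ := cn K (n + 2) - kap y + dv h with hΓ
  have c : Γ ∈ Car K := by
    rw [show Γ = dv h - dv j by rw [hΓ, e]; abel]
    exact sub_mem (dv_mem_Car _) (dv_mem_Car _)
  have cm : (-b) • mx v ∈ Car K := (Car K).smul_mem _ (mx_mem_Car v)
  have d : ∀ R, dsc (n + 2) (Γ + (-b) • mx v) R = ld y 1 h R - 1 + b * mx v R := fun R => by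
    rw [dsc_add_smul]
    simp only [dsc, hΓ, ld, dv, Pi.add_apply, Pi.sub_apply, Nat.cast_one, div_one]
    ring
  have big := Kw.big H.aff rfl
  obtain ⟨R₀, o₀, z₀⟩ := H.ex
  have nz : Nz v := by_contra fun k => by simp [mx_of_not k] at z₀
  have np : ∀ R, Ov v R → mx v R ≤ 0 := fun R o => by
    have := R.mz_le nz (k := 0) fun f hf _ => by simpa using P297Z.Pl.ord_nonneg_of_mem _ (o f hf)
    simpa [mx] using this
  have one : ∀ R, Ov v R → 1 ≤ ld y 1 h R := fun R o => by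
    obtain ⟨z, hz⟩ := (Ba.mod.isb _ K hK).2.2 R
    have k := H.klt R o
    have w : ld y 1 h R = (1 + z + R.ord j - R.ord h : ℤ) := by
      simp [ld, e, hz, dv, add_assoc]
    rw [w] at k ⊢
    exact_mod_cast k
  have pd := fun R o on => H.pd R (B84.pd_of_on H.aff H.nor rfl o on)
  obtain ⟨t, ts, -, P, o, on, cl, p1, m0, -, k⟩ := brt hK (u := v) (z := v) (add_mem c cm)
    (fun a ha => Algebra.subset_adjoin ha) big
    (fun R o on => by
      rw [d, pd R o on]
      linarith [mul_nonpos_of_nonneg_of_nonpos b0 (np R o)])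
    (fun R o => by
      rw [d]
      rcases (np R o).eq_or_lt with z | z
      · rw [z]; linarith [one R o]
      · linarith [H.ter R o z])
    (fun R o z => by rw [d]; linarith [H.ter R o z]) o₀ z₀
  have r : res P (mx v) = mx (rv P v) := by
    rw [res'.sys _ K hK, Pl.rs, m0]
    simp [rv]
  have a : ∀ Q, dsc (n + 1) (adj (n + 1) P (Γ + (-b) • mx v + dv t)) Q =
      dsc (n + 1) (adj (n + 1) P (Γ + dv t)) Q + b * mx (rv P v) Q := fun Q => by
    rw [add_right_comm, (a4 _ K hK P _ (add_mem c (dv_mem_Car t)) _ cm).1,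
      res'.smul _ K hK P _ _ (mx_mem_Car v), r, dsc_add_smul]
    ring
  have u : ∀ Q, Ov (rv P v) Q → ∀ a ∈ v, P.rd a ∈ Q.ring := fun Q q a ha =>
    q _ (Finset.mem_image_of_mem _ ha)
  refine ⟨t, ts, P, o, p1, pd P o on, Gm.ff_κ P hK, ?_, B84.ex hK o o₀ z₀ cl m0,
    fun Q q z => ?_, fun Q q z => ?_⟩
  · have := (res'.on _ K hK _ P (Kl.inf_smp v)).1 on
    rwa [Kl.res_inf hK o] at this
  · obtain ⟨Q₀, -, z₁⟩ := B84.ex hK o o₀ z₀ cl m0
    have nz' : Nz (rv P v) := by_contra fun k => by simp [mx_of_not k] at z₁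
    have w : mx (rv P v) Q ≤ 0 := by
      have := Q.mz_le nz' (k := 0) fun f hf _ => by
        simpa using P297Z.Pl.ord_nonneg_of_mem _ (q f hf)
      simpa [mx] using this
    have := (k Q (u Q q)).1
    rw [a, r, le_antisymm w (not_lt.1 z)] at this
    linarith
  · have := (k Q (u Q q)).2 (r ▸ z)
    rw [a, r] at this
    linarith

end Vale.Agent.P283R.T3
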