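import Vale.Agent.P283R.T3.St

/-!
# P283R, block T3: the step of the induction
-/

open Set

noncomputable section

namespace Vale.Agent.P283R.T3

open Vale.Agent.P287D Vale.Agent.P283M

/-- **IND** -/
theorem ind90 : IND := fun brt adj uni nrm n E b b0 em K _ _ v y h p th og => by
  classical
  obtain ⟨t, tv, P, ov, t1, l1, sf⟩ := brt n (b + 1) K v y h (by linarith) th
  obtain ⟨x, w, hx, fr, w0, w1, e, e'⟩ := adj (n + 1) K y h t P th.aff.ff th.frm th.ne t1 l1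
  obtain ⟨u1, u2, -⟩ := uni K v P p og ov sf.ex
  obtain ⟨t', tp, rfl⟩ : ∃ t' ∈ p, ((t' : Ad v) : K) = t := by
    clear t1 sf e e'
    induction tv using Submodule.span_induction with
    | mem a ha => exact ⟨⟨a, Algebra.subset_adjoin ha⟩, og.2 _ ha, rfl⟩
    | zero => exact ⟨0, zero_mem _, rfl⟩
    | add a c _ _ ha hc =>
      obtain ⟨a, p1, rfl⟩ := ha
      obtain ⟨c, p2, rfl⟩ := hc
      exact ⟨a + c, add_mem p1 p2, rfl⟩
    | smul c a _ ha =>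
      obtain ⟨a, p1, rfl⟩ := ha
      exact ⟨algebraMap ℂ _ c * a, p.mul_mem_left _ p1, by simp [Algebra.smul_def]⟩
  have kl : ∀ Q, L45.Thr (Ad v) p P Q → 0 < ld (fun i => P.rd (x i)) 1 (P.rd w) Q := fun Q q => by
    rw [← e']
    by_cases c : mx (rv P v) Q < 0
    · have := sf.h1 Q (u2 Q q) c
      nlinarith
    · linarith [sf.h0 Q (u2 Q q) c]
  obtain ⟨S₁, p₁, a1, a2, a3, a4, a5, a6, a7⟩ := nrm (n + 1) K (Ad v) p P t' x w th.aff th.nor og.1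
    u1 tp (by omega) hx fr w0 w1 (fun R ⟨q, _, r⟩ => by rw [e]; exact th.pd R ⟨q, r⟩) kl
  have tq : ∀ q ≤ p₁, ∀ Q, Cen S₁ q Q → Thp S₁ {p₁} Q := fun q hq Q c =>
    ⟨fun s hs => (c ⟨s, hs⟩).1, p₁, rfl, fun a ha => hq ((c a).2.2 ha)⟩
  refine a7 E (em P.κ S₁ p₁ _ _ a1 a2 a3 fr (Loq.rd_ne w0 w1) a6
    (fun q hq Q c => kl Q (a4 Q (tq q hq Q c))) fun Q c => ?_)
  have nz : Nz (rv P v) := by
    by_contra hc
    obtain ⟨Q, -, q⟩ := sf.ex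
    rw [mx_of_not hc] at q
    exact lt_irrefl _ q
  obtain ⟨f, f1, f0, f2⟩ := Q.exists_mz nz
  obtain ⟨a, ha, rfl⟩ := Finset.mem_image.1 f1
  obtain ⟨a₁, m, e1⟩ := a5 ⟨a, Algebra.subset_adjoin ha⟩ (og.2 _ ha)
  replace e1 : (a₁ : P.κ) = P.rd a := e1
  have o : 0 < Q.ord (P.rd a) := e1 ▸ Loq.ord_pos_of_rd (e1 ▸ f0) (c a₁).1 ((c a₁).2.1 m)
  have e2 : mx (rv P v) Q = -(Q.ord (P.rd a) : ℝ) := by rw [mx_apply, f2, Int.cast_neg]
  have o' : (0 : ℝ) < Q.ord (P.rd a) := by exact_mod_cast o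
  refine ⟨a₁, m, fun z => f0 (by rw [← e1, z]; rfl), ?_⟩
  have := sf.h1 Q (u2 Q (a4 Q (tq _ le_rfl Q c))) (by linarith)
  rw [e1, ← e']
  rw [e2] at this
  linarith

end Vale.Agent.P283R.T3
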