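import Vale.Agent.P283R.T3.Nr45
import Vale.Agent.P283R.T3.St

/-!
# P283R, block T3: **NRM**
-/

noncomputable section

namespace Vale.Agent.P283R.T3

open Vale.Agent.P287D Vale.Agent.P297Z Vale.Agent.P283R.T3.L45

theorem nrm : NRM := by
  intro n K _ _ S p P t x w aff nor mx hP _ pos mem frm ne un bd klt
  have hp := mx.isPrime
  have t0 : (t : K) ≠ 0 := fun e => by simp [e] at pos
  have pd : PDat S p P := by
    by_contra c
    obtain ⟨_, ⟨s, u, u0, rfl⟩, -, e, k⟩ := loc aff nor hp hP one_pos (Gf.lo_of hp t) pos mem frm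
      ne un (fun R hR _ => (bd R hR).le) (f := 1) (.inr fun Q hQ => by simpa using klt Q hQ)
    obtain ⟨-, u1, e1⟩ := rd_div hP s u0
    rw [e1, div_eq_one_iff_eq u1] at e
    have s0 : s ∉ p := fun hs => u0 (by
      obtain ⟨r, _, ⟨⟩, c⟩ := hP
      have := c (s - u) (by rw [Subalgebra.coe_sub, Cb.rd_sub (r s s.2) (r u u.2), e, sub_self])
      simpa using p.sub_mem hs this)
    have i := (hrt _ K S aff nor).2.2.1 p hp (t : K)⁻¹ fun R hR => by
      have r := thp_of hR
      have a := k one_ne_zero R r fun e => c (e ▸ hR)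
      rw [bd R hR, Pl.ord_div _ (Gf.ne_of s0) (Gf.ne_of u0), ord_un r s0, ord_un r u0] at a
      have b : R.ord (t : K) < 1 := by exact_mod_cast (by simpa using a : (R.ord (t : K) : ℝ) < 1)
      refine (Pl.ord_nonneg_iff _ (inv_ne_zero t0)).1 ?_
      rw [Pl.ord_inv]
      omega
    have := Pl.ord_nonneg_of_mem _ (lo_rg hP i)
    rw [Pl.ord_inv] at this
    omega
  have h : Hs n S p P t x w := ⟨aff, nor, mx, pd, pos, mem, frm, ne, un, bd, klt⟩
  obtain ⟨S₁, p₁, ψ, s⟩ := h.sec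
  exact ⟨S₁, p₁, s.aff, s.nor, s.max, fun _ => s.thr,
    fun a ha => ⟨ψ a, (s.mem a).2 ha, s.val a⟩, fun _ => s.triv h, fun _ => s.emd h⟩

end Vale.Agent.P283R.T3
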