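import Vale.Agent.P283R.T3.St

/-!
# P283R, block T3: threefolds
-/

open Set

noncomputable section

namespace Vale.Agent.P283R.T3.T95

open Vale.Agent.P287D Vale.Agent.P283M

variable {K : Type} [Field K] [Algebra ℂ K] {v : Finset K} {p : Ideal (Ad v)} {t : K}

theorem span_mem (o : Og v p) (h : t ∈ Submodule.span ℂ (v : Set K)) :
    ∃ s ∈ p, (s : K) = t := by
  induction h using Submodule.span_induction with
  | mem x hx => exact ⟨⟨x, Algebra.subset_adjoin hx⟩, o.2 _ hx, rfl⟩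
  | zero => exact ⟨0, zero_mem _, rfl⟩
  | add a b _ _ ha hb =>
    obtain ⟨a, a1, rfl⟩ := ha
    obtain ⟨b, b1, rfl⟩ := hb
    exact ⟨a + b, add_mem a1 b1, rfl⟩
  | smul c a _ ha =>
    obtain ⟨a, a1, rfl⟩ := ha
    exact ⟨c • a, Algebra.smul_def c a ▸ p.mul_mem_left _ a1, rfl⟩

theorem thp_of {S : Subalgebra ℂ K} {q r : Ideal S} {R : Pl K} (le : q ≤ r) (c : Cen S q R) :
    Thp S {r} R :=
  ⟨fun s hs => (c ⟨s, hs⟩).1, r, rfl, fun a ha => le ((c a).2.2 ha)⟩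

/-- **TH3** -/
theorem th95 : TH3 := by
  classical
  intro brt adj sf uni nrm m2 K _ _ v y h p T o
  obtain ⟨t, ts, P, ov, t1, l1, s⟩ := brt 1 0 K v y h le_rfl T
  obtain ⟨t, tp, rfl⟩ := span_mem o ts
  obtain ⟨x, w, xr, fx, w0, ow, e, ea⟩ := adj 2 K y h t P T.aff.ff T.frm T.ne t1 l1
  have w1 : P.rd w ≠ 0 := Aj.rd_ne w0 ow
  have s' : Sf 1 0 (rv P v) fun Q => ld (fun i => P.rd (x i)) 1 (P.rd w) Q - 1 := by
    convert s using 2 with Q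
    rw [← ea Q, add_sub_cancel_right]
  obtain ⟨f, f0, f1, f2⟩ := sf P.κ _ _ _ fx w1 s'
  obtain ⟨u1, u2, u3⟩ := uni K v P p o ov s.ex
  have t0 : 0 < P.ord (t : K) := t1 ▸ one_pos
  have pd : ∀ R, PDat (Ad v) p R → ld (Fin.cons (t : K) x : Fin (2 + 1) → K) 1 w R = 1 :=
    fun R ⟨q, _, a⟩ => by
      rw [e]
      exact T.pd R ⟨q, a⟩
  obtain ⟨g, g1, -, rfl, -⟩ := L45.loc T.aff T.nor o.1.isPrime u1 one_pos
    (Gf.lo_of o.1.isPrime t) t0 xr fx w0 ow (fun R a _ => (pd R a).le)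
    (.inr fun Q a => f1 Q (u2 Q a))
  have kl : ∀ Q, L45.Thr (Ad v) p P Q → 0 < ld (fun i => P.rd (x i)) 1 (P.rd w) Q := fun Q a => by
    by_cases b : mx (rv P v) Q < 0
    · simpa [u3 g g1 f0 f2 Q (u2 Q a) b] using f1 Q (u2 Q a)
    · linarith [s'.h0 Q (u2 Q a) b]
  obtain ⟨S₁, p₁, n1, n2, n3, n4, n5, n6, n7⟩ :=
    nrm 2 K _ p P t x w T.aff T.nor o.1 u1 tp t0 xr fx w0 ow pd kl
  refine n7 3 (m2 P.κ S₁ p₁ _ _ n1 n2 n3 fx w1 n6 (fun q a R c => kl R (n4 R (thp_of a c)))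
    fun R c => ?_)
  obtain ⟨Q, -, b⟩ := s.ex
  obtain ⟨a, a1, a0⟩ : Nz (rv P v) := by_contra fun k => by simp [mx_of_not k] at b
  obtain ⟨a, a4, rfl⟩ := Finset.mem_image.1 a1
  obtain ⟨a₁, a2, a3⟩ := n5 ⟨a, Algebra.subset_adjoin a4⟩ (o.2 _ a4)
  exact ⟨a₁, a2, fun z => a0 (by rw [← a3, z]; rfl), by simpa using kl R (n4 R (thp_of le_rfl c))⟩

end Vale.Agent.P283R.T3.T95
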