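import Vale.Agent.P283R.T3.Lf45
import Vale.Agent.P283R.Bx.St

/-!
# P283R, block T3: the embedding dimension of a point and of a hypersurface section
-/

open Set

noncomputable section

namespace Vale.Agent.P283R.T3.U3

open Vale.Agent.P287D Vale.Agent.P297Z

variable {K : Type} [Field K] [Algebra ℂ K] {n E : ℕ} {P : Pl K} {S : Subalgebra ℂ K}
  {p : Ideal S}

theorem thp (hP : Thp S {p} P) : (∀ s ∈ S, s ∈ P.ring) ∧ ∀ a : S, a ∉ p → P.rd a ≠ 0 := by
  obtain ⟨hr, q, rfl, hq⟩ := hP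
  exact ⟨hr, fun a ha e => ha (hq a e)⟩

theorem thp_of (h : PDat S p P) : Thp S {p} P := by
  obtain ⟨q, le, cen, -⟩ := h
  exact ⟨fun s hs => (cen ⟨s, hs⟩).1, p, rfl, fun a ha => le ((cen a).2.2 ha)⟩

theorem rd_div (hP : Thp S {p} P) (s : S) {u : S} (hu : u ∉ p) :
    (s : K) / u ∈ P.ring ∧ P.rd ((s : K) / u) = P.rd s / P.rd u := by
  obtain ⟨hr, h⟩ := thp hP
  obtain ⟨a, b⟩ := Hd.rd_inv' (hr u u.2) (h u hu)
  rw [div_eq_mul_inv, div_eq_mul_inv]
  exact ⟨mul_mem (hr s s.2) a, by rw [Cb.rd_mul (hr s s.2) a, b]⟩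

theorem lo_ring (hP : Thp S {p} P) {g : K} (hg : g ∈ Lo S p) : g ∈ P.ring := by
  obtain ⟨s, u, hu, rfl⟩ := hg
  exact (rd_div hP s hu).1

theorem ord_unit (hP : Thp S {p} P) {u : S} (hu : u ∉ p) : P.ord (u : K) = 0 := by
  obtain ⟨hr, h⟩ := thp hP
  have a := Pl.ord_nonneg_of_mem _ (hr u u.2)
  have b := mt (Bm.rd_zero_iff P (hr u u.2)).2 (h u hu)
  rw [not_or] at b
  omega

/-- a regular function with residue one along `P` is a unit at the point -/
theorem ord_one (hP : Thp S {p} P) {g : K} (hg : g ∈ Lo S p) (g1 : P.rd g = 1) {R : Pl K}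
    (hR : Thp S {p} R) : R.ord g = 0 := by
  obtain ⟨s, u, hu, rfl⟩ := hg
  obtain ⟨hr, h⟩ := thp hP
  rw [(rd_div hP s hu).2, div_eq_one_iff_eq (h u hu)] at g1
  have s0 : s ∉ p := fun e => by
    have : u - s ∉ p := fun k => hu (by simpa using add_mem k e)
    refine h _ this ?_
    push_cast
    rw [Cb.rd_sub (hr u u.2) (hr s s.2), g1, sub_self]
  rw [Pl.ord_div _ (Gf.ne_of s0) (Gf.ne_of hu), ord_unit hR s0, ord_unit hR hu, sub_self]

/-- the kernel of the restriction to `P` is generated by `t` -/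
theorem ker (hS : Aff n S) (nor : IsIntegrallyClosed S) (hp : p.IsPrime) {t : K}
    (t1 : P.ord t = 1) (oth : ∀ R, PDat S p R → R ≠ P → R.ord t ≤ 0) {d : K} (hd : d ∈ Lo S p)
    (d0 : P.rd d = 0) : d / t ∈ Lo S p := by
  have t0 : t ≠ 0 := fun e => by simp [e] at t1
  by_cases e : d = 0
  · simpa [e] using Gf.lo_of hp 0
  refine (hrt _ K S hS nor).2.2.1 p hp _ fun R hR => Cb.mem_ord ?_
  have r := lo_ring (thp_of hR) hd
  rw [Pl.ord_div _ e t0]
  rcases eq_or_ne R P with rfl | ne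
  · have := ((Bm.rd_zero_iff R r).1 d0).resolve_left e
    omega
  · have := Pl.ord_nonneg_of_mem _ r
    have := oth R hR ne
    omega

/-- **UP** -/
theorem up (hS : Aff n S) (nor : IsIntegrallyClosed S) (hp : p.IsPrime) (hP : Thp S {p} P)
    {t : S} (tp : t ∈ p) (t1 : P.ord (t : K) = 1)
    (oth : ∀ R, PDat S p R → R ≠ P → R.ord (t : K) ≤ 0) {T : Subalgebra ℂ P.κ} {q : Ideal T}
    (hq : q.IsPrime) (lie : ∀ a : S, ∃ b : T, (b : P.κ) = P.rd a ∧ (a ∈ p ↔ b ∈ q))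
    (sur : ∀ f : T, ∃ g ∈ Lo S p, P.rd g = f) (em : Bx.Emd E T q) : Bx.Emd (E + 1) S p := by
  obtain ⟨hr, h⟩ := thp hP
  obtain ⟨z, zq, hz⟩ := em
  have key : ∀ f : T, ∃ s u : S, u ∉ p ∧ P.rd s = f * P.rd u ∧ (s ∈ p ↔ f ∈ q) := fun f => by
    obtain ⟨_, ⟨s, u, hu, rfl⟩, e⟩ := sur f
    rw [(rd_div hP s hu).2, div_eq_iff (h u hu)] at e
    obtain ⟨b, b1, b2⟩ := lie s
    obtain ⟨c, c1, c2⟩ := lie u
    have : b = f * c := Subtype.ext (by rw [b1, e, ← c1]; rfl)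
    refine ⟨s, u, hu, e, b2.trans ?_⟩
    rw [this]
    exact ⟨fun k => (hq.mem_or_mem k).resolve_right fun k => hu (c2.2 k),
      fun k => Ideal.mul_mem_right _ _ k⟩
  choose s u hu e m using key
  refine ⟨Fin.cons t fun j => s (z j), Fin.cases tp fun j => (m _).2 (zq j), fun a ha => ?_⟩
  obtain ⟨b, b1, b2⟩ := lie a
  obtain ⟨c, hc, eb⟩ := hz b (b2.1 ha)
  have lc : ∀ j, ∃ C ∈ Lo S p, P.rd (C * s (z j)) = c j * z j := fun j => by
    obtain ⟨α, β, hβ, ec⟩ := hc j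
    have n1 : s β ∉ p := fun k => hβ ((m β).1 k)
    have n2 : u α * s β * u (z j) ∉ p := fun k => (hp.mem_or_mem k).elim
      (fun k => (hp.mem_or_mem k).elim (hu α) n1) (hu _)
    refine ⟨_, ⟨s α * u β, _, n2, rfl⟩, ?_⟩
    have r : ∀ x : S, (x : K) ∈ P.ring := fun x => hr x x.2
    rw [Cb.rd_mul (rd_div hP _ n2).1 (r _), (rd_div hP _ n2).2]
    push_cast
    rw [Cb.rd_mul (r _) (r _), Cb.rd_mul (mul_mem (r _) (r _)) (r _), Cb.rd_mul (r _) (r _), e, e,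
      e, ec]
    have := h _ (hu α)
    have := h _ (hu β)
    have := h _ (hu (z j))
    have := Gf.ne_of hβ
    field_simp
  choose C hC eC using lc
  have sm : ∑ j, C j * s (z j) ∈ Lo S p :=
    Finset.sum_induction _ (· ∈ Lo S p) (fun _ _ => Gf.lo_add hp) (Gf.lo_of hp 0)
      fun j _ => Gf.lo_mul hp (hC j) (Gf.lo_of hp _)
  have hd : (a : K) - ∑ j, C j * s (z j) ∈ Lo S p := by
    have := Gf.lo_add hp (Gf.lo_of hp a) (Gf.lo_mul hp (Gf.lo_of hp (-1)) sm)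
    simpa [sub_eq_add_neg] using this
  have d0 : P.rd ((a : K) - ∑ j, C j * s (z j)) = 0 := by
    have hs : ∀ I : Finset (Fin E), ∑ j ∈ I, C j * s (z j) ∈ P.ring ∧
        P.rd (∑ j ∈ I, C j * s (z j)) = ∑ j ∈ I, c j * z j := fun I => by
      induction I using Finset.induction_on with
      | empty => simpa using Hd.rd_zero' P
      | insert j I hj ih =>
        have r := mul_mem (lo_ring hP (hC j)) (hr _ (s (z j)).2)
        rw [Finset.sum_insert hj, Finset.sum_insert hj, Cb.rd_add r ih.1, eC, ih.2]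
        exact ⟨add_mem r ih.1, rfl⟩
    rw [Cb.rd_sub (hr a a.2) (hs _).1, (hs _).2, ← b1, eb, sub_self]
  have t0 : (t : K) ≠ 0 := fun e => by simp [e] at t1
  refine ⟨Fin.cons _ C, Fin.cases (ker hS nor hp t1 oth hd d0) hC, ?_⟩
  simp [Fin.sum_univ_succ, div_mul_cancel₀ _ t0]

/-- the other components of the hypersurface miss the point -/
theorem oth_of (hP : Thp S {p} P) {t g : K} (hg : g ∈ Lo S p) (g1 : P.rd g = 1)
    (h : ∀ R, PDat S p R → R ≠ P → (R.ord t : ℝ) < 1 + R.ord g) (R : Pl K) (hR : PDat S p R)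
    (ne : R ≠ P) : R.ord t ≤ 0 := by
  have k := h R hR ne
  rw [ord_one hP hg g1 (thp_of hR)] at k
  have : R.ord t < 1 := by exact_mod_cast (by simpa using k : (R.ord t : ℝ) < 1)
  omega

end Vale.Agent.P283R.T3.U3
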