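import Vale.Agent.P283R.T3.St
import Vale.Agent.P283R.T3.Up3

/-!
# P283R, block T3: places of the section over the origin
-/

open Set

noncomputable section

namespace Vale.Agent.P283R.T3

open Vale.Agent.P287D Vale.Agent.P283M Vale.Agent.P297Z

namespace U27

variable {K : Type} [Field K] [Algebra ℂ K] {v : Finset K} {P : Pl K} {p : Ideal (Ad v)}

theorem sub_mul {L : Type} [Field L] [Algebra ℂ L] (Q : Pl L) {r : ℝ} {x y : L}
    (hx : x ∈ Q.sub r) (hy : y ∈ Q.ring) : x * y ∈ Q.sub r := by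
  by_cases x0 : x = 0
  · simp [x0]
  by_cases y0 : y = 0
  · simp [y0]
  have a := hx.resolve_left x0
  have b : (0 : ℝ) ≤ Q.ord y := by exact_mod_cast Pl.ord_nonneg_of_mem _ hy
  refine Or.inr ?_
  rw [Pl.ord_mul _ x0 y0]
  push_cast
  linarith

theorem unit {L : Type} [Field L] [Algebra ℂ L] (Q : Pl L) {r : ℝ} (hr : r < 0) {x : L} {c : ℂ}
    (c0 : c ≠ 0) (hx : x ∈ Q.ring) (h : x - algebraMap ℂ L c ∈ Q.sub r) :
    x ≠ 0 ∧ Q.ord x = 0 := by
  have m : x - algebraMap ℂ L c ∈ Q.ring := sub_mem hx (Q.con c)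
  have e : Q.rd (x - algebraMap ℂ L c) = 0 := (Bm.rd_zero_iff Q m).2 (h.imp_right fun k => by
    have : (0 : ℝ) < Q.ord (x - algebraMap ℂ L c) := by linarith
    exact_mod_cast this)
  rw [Cb.rd_sub hx (Q.con c), Cb.rd_const, sub_eq_zero] at e
  have n : Q.rd x ≠ 0 := by rw [e]; simpa using c0
  have b := mt (Bm.rd_zero_iff Q hx).2 n
  have a := Pl.ord_nonneg_of_mem _ hx
  push Not at b
  exact ⟨b.1, le_antisymm b.2 a⟩

theorem val (og : Og v p) (ov : Ov v P) (a : K) (ha : a ∈ Ad v) : a ∈ P.ring ∧ ∃ c : ℂ,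
    (⟨a, ha⟩ : Ad v) - algebraMap ℂ (Ad v) c ∈ p ∧ ∀ Q, Ov (rv P v) Q →
      P.rd a ∈ Q.ring ∧ P.rd a - algebraMap ℂ P.κ c ∈ Q.sub (mx (rv P v) Q) := by
  classical
  induction ha using Algebra.adjoin_induction with
  | mem x hx =>
    have m : P.rd x ∈ rv P v := by
      unfold rv
      convert Finset.mem_image_of_mem P.rd hx
    refine ⟨ov x hx, 0, by simpa using og.2 ⟨x, _⟩ hx, fun Q hQ => ⟨hQ _ m, ?_⟩⟩
    rw [map_zero, sub_zero]
    refine or_iff_not_imp_left.2 fun k => ?_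
    have := Int.cast_le (R := ℝ).2 (Q.le_mz m k)
    push_cast at this
    change 0 ≤ _ + (Q.mz _ : ℝ)
    linarith
  | algebraMap c =>
    refine ⟨P.con c, c, ?_, fun Q _ => ?_⟩
    · exact (sub_self (algebraMap ℂ (Ad v) c)).symm ▸ p.zero_mem
    · rw [Cb.rd_const, sub_self]
      exact ⟨Q.con c, zero_mem _⟩
  | add a b ka kb ha hb =>
    obtain ⟨r, c, h1, h2⟩ := ha
    obtain ⟨r', c', h3, h4⟩ := hb
    refine ⟨add_mem r r', c + c', ?_, fun Q hQ => ?_⟩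
    · convert add_mem h1 h3 using 1
      ext
      simp
      ring
    · rw [Cb.rd_add r r']
      refine ⟨add_mem (h2 Q hQ).1 (h4 Q hQ).1, ?_⟩
      convert add_mem (h2 Q hQ).2 (h4 Q hQ).2 using 1
      rw [map_add]
      ring
  | mul a b ka kb ha hb =>
    obtain ⟨r, c, h1, h2⟩ := ha
    obtain ⟨r', c', h3, h4⟩ := hb
    refine ⟨mul_mem r r', c * c', ?_, fun Q hQ => ?_⟩
    · convert add_mem (p.mul_mem_right ⟨b, kb⟩ h1) (p.mul_mem_left (algebraMap ℂ (Ad v) c) h3)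
        using 1
      ext
      simp
      ring
    · rw [Cb.rd_mul r r']
      refine ⟨mul_mem (h2 Q hQ).1 (h4 Q hQ).1, ?_⟩
      convert add_mem (sub_mul Q (h2 Q hQ).2 (h4 Q hQ).1) (sub_mul Q (h4 Q hQ).2 (Q.con c))
        using 1
      rw [map_mul]
      ring

end U27

theorem uni27 : UNI := fun K _ _ v P p og ov ⟨Q₀, o₀, z₀⟩ => by
  classical
  have th : Thp (Ad v) {p} P := ⟨fun s hs => (U27.val og ov s hs).1, p, rfl, fun a ha => by
    obtain ⟨-, c, h1, h2⟩ := U27.val og ov a a.2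
    by_cases c0 : c = 0
    · simpa [c0] using h1
    · exact ((U27.unit Q₀ z₀ c0 (h2 Q₀ o₀).1 (h2 Q₀ o₀).2).1 ha).elim⟩
  refine ⟨th, fun Q hQ x hx => ?_, ?_⟩
  · unfold rv at hx
    obtain ⟨a, ha, rfl⟩ := Finset.mem_image.1 (by convert hx)
    exact hQ.1 a (Algebra.subset_adjoin ha)
  rintro _ ⟨s, t, ht, rfl⟩ g0 ⟨Q₁, o₁, z₁, k₁⟩ Q o z
  obtain ⟨-, c, h1, h2⟩ := U27.val og ov s s.2
  obtain ⟨-, c', h3, h4⟩ := U27.val og ov t t.2
  have c0 : c' ≠ 0 := fun e => ht (by simpa [e] using h3)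
  rw [(U3.rd_div th s ht).2] at g0 k₁ ⊢
  have s0 : P.rd (s : K) ≠ 0 := fun e => g0 (by rw [e, zero_div])
  have u : ∀ Q, Ov (rv P v) Q → mx (rv P v) Q < 0 →
      Q.ord (P.rd (s : K) / P.rd (t : K)) = Q.ord (P.rd (s : K)) := fun Q o z => by
    obtain ⟨a, b⟩ := U27.unit Q z c0 (h4 Q o).1 (h4 Q o).2
    rw [Pl.ord_div _ s0 a, b, sub_zero]
  rw [u Q₁ o₁ z₁] at k₁
  rw [u Q o z]
  refine (U27.unit Q z (c := c) (fun e => ?_) (h2 Q o).1 (h2 Q o).2).2
  have := (h2 Q₁ o₁).2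
  rw [e, map_zero, sub_zero] at this
  exact this.elim s0 fun k => by linarith

end Vale.Agent.P283R.T3
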