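import Vale.Agent.P283R.T3.Mo
import Vale.Agent.P283R.T3.Br84
import Vale.Agent.P283R.T3.Adj
import Vale.Agent.P283R.T3.Uni27
import Vale.Agent.P283R.T3.Nrm45
import Vale.Agent.P283R.T3.Th95
import Vale.Agent.P283R.T3.Ind90

/-!
# P283R, block T3: the rows which are closed
-/

namespace Vale.Agent.P283R.T3

theorem mild_of' (h1 : M2) (h2 : SHR) : MILD :=
  mild_of brt84 adj uni27 nrm h1 h2 T95.th95 ind90

end Vale.Agent.P283R.T3
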