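import Vale.Agent.P283R.Be2.SkB
import Vale.Agent.P283R.Be2.SkT
import Vale.Agent.P283R.Ws.Gsk
import Vale.Agent.P283R.Kw.Cn

/-!
# P283R, block T3: adjoint functions on a hypersurface extend
-/

open Set

noncomputable section

namespace Vale.Agent.P283R.T3.L45

open Vale.Agent.P287D Vale.Agent.P283M Vale.Agent.P297Z Vale.Agent.P283R.Sk1

variable {K : Type} [Field K] [Algebra ℂ K] {n m : ℕ} {P : Pl K} {φ w : K} {y : Fin n → K}
  {v : Finset K} {c : ℝ}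

open Classical in
/-- the global form -/
theorem lift (hK : FF K (n + 1)) (hφ : 0 < P.ord φ) (hy : ∀ i, y i ∈ P.ring)
    (hf : Frm fun i => P.rd (y i)) (hw : P.ord w = 0) (ov : Ov v P) (big : Big (inf v))
    (c0 : 0 ≤ c) {f : P.κ} (cd : Cd (fun i => P.rd (y i)) m (P.rd w) (v.image P.rd) c f) :
    ∃ g ∈ P.ring, P.rd g = f ∧ ∀ R, R ≠ P → g = 0 ∨ (R.ord φ : ℝ) <
      ld (Fin.cons φ y : Fin (n + 1) → K) m w R + (c + 1) * inf v R + R.ord g := by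
  obtain ⟨h1, h2, h3, h4, h5⟩ := H.adf hK P hφ hy hf hw m rfl
  set Γ := cn K (n + 1) - kap (Fin.cons φ y : Fin (n + 1) → K) + dv φ + (m : ℝ)⁻¹ • dv w with hΓ
  have pr : -(Γ + -(c + 1) • inf v) - (c + 1) • inf v ∈ Prn K := by
    obtain ⟨j, -, e⟩ := Cb.kap_cn hK h1.ind
    rw [show -(Γ + -(c + 1) • inf v) - (c + 1) • inf v = dv j - dv φ - (m : ℝ)⁻¹ • dv w by
      rw [hΓ, e]; module]
    exact sub_mem (sub_mem (dv_mem_Prn _) (dv_mem_Prn _)) (Submodule.smul_mem _ _ (dv_mem_Prn _))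
  have ds : ∀ R, dsc (n + 1) (Γ + -(c + 1) • inf v) R = dsc (n + 1) Γ R + (c + 1) * inf v R :=
    fun R => by
      simp only [dsc, Pi.sub_apply, Pi.add_apply, Pi.smul_apply, smul_eq_mul]
      ring
  have ic := (Kl.inf_smp v).car
  obtain ⟨g, g1, g2, g3⟩ := Ku.uext n K hK P (Γ + -(c + 1) • inf v) f
    (((Kl.inf_smp v).nef.smul (by linarith)).congr pr)
    ((big.smul (by linarith)).congr pr) (by rw [ds, h3, Kl.inf_zero.2 ov]; simp)
    fun Q => cd.imp_right fun k => by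
      have k1 := k Q
      have k2 := h5 Q
      have k4 : 0 ≤ inf (v.image P.rd) Q := Kl.inf_nn _ Q
      rw [(a4 n K hK P Γ h2 _ (Submodule.smul_mem _ _ ic)).1, Aj.res_smul hK P _ ic,
        Kl.res_inf hK ov]
      simp only [dsc, Pi.sub_apply, Pi.add_apply, Pi.smul_apply, smul_eq_mul] at k2 ⊢
      linarith
  refine ⟨g, g1, g2, fun R r => (g3 R r).imp_right fun k1 => ?_⟩
  have k2 := h4 R
  rw [ds] at k1
  linarith

/-- the log discrepancy of the hypersurface itself -/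
theorem ld_self (hK : FF K (n + 1)) (hφ : 0 < P.ord φ) (hy : ∀ i, y i ∈ P.ring)
    (hf : Frm fun i => P.rd (y i)) (hw : P.ord w = 0) :
    Frm (Fin.cons φ y : Fin (n + 1) → K) ∧
      ld (Fin.cons φ y : Fin (n + 1) → K) m w P = P.ord φ := by
  obtain ⟨h1, -, h3, h4, -⟩ := H.adf hK P hφ hy hf hw m rfl
  have := h4 P
  exact ⟨h1, by linarith⟩

variable {S : Subalgebra ℂ K} {p : Ideal S}

/-- the place `Q` of the hypersurface passes through the point `p` -/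
def Thr (S : Subalgebra ℂ K) (p : Ideal S) (P : Pl K) (Q : Pl P.κ) : Prop :=
  (∀ a ∈ S, P.rd a ∈ Q.ring) ∧ ∀ a : S, Q.rd (P.rd a) = 0 → a ∈ p

theorem ld_div {L : Type} [Field L] [Algebra ℂ L] (hm : 0 < m) (x : Fin n → L) {a f : L}
    (a0 : a ≠ 0) (f0 : f ≠ 0) (Q : Pl L) : ld x m (a / f ^ m) Q = ld x m a Q + Q.ord f := by
  have m0 : (m : ℝ) ≠ 0 := Nat.cast_ne_zero.2 hm.ne'
  rw [ld, ld, Pl.ord_div _ a0 (pow_ne_zero _ f0), Pl.ord_pow]
  push_cast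
  rw [sub_div, mul_div_cancel_left₀ _ m0]
  ring

/-- the local form, before Hartogs -/
theorem loc0 (hS : Aff (n + 1) S) (hp : p.IsPrime) (hP : Thp S {p} P) (hm : 0 < m)
    (hφ : 0 < P.ord φ) (hy : ∀ i, y i ∈ P.ring) (hf : Frm fun i => P.rd (y i)) (w0 : w ≠ 0)
    (hw : P.ord w = 0) {f : P.κ} (f0 : f ≠ 0)
    (h : ∀ Q, Thr S p P Q → 0 < ld (fun i => P.rd (y i)) m (P.rd w) Q + Q.ord f) :
    ∃ g ∈ P.ring, P.rd g = f ∧ ∀ R, Thp S {p} R → R ≠ P → (R.ord φ : ℝ) <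
      ld (Fin.cons φ y : Fin (n + 1) → K) m w R + R.ord g := by
  classical
  obtain ⟨v, hv⟩ := hS.fg
  obtain ⟨hr, q, rfl, hq⟩ := hP
  let ρ := Cb.rdA (P := P) S hr
  have hκ := Gm.ff_κ P hS.ff
  have ov : ∀ {R : Pl K}, (∀ s ∈ S, s ∈ R.ring) → Ov v R := fun r a ha =>
    r a (hv ▸ Algebra.subset_adjoin ha)
  have e : Algebra.adjoin ℂ ((v.image P.rd : Finset P.κ) : Set P.κ) = ρ.range := by
    apply le_antisymm
    · refine Algebra.adjoin_le fun x hx => ?_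
      obtain ⟨a, ha, rfl⟩ := Finset.mem_image.1 hx
      exact ⟨⟨a, hv ▸ Algebra.subset_adjoin ha⟩, rfl⟩
    · rintro _ ⟨⟨a, ha⟩, rfl⟩
      change P.rd a ∈ _
      have r : ∀ b ∈ Algebra.adjoin ℂ (v : Set K), b ∈ P.ring := fun b hb => hr b (hv ▸ hb)
      rw [← hv] at ha
      induction ha using Algebra.adjoin_induction with
      | mem x hx => exact Algebra.subset_adjoin (Finset.mem_image_of_mem _ hx)
      | algebraMap c => exact Cb.rd_const (P := P) c ▸ algebraMap_mem _ c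
      | add a b ka kb ha hb => exact Cb.rd_add (r a ka) (r b kb) ▸ add_mem ha hb
      | mul a b ka kb ha hb => exact Cb.rd_mul (r a ka) (r b kb) ▸ mul_mem ha hb
  have sur := ρ.rangeRestrict_surjective
  have ker : RingHom.ker ρ.rangeRestrict ≤ q := fun a ha => hq a (congrArg Subtype.val ha)
  have pp : (q.map ρ.rangeRestrict).IsPrime := Ideal.map_isPrime_of_surjective sur ker
  have cm : ∀ a, ρ.rangeRestrict a ∈ q.map ρ.rangeRestrict → a ∈ q := fun a ha => by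
    have := Ideal.mem_comap.2 ha
    rw [Ideal.comap_map_of_surjective _ sur] at this
    exact (sup_le le_rfl ker) this
  have wr : w ∈ P.ring := (Pl.ord_nonneg_iff _ w0).1 hw.ge
  have w1 : P.rd w ≠ 0 := fun e => ((Bm.rd_zero_iff P wr).1 e).elim w0 fun k => by omega
  obtain ⟨g, g0, c, c0, hg⟩ := twi n P.κ ρ.range (q.map ρ.rangeRestrict) _ m (P.rd w / f ^ m)
    (v.image P.rd) hκ pp hf.ind (div_ne_zero w1 (pow_ne_zero _ f0)) e fun Q ⟨r, _, rfl, k⟩ => by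
      rw [ld_div hm _ w1 f0]
      exact h Q ⟨fun a ha => r _ ⟨⟨a, ha⟩, rfl⟩, fun a ha => cm a (k (ρ.rangeRestrict a) ha)⟩
  obtain ⟨s, rfl⟩ := sur g
  have s0 : s ∉ q := fun e => g0 (Ideal.mem_map_of_mem _ e)
  have s1 : P.rd s ≠ 0 := fun e => s0 (hq s e)
  have un : ∀ {R : Pl K}, (∀ s ∈ S, s ∈ R.ring) → R.rd s ≠ 0 → R.ord (s : K) = 0 :=
    fun {R} r k => by
      have a := Pl.ord_nonneg_of_mem _ (r s s.2)
      have b := mt (Bm.rd_zero_iff R (r s s.2)).2 k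
      rw [not_or] at b
      omega
  obtain ⟨G, G1, G2, G3⟩ := lift (m := m) hS.ff hφ hy hf hw (ov hr) (Kw.big hS hv) c0
    (f := P.rd s * f) (.inr fun Q => by
      have := hg Q
      rw [ld_div hm _ w1 f0] at this
      rw [Pl.ord_mul _ s1 f0]
      push_cast
      change _ < _ + _ + (Q.ord (P.rd s) : ℝ) at this
      linarith)
  have G0 : G ≠ 0 := fun e => mul_ne_zero s1 f0 (by rw [← G2, e, Hd.rd_zero'])
  have si : (s : K)⁻¹ ∈ P.ring := (Hd.rd_inv' (hr s s.2) s1).1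
  refine ⟨G * (s : K)⁻¹, mul_mem G1 si, ?_, fun R ⟨r, _, rfl, k⟩ ne => ?_⟩
  · rw [Cb.rd_mul G1 si, G2, (Hd.rd_inv' (hr s s.2) s1).2, mul_comm, inv_mul_cancel_left₀ s1]
  · have := (G3 R ne).resolve_left G0
    rw [Kl.inf_zero.2 (ov r)] at this
    rw [Pl.ord_mul _ G0 (inv_ne_zero (Gf.ne_of s0)), Pl.ord_inv, un r fun e => s0 (k s e)]
    push_cast
    linarith

/-- **LIFT**: an adjoint function on the hypersurface `φ = 0` is the restriction of a regular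
function -/
theorem loc (hS : Aff (n + 1) S) (nor : IsIntegrallyClosed S) (hp : p.IsPrime) (hP : Thp S {p} P)
    (hm : 0 < m) (φS : φ ∈ Lo S p) (hφ : 0 < P.ord φ) (hy : ∀ i, y i ∈ P.ring)
    (hf : Frm fun i => P.rd (y i)) (w0 : w ≠ 0) (hw : P.ord w = 0)
    (bd : ∀ R, PDat S p R → R ≠ P → ld (Fin.cons φ y : Fin (n + 1) → K) m w R ≤ 1) {f : P.κ}
    (h : f = 0 ∨ ∀ Q, Thr S p P Q → 0 < ld (fun i => P.rd (y i)) m (P.rd w) Q + Q.ord f) :
    ∃ g ∈ Lo S p, g ∈ P.ring ∧ P.rd g = f ∧ (f ≠ 0 → ∀ R, Thp S {p} R → R ≠ P → (R.ord φ : ℝ) <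
      ld (Fin.cons φ y : Fin (n + 1) → K) m w R + R.ord g) := by
  by_cases f0 : f = 0
  · exact ⟨0, Gf.lo_of hp 0, zero_mem _, by rw [f0, Hd.rd_zero'], fun k => (k f0).elim⟩
  obtain ⟨g, g1, g2, g3⟩ := loc0 hS hp hP hm hφ hy hf w0 hw f0 (h.resolve_left f0)
  have g0 : g ≠ 0 := fun e => f0 (by rw [← g2, e, Hd.rd_zero'])
  refine ⟨g, (hrt _ K S hS nor).2.2.1 p hp g fun R hR => ?_, g1, g2, fun _ => g3⟩
  rcases eq_or_ne R P with rfl | ne
  · exact g1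
  obtain ⟨q, le, cen, -⟩ := id hR
  have k := g3 R ⟨fun s hs => (cen ⟨s, hs⟩).1, p, rfl, fun a ha => le ((cen a).2.2 ha)⟩ ne
  have o : (0 : ℝ) ≤ R.ord φ := by
    obtain ⟨s, t, ht, rfl⟩ := φS
    exact_mod_cast Pl.ord_nonneg_of_mem _ (Gf.lo_ring cen ⟨s, t, fun e => ht (le e), rfl⟩)
  have h2 : (-1 : ℝ) < R.ord g := by linarith [bd R hR ne]
  have h3 : -1 < R.ord g := by exact_mod_cast h2
  exact (Pl.ord_nonneg_iff _ g0).1 (by omega)

end Vale.Agent.P283R.T3.L45
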