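import Vale.Agent.P283R.Tg.St
import Vale.Agent.P283R.T3.Lf45

/-!
# P283R, mild singularities: the rows of the assembly
-/

open Set

noncomputable section

namespace Vale.Agent.P283R.T3

open Vale.Agent.P287D Vale.Agent.P283M

open Classical in
/-- **BRW**: the general hyperplane section through the point -/
def BRW : Prop := ∀ (n b : ℕ) (F : Type) [Field F] [Algebra ℂ F] (S : Subalgebra ℂ F) (p : Ideal S)
  (y₀ : Fin (n + 1) → F) (h : F), 1 ≤ n → Aff (n + 1) S → IsIntegrallyClosed S → p.IsMaximal →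
    Frm y₀ → h ≠ 0 → (∀ R, PDat S p R → ld y₀ 1 h R = 1) →
    (∀ q : Ideal S, q ≤ p → ∀ R, Cen S q R → 0 < ld y₀ 1 h R) →
    (∀ R, Cen S p R → ∃ x ∈ p, x ≠ 0 ∧ 1 + (b : ℝ) * R.ord (x : F) < ld y₀ 1 h R) →
    ∃ (P : Pl F) (t : S) (y : Fin n → F) (w : F) (u z : Finset F), t ∈ p ∧ Thp S {p} P ∧
      0 < P.ord (t : F) ∧ (∀ i, y i ∈ P.ring) ∧ Frm (fun i => P.rd (y i)) ∧ w ≠ 0 ∧ P.ord w = 0 ∧
      ld (Fin.cons (t : F) y : Fin (n + 1) → F) 1 w = ld y₀ 1 h ∧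
      S ≤ Algebra.adjoin ℂ (u : Set F) ∧ (∀ a ∈ u, a ∈ Lo S p) ∧
      Ideal.span {a : S | (a : F) ∈ z} = p ∧ (∀ a ∈ z, a ∈ S) ∧ On n (inf u) P ∧ P.mz z = 0 ∧
      ∀ Q : Pl P.κ, Ov (u.image P.rd) Q →
        (1 - (b : ℝ)) * res P (mx z) Q + 1 ≤ ld (fun i => P.rd (y i)) 1 (P.rd w) Q ∧
        (res P (mx z) Q < 0 →
          (1 - (b : ℝ)) * res P (mx z) Q + 1 < ld (fun i => P.rd (y i)) 1 (P.rd w) Q)

end Vale.Agent.P283R.T3
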