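import Vale.Agent.P283R.T3.Ms97
import Vale.Agent.P283R.H.Tpd
import Vale.Agent.P283R.Tp.Der
import Vale.Agent.P283R.Tp.Ram
import Vale.Agent.P287D.Hd.Grs

/-!
# P283R, block T3: the trace of a function with small poles is regular
-/

open Set MvPolynomial

noncomputable section

namespace Vale.Agent.P283R.T3.M97

open Vale.Agent.P287D Vale.Agent.P297Z

section

variable {k F : Type} [Field k] [Algebra ℂ k] [Field F] [Algebra ℂ F] [Algebra k F]
  [IsScalarTower ℂ k F]

theorem tr_mem [FiniteDimensional k F] (W : Pl k) {ξ : F} (x0 : ξ ≠ 0)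
    (h : ∀ R : Pl F, Lies (algebraMap k F) R W → 0 < R.ord ξ + R.ord (algebraMap k F W.t)) :
    Algebra.trace k F ξ ∈ W.ring := by
  have : CharZero k := charZero_of_injective_algebraMap (algebraMap ℂ k).injective
  obtain ⟨V, hV⟩ := Skp.val_over (algebraMap k (AlgebraicClosure k)) W
  have t0 : algebraMap k F W.t ≠ 0 := (map_ne_zero _).2 W.t_ne
  have k1 : V.valuation (∑ σ : F →ₐ[k] AlgebraicClosure k, σ (W.t • ξ)) < 1 :=
    V.valuation.map_sum_lt one_ne_zero fun σ _ => by
      have l : ∀ a, a ∈ W.ring ↔ algebraMap k F a ∈ V.comap (σ : F →+* AlgebraicClosure k) :=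
        fun a => by rw [hV, ValuationSubring.mem_comap, RingHom.coe_coe, σ.commutes]
      obtain ⟨R, hR⟩ := Skp.pl_over W _ l
      have o := h R fun a => by rw [hR]; exact l a
      refine V.mem_nonunits_iff.1 (V.mem_nonunits_iff_or.2 (.inr fun c => ?_))
      have m : (W.t • ξ)⁻¹ ∈ R.ring := by
        rw [hR, ValuationSubring.mem_comap, map_inv₀]
        exact c
      have := Pl.ord_nonneg_of_mem _ m
      rw [Pl.ord_inv, Algebra.smul_def, Pl.ord_mul _ t0 x0] at this
      omega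
  rw [← trace_eq_sum_embeddings, map_smul, smul_eq_mul, ← V.mem_nonunits_iff,
    V.mem_nonunits_iff_or, map_eq_zero, ← map_inv₀, ← hV] at k1
  by_cases e : Algebra.trace k F ξ = 0
  · rw [e]
    exact zero_mem _
  have n0 := mul_ne_zero W.t_ne e
  have := mt (Pl.ord_nonneg_iff W.toPlace (inv_ne_zero n0)).1 (k1.resolve_left n0)
  rw [Pl.ord_inv, Pl.ord_mul _ W.t_ne e, W.ord_t] at this
  exact (Pl.ord_nonneg_iff _ e).1 (by omega)

theorem up_aeval (t : Fin 2 → k) (s : MvPolynomial (Fin 2) ℂ) :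
    aeval (up F t) s = algebraMap k F (aeval t s) :=
  (comp_aeval_apply t (IsScalarTower.toAlgHom ℂ k F) s).symm

end

theorem du2 : DU2 := by
  intro k F _ _ _ _ _ _ t S p h ξ hξ
  have hk := h.rat.ff
  have := Pb.fin_of_ff hk h.aff.ff
  by_cases x0 : ξ = 0
  · exact ⟨0, 1, by simp, by simp [x0]⟩
  let A := Algebra.adjoin ℂ (range t)
  let e := h.rat.1.aevalEquiv
  have ev : ∀ s, (e s : k) = aeval t s := fun s => h.rat.1.algebraMap_aevalEquiv s
  have aff : Aff 2 A := ⟨hk, Subalgebra.fg_def.2 ⟨_, finite_range t, rfl⟩, fun z => by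
    obtain ⟨r, s, c⟩ := h.rat.2 z
    exact ⟨e r, e s, by rw [ev, ev, c]⟩⟩
  have nor : IsIntegrallyClosed A := IsIntegrallyClosed.of_equiv e.toRingEquiv
  let m : Ideal A := RingHom.ker (constantCoeff.comp e.symm.toRingEquiv.toRingHom)
  have hm : m.IsPrime := RingHom.ker_isPrime _
  have mm : ∀ s, e s ∈ m ↔ constantCoeff s = 0 := fun s => by simp [m]
  obtain ⟨D, hD⟩ := Cb.fr_of hk h.rat.1
  have dA : ∀ j, ∀ a ∈ A, D j a ∈ A := fun j a ha => by
    induction ha using Algebra.adjoin_induction with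
    | mem x hx =>
      obtain ⟨i, rfl⟩ := hx
      rw [hD.dual]
      split_ifs
      exacts [one_mem _, zero_mem _]
    | algebraMap c => simp
    | add a b _ _ ha hb => exact map_add (D j) a b ▸ add_mem ha hb
    | mul a b ka kb ha hb =>
      rw [Derivation.leibniz, smul_eq_mul, smul_eq_mul]
      exact add_mem (mul_mem ka hb) (mul_mem kb ha)
  obtain ⟨r, s, s0, c⟩ := (hrt 2 k A aff nor).2.2.1 m hm (Algebra.trace k F ξ) fun W hW =>
    tr_mem W x0 fun R l => by
      have k0 := Dr13.der_kap hm hD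
        (fun j => Dr13.coe_mem hm ⟨t j, Algebra.subset_adjoin ⟨j, rfl⟩⟩)
        (fun j a ha => Dr13.der_lo hm le_rfl (fun s => Dr13.coe_mem hm ⟨_, dA j s s.2⟩) ha) W hW
      obtain ⟨q, le, cen, lo⟩ := hW
      obtain ⟨h1, -, h3⟩ := (ram 2 k F (IsScalarTower.toAlgHom ℂ k F) t hk h.aff.ff ⟨D, hD⟩).2 R W l
      have iA : ∀ a : A, algebraMap k F a ∈ Algebra.adjoin ℂ (range (up F t)) := fun a => by
        obtain ⟨s, rfl⟩ := e.surjective a
        rw [ev, ← up_aeval, Algebra.adjoin_range_eq_range_aeval]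
        exact ⟨s, rfl⟩
      have uR : ∀ b ∈ Algebra.adjoin ℂ (range (up F t)), b ∈ R.ring := fun b hb => by
        rw [Algebra.adjoin_range_eq_range_aeval] at hb
        obtain ⟨s, rfl⟩ := hb
        change aeval _ s ∈ _
        rw [up_aeval, ← ev]
        exact (l _).1 (cen _).1
      have iS : ∀ a : A, algebraMap k F a ∈ S := fun a => Algebra.adjoin_le (S := S)
        (by
          rintro _ ⟨j, rfl⟩
          obtain ⟨b, -, c⟩ := h.tp j
          exact c ▸ b.2) (iA a)
      have sR : ∀ a ∈ S, a ∈ R.ring := fun a ha => by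
        let φ : Algebra.adjoin ℂ (range (up F t)) →+* R.ring :=
          (Algebra.adjoin ℂ (range (up F t))).val.toRingHom.codRestrict R.ring fun z => uR _ z.2
        obtain ⟨c, rfl⟩ := IsIntegrallyClosed.isIntegral_iff.1
          ((h.int a ha).map_of_comp_eq φ (RingHom.id F) rfl)
        exact c.2
      have sp : Cb.Sp R S := Gm.sp_iff.2 ⟨sR, fun a => Gm.cl_le ?_ ((Gm.sp_iff.1 (Cb.Alg.sp
        (Cb.alg_of_ff hk h.aff.ff fun c => (IsScalarTower.algebraMap_apply ℂ k F c).symm) l)).2 a)⟩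
      · have th : Th0 t R := fun s s0 => by
          rw [up_aeval, ← ev]
          exact (h1 _).trans (by rw [Hr.cen_ord cen fun c => s0 ((mm s).1 (le c)), mul_zero])
        have := hξ.resolve_left x0 R (H.tpd 2 F S R h.aff h.nor sp) th
        rw [k0] at h3
        change 1 + kap (up F t) R = (R.ord (algebraMap k F W.t) : ℝ) * _ at h3
        exact_mod_cast (by linarith : (0 : ℝ) < R.ord ξ + R.ord (algebraMap k F W.t))
      · rintro _ ⟨_, ⟨x, hx, rfl⟩, rfl⟩
        obtain ⟨a, b, b0, rfl⟩ := lo x hx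
        have b1 : W.rd b ≠ 0 := fun c => b0 ((cen b).2.2 c)
        obtain ⟨i1, i2⟩ := Hd.rd_inv' (cen b).1 b1
        rw [← l.isRd _ hx, div_eq_mul_inv, Cb.rd_mul (cen a).1 i1, i2, map_mul, map_inv₀,
          l.isRd _ (cen a).1, l.isRd _ (cen b).1]
        exact mul_mem (Gm.sub_Cl ⟨_, iS a, rfl⟩) (inv_mem (Gm.sub_Cl ⟨_, iS b, rfl⟩))
  obtain ⟨r, rfl⟩ := e.surjective r
  obtain ⟨s, rfl⟩ := e.surjective s
  exact ⟨r, s, fun c => s0 ((mm s).2 c), by rw [c, ev, ev]⟩

end Vale.Agent.P283R.T3.M97
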