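import Vale.Agent.P283R.T3.Sf88
import Vale.Agent.P283R.T3.Lf45
import Vale.Agent.P283R.Tp.Eig

/-!
# P283R, block T3: the general hypersurface section of a mild threefold point is klt
-/

set_option linter.all false

open Set

noncomputable section

namespace Vale.Agent.P283R.T3

open Vale.Agent.P287D Vale.Agent.P283M Vale.Agent.P297Z

namespace K88

/-- the surface lemma for a frame -/
theorem surf' {L : Type} [Field L] [Algebra ℂ L] (hL : FF L 2) {u z : Finset L} {y : Fin 2 → L}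
    {w : L} (hb : Big (inf u)) (hy : Frm y) (w0 : w ≠ 0) (uz : ∀ Q, Ov u Q → Ov z Q)
    (pt : ∀ Q, Ov u Q → mx z Q < 0 → ∀ a, a ∈ u ∨ a ∈ z → ∃ c : ℂ, Q.rd a = algebraMap ℂ _ c)
    (ex : ∃ Q, Ov u Q ∧ mx z Q < 0) (h0 : ∀ Q, Ov u Q → mx z Q + 1 ≤ ld y 1 w Q)
    (h1 : ∀ Q, Ov u Q → mx z Q < 0 → mx z Q + 1 < ld y 1 w Q) :
    ∃ f : L, f ≠ 0 ∧ (∀ Q, Ov u Q → 0 < ld y 1 w Q + Q.ord f) ∧
      ∃ Q, Ov u Q ∧ mx z Q < 0 ∧ (Q.ord f : ℝ) < -mx z Q := by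
  classical
  obtain ⟨j, j0, e⟩ := Cb.kap_cn hL hy.ind
  obtain ⟨Q₀, q1, q2⟩ := ex
  have nz : Nz z := by_contra fun k => by simp [mx_of_not k] at q2
  have l : ∀ Q, ld y 1 w Q = 1 + cn L 2 Q - Q.ord (w / j) := fun Q => by
    rw [ld, e, Pl.ord_div _ w0 j0, Pi.add_apply, dv_apply]
    push_cast
    ring
  have o : ∀ {Q}, Ov u Q → (inf u + inf z) Q = 0 := fun k => by
    rw [Pi.add_apply, Kl.inf_zero.2 k, Kl.inf_zero.2 (uz _ k), add_zero]
  have o' : ∀ {Q}, (inf u + inf z) Q = 0 → Ov u Q := fun {Q} k => Kl.inf_zero.1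
    ((add_eq_zero_iff_of_nonneg (Kl.inf_nn u Q) (Kl.inf_nn z Q)).1 k).1
  have g : ∀ {Q}, Ov u Q → (inf z - mx z) Q = -mx z Q := fun k => by
    rw [Pi.sub_apply, Kl.inf_zero.2 (uz _ k), zero_sub]
  have c : ∀ (Q : Pl L) (v : Finset L), Ov v Q →
      (∀ a ∈ v, ∃ c : ℂ, Q.rd a = algebraMap ℂ _ c) → res Q (inf v) = 0 := fun Q v a b => by
    rw [Kl.res_inf (n := 1) hL a]
    refine funext fun X => Kl.inf_zero.2 fun x hx => ?_
    obtain ⟨x', hx', rfl⟩ := Finset.mem_image.1 hx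
    obtain ⟨c, hc⟩ := b x' hx'
    exact hc ▸ X.con c
  obtain ⟨f, f0, f1, Q, f2, f3, f4⟩ := surf hL (Λ := inf u + inf z) (G := inf z - mx z)
    (j := w / j) ((Kl.inf_smp u).add (Kl.inf_smp z)) (hb.add_smp (Kl.inf_smp z))
    (add_nonneg (Kl.inf_nn u) (Kl.inf_nn z)) (add_mem (mx_mem_CarZ _) (mx_mem_CarZ _))
    (sub_nonneg.2 (mx_mono nz (Finset.subset_insert _ _)))
    (by rw [show inf u + inf z - (inf z - mx z) = inf u + mx z by abel]
        exact (Kl.inf_smp u).add (smp_mx z))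
    (fun Q a b => by
      have k := o' a
      have s := pt Q k (by rw [g k] at b; linarith)
      rw [res_add hL Q (Kl.inf_smp u).car (Kl.inf_smp z).car, c Q u k fun a ha => s a (.inl ha),
        c Q z (uz Q k) fun a ha => s a (.inr ha), add_zero])
    ⟨Q₀, o q1, by rw [g q1]; linarith⟩
    (fun Q a b => by
      have := h0 Q (o' a)
      rw [g (o' a)] at b
      rw [l] at this
      linarith)
    (fun Q a b => by
      rw [g (o' a)] at b ⊢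
      have := h1 Q (o' a) (by linarith)
      rw [l] at this
      linarith)
  have w1 := div_ne_zero w0 j0
  rw [g (o' f2)] at f3 f4
  refine ⟨f * (w / j), mul_ne_zero f0 w1, fun R k => ?_, Q, o' f2, by linarith, ?_⟩
  · rw [l, Pl.ord_mul _ f0 w1]
    push_cast
    linarith [f1 R (o k)]
  · rw [Pl.ord_mul _ f0 w1]
    push_cast
    exact f4

variable {K : Type} [Field K] [Algebra ℂ K] {S : Subalgebra ℂ K} {p : Ideal S} {P : Pl K}
  {Q : Pl P.κ}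

/-- units of the local ring -/
theorem un (hr : ∀ a ∈ S, a ∈ P.ring) (h : L45.Thr S p P Q) {s : S} (hs : s ∉ p) :
    (s : K)⁻¹ ∈ P.ring ∧ P.rd (s : K)⁻¹ = (P.rd s)⁻¹ ∧ (P.rd s)⁻¹ ∈ Q.ring ∧ P.rd s ≠ 0 ∧
      Q.ord (P.rd s) = 0 := by
  have a : Q.rd (P.rd s) ≠ 0 := fun e => hs (h.2 s e)
  have b : P.rd s ≠ 0 := fun e => a (by rw [e, Hd.rd_zero'])
  have c := Pl.ord_nonneg_of_mem _ (h.1 s s.2)
  have d := mt (Bm.rd_zero_iff Q (h.1 s s.2)).2 a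
  rw [not_or] at d
  exact ⟨(Hd.rd_inv' (hr s s.2) b).1, (Hd.rd_inv' (hr s s.2) b).2, (Hd.rd_inv' (h.1 s s.2) a).1,
    b, by omega⟩

/-- the evaluation at the centre -/
def ev (hr : ∀ a ∈ S, a ∈ P.ring) (r : ∀ a ∈ S, P.rd a ∈ Q.ring) : S →ₐ[ℂ] Q.κ :=
  (Cb.rdA (P := Q) (Cb.rdA (P := P) S hr).range (by
    rintro _ ⟨a, rfl⟩; exact r a a.2)).comp (Cb.rdA (P := P) S hr).rangeRestrict

end K88

open K88 Classical in
/-- **KLT**: the hypersurface section is klt -/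
theorem klt2 {K : Type} [Field K] [Algebra ℂ K] {S : Subalgebra ℂ K} {p : Ideal S} {P : Pl K}
    {t w : K} {y : Fin 2 → K} (hS : Aff 3 S) (nor : IsIntegrallyClosed S) (hp : p.IsMaximal)
    (hP : Thp S {p} P) (tS : t ∈ Lo S p) (ht : 0 < P.ord t) (hy : ∀ i, y i ∈ P.ring)
    (hf : Frm fun i => P.rd (y i)) (w0 : w ≠ 0) (hw : P.ord w = 0)
    (bd : ∀ R, PDat S p R → R ≠ P → ld (Fin.cons t y : Fin 3 → K) 1 w R ≤ 1) {u z : Finset K}
    (su : S ≤ Algebra.adjoin ℂ (u : Set K)) (us : ∀ a ∈ u, a ∈ Lo S p)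
    (sp : Ideal.span {a : S | (a : K) ∈ z} = p) (zs : ∀ a ∈ z, a ∈ S) (on : On 2 (inf u) P)
    (mz : P.mz z = 0)
    (h0 : ∀ Q, Ov (u.image P.rd) Q →
      res P (mx z) Q + 1 ≤ ld (fun i => P.rd (y i)) 1 (P.rd w) Q)
    (h1 : ∀ Q, Ov (u.image P.rd) Q → res P (mx z) Q < 0 →
      res P (mx z) Q + 1 < ld (fun i => P.rd (y i)) 1 (P.rd w) Q) :
    ∀ Q, L45.Thr S p P Q → 0 < ld (fun i => P.rd (y i)) 1 (P.rd w) Q := by
  intro Q₀ q0
  by_contra bad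
  have hr := hP.1
  have e : res P (mx z) = mx (z.image P.rd) := by
    rw [res_mx hS.ff, Pl.rs, mz]; simp
  rw [e] at h0 h1
  have lo : ∀ {Q}, L45.Thr S p P Q → ∀ a ∈ Lo S p, a ∈ P.ring ∧ P.rd a ∈ Q.ring := by
    rintro Q h _ ⟨s, r, k, rfl⟩
    obtain ⟨a, b, c, -⟩ := un hr h k
    rw [div_eq_mul_inv, Cb.rd_mul (hr s s.2) a, b]
    exact ⟨mul_mem (hr s s.2) a, mul_mem (h.1 s s.2) c⟩
  have ov : ∀ {Q}, L45.Thr S p P Q → Ov (u.image P.rd) Q := fun h x hx => by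
    obtain ⟨a, ha, rfl⟩ := Finset.mem_image.1 hx
    exact (lo h a (us a ha)).2
  have ovP : Ov u P := fun a ha => (lo q0 a (us a ha)).1
  have sq : ∀ {Q}, Ov (u.image P.rd) Q → ∀ a ∈ S, P.rd a ∈ Q.ring := fun {Q} h a ha => by
    have : a ∈ P.ring ∧ P.rd a ∈ Q.ring := by
      replace ha := su ha
      induction ha using Algebra.adjoin_induction with
      | mem x hx => exact ⟨ovP x hx, h _ (Finset.mem_image_of_mem _ hx)⟩
      | algebraMap c => exact ⟨P.con c, Cb.rd_const (P := P) c ▸ Q.con c⟩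
      | add a b _ _ ha hb => exact ⟨add_mem ha.1 hb.1, Cb.rd_add ha.1 hb.1 ▸ add_mem ha.2 hb.2⟩
      | mul a b _ _ ha hb => exact ⟨mul_mem ha.1 hb.1, Cb.rd_mul ha.1 hb.1 ▸ mul_mem ha.2 hb.2⟩
    exact this.2
  have tz : ∀ {Q}, Ov (u.image P.rd) Q → ∀ a ∈ p,
      P.rd a * Q.t ^ Q.mz (z.image P.rd) ∈ Q.ring := fun {Q} h a ha => by
    rw [← sp] at ha
    induction ha using Submodule.span_induction with
    | mem x hx =>
      by_cases x0 : P.rd x = 0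
      · rw [x0, zero_mul]; exact zero_mem _
      · refine (Pl.ord_nonneg_iff _ (mul_ne_zero x0 (zpow_ne_zero _ Q.t_ne))).1 ?_
        have := Q.le_mz (Finset.mem_image_of_mem P.rd hx) x0
        rw [Q.ord_mul_t x0]
        omega
    | zero => rw [Subalgebra.coe_zero, Hd.rd_zero', zero_mul]; exact zero_mem _
    | add a b _ _ ha hb =>
      rw [Subalgebra.coe_add, Cb.rd_add (hr a a.2) (hr b b.2), add_mul]
      exact add_mem ha hb
    | smul a b _ hb =>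
      rw [smul_eq_mul, Subalgebra.coe_mul, Cb.rd_mul (hr a a.2) (hr b b.2), mul_assoc]
      exact mul_mem (sq h a a.2) hb
  have ge : ∀ {Q}, Ov (u.image P.rd) Q → ∀ a ∈ p, P.rd a ≠ 0 →
      -mx (z.image P.rd) Q ≤ Q.ord (P.rd a) := fun {Q} h a ha a0 => by
    have := Pl.ord_nonneg_of_mem _ (tz h a ha)
    rw [Q.ord_mul_t a0] at this
    have : -Q.mz (z.image P.rd) ≤ Q.ord (P.rd a) := by omega
    rw [mx]
    exact_mod_cast this
  have cen : ∀ {Q}, Ov (u.image P.rd) Q → mx (z.image P.rd) Q < 0 →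
      L45.Thr S p P Q ∧ ∀ a ∈ p, Q.rd (P.rd a) = 0 := fun {Q} h k => by
    have a : ∀ a ∈ p, Q.rd (P.rd a) = 0 := fun a ha => (Bm.rd_zero_iff Q (sq h a a.2)).2 <|
      or_iff_not_imp_left.2 fun a0 => Int.cast_pos (R := ℝ).1 (by linarith [ge h a ha a0])
    have b : p = RingHom.ker (ev hr (sq h)) := hp.eq_of_le (RingHom.ker_ne_top _) a
    exact ⟨⟨sq h, fun x hx => b ▸ hx⟩, a⟩
  have wr : w ∈ P.ring := (Pl.ord_nonneg_iff _ w0).1 hw.ge
  have w1 : P.rd w ≠ 0 := fun e => ((Bm.rd_zero_iff P wr).1 e).elim w0 fun k => by omega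
  obtain ⟨f, f0, f1, Q, f2, f3, f4⟩ := surf' (Bm.ff_κ hS.ff P) (u := u.image P.rd)
    (z := z.image P.rd) (Kl.res_inf hS.ff ovP ▸ (res'.on 2 K hS.ff _ P (Kl.inf_smp u)).1 on) hf w1
    (fun Q h x hx => by
      obtain ⟨a, ha, rfl⟩ := Finset.mem_image.1 hx
      exact sq h a (zs a ha))
    (fun Q h k x hx => by
      obtain ⟨c1, c2⟩ := cen h k
      have cs : ∀ s : S, ∃ c : ℂ, Q.rd (P.rd s) = algebraMap ℂ _ c := fun s => by
        obtain ⟨c, hc⟩ := Eg.res_max hS p s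
        have : ev hr (sq h) (s - algebraMap ℂ S c) = 0 := c2 _ hc
        rw [map_sub, AlgHom.commutes, sub_eq_zero] at this
        exact ⟨c, this⟩
      obtain ⟨a, ⟨s, r, k, rfl⟩, rfl⟩ : ∃ a ∈ Lo S p, P.rd a = x := hx.elim
        (fun hx => let ⟨a, ha, e⟩ := Finset.mem_image.1 hx; ⟨a, us a ha, e⟩) fun hx =>
          let ⟨a, ha, e⟩ := Finset.mem_image.1 hx; ⟨a, Gf.lo_of hp.isPrime ⟨a, zs a ha⟩, e⟩
      obtain ⟨a, b, c, -⟩ := un hr c1 k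
      obtain ⟨cs', e1⟩ := cs s
      obtain ⟨cr, e2⟩ := cs r
      refine ⟨cs' * cr⁻¹, ?_⟩
      rw [div_eq_mul_inv, Cb.rd_mul (hr s s.2) a, b, Cb.rd_mul (c1.1 s s.2) c,
        (Hd.rd_inv' (c1.1 r r.2) fun e => k (c1.2 r e)).2, e1, e2, map_mul, map_inv₀])
    ⟨Q₀, ov q0, by linarith [h0 Q₀ (ov q0)]⟩ h0 h1
  obtain ⟨_, ⟨s, r, k, rfl⟩, -, g2, -⟩ := L45.loc hS nor hp.isPrime hP one_pos tS ht hy hf w0 hw bd
    (f := f) (.inr fun Q h => f1 Q (ov h))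
  have od : ∀ {Q}, L45.Thr S p P Q → P.rd s ≠ 0 ∧ Q.ord f = Q.ord (P.rd s) := fun {Q} h => by
    obtain ⟨a, b, -, c, d⟩ := un hr h k
    rw [div_eq_mul_inv, Cb.rd_mul (hr s s.2) a, b] at g2
    have s0 : P.rd s ≠ 0 := fun e => f0 (by rw [← g2, e, zero_mul])
    exact ⟨s0, by rw [← g2, Pl.ord_mul _ s0 (inv_ne_zero c), Pl.ord_inv, d]; simp⟩
  by_cases m : s ∈ p
  · obtain ⟨a, b⟩ := od (cen f2 f3).1
    rw [b] at f4
    exact f4.not_ge (ge f2 s m a)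
  · have := f1 Q₀ (ov q0)
    rw [(od q0).2, (un hr q0 m).2.2.2.2] at this
    exact bad (by simpa using this)

end Vale.Agent.P283R.T3
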