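import Mathlib.Algebra.BigOperators.Ring.Finset
import Mathlib.Algebra.Order.BigOperators.Ring.Finset
import Mathlib.Data.Real.Basic
import Mathlib.Data.Fintype.Lattice
import Mathlib.Tactic

/-!
# P283R, block T3: the numerical contraction of the curves of the first kind
-/

open Finset

namespace Vale.Agent.P283R.T3.L94

variable {ι : Type} [Fintype ι]

/-- the degree of the cycle `X` on the curve `j` -/
def dt (Q : ι → ι → ℤ) (X : ι → ℤ) (j : ι) : ℤ := ∑ k, X k * Q k j

theorem dt_add (Q : ι → ι → ℤ) (X Y : ι → ℤ) (j : ι) : dt Q (X + Y) j = dt Q X j + dt Q Y j := by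
  simp [dt, add_mul, sum_add_distrib]

theorem dt_sub (Q : ι → ι → ℤ) (X Y : ι → ℤ) (j : ι) : dt Q (X - Y) j = dt Q X j - dt Q Y j := by
  simp [dt, sub_mul]

theorem dt_single [DecidableEq ι] (Q : ι → ι → ℤ) (i : ι) (c : ℤ) (j : ι) :
    dt Q (Pi.single i c) j = c * Q i j := by
  simp [dt, Pi.single_apply]

theorem dt_nn {Q : ι → ι → ℤ} {X : ι → ℤ} {j : ι} (h : ∀ k, k ≠ j → 0 ≤ X k * Q k j)
    (h0 : X j = 0) : 0 ≤ dt Q X j :=
  sum_nonneg fun k _ => by
    by_cases e : k = j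
    · simp [e, h0]
    · exact h k e

/-- negativity on the curves in `s` -/
def Neg (Q : ι → ι → ℤ) (s : Finset ι) : Prop :=
  ∀ X : ι → ℤ, (∀ k, 0 ≤ X k) → (∀ k ∉ s, X k = 0) → X ≠ 0 → ∃ j, 0 < X j ∧ dt Q X j < 0

theorem aux [DecidableEq ι] (s : Finset ι) : ∀ (Q : ι → ι → ℤ) (κ : ι → ℤ),
    (∀ k ∈ s, ∀ j ∈ s, k ≠ j → 0 ≤ Q k j) → (∀ k ∈ s, ∀ j ∈ s, 0 < Q k j → 0 < Q j k) →
    Neg Q s → (∀ j ∈ s, -2 ≤ κ j + Q j j) →
    ∃ N : ι → ℤ, (∀ k, 0 ≤ N k) ∧ (∀ k ∉ s, N k = 0) ∧ (∀ j ∈ s, dt Q N j ≤ κ j) ∧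
      ∀ j, 0 < N j → dt Q N j = κ j := by
  induction s using Finset.strongInduction with
  | H s ih =>
  intro Q κ off sym neg adj
  by_cases h : ∀ j ∈ s, 0 ≤ κ j
  · exact ⟨0, fun _ => le_rfl, fun _ _ => rfl, fun j hj => by simpa [dt] using h j hj,
      fun j hj => (lt_irrefl _ hj).elim⟩
  push Not at h
  obtain ⟨i, hi, ki⟩ := h
  have qi : Q i i = -1 ∧ κ i = -1 := by
    obtain ⟨j, h1, h2⟩ := neg (Pi.single i 1) (fun k => by
      rw [Pi.single_apply]; split_ifs <;> simp) (fun k hk => by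
      rw [Pi.single_apply, if_neg (by rintro rfl; exact hk hi)]) (fun e => by
      simpa using congrFun e i)
    have e : j = i := by
      by_contra e
      simp [e] at h1
    rw [e, dt_single] at h2
    have := adj i hi
    omega
  -- the pull back of a cycle
  have up : ∀ X : ι → ℤ, (∀ j, dt Q (X + Pi.single i (dt Q X i)) j =
      dt (fun k j => Q k j + Q k i * Q i j) X j) := fun X j => by
    rw [dt_add, dt_single]
    simp [dt, mul_add, sum_add_distrib, sum_mul, mul_assoc]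
  have up0 : ∀ X : ι → ℤ, dt Q (X + Pi.single i (dt Q X i)) i = 0 := fun X => by
    rw [dt_add, dt_single, qi.1]
    ring
  have nn : ∀ X : ι → ℤ, (∀ k, 0 ≤ X k) → (∀ k ∉ s.erase i, X k = 0) → 0 ≤ dt Q X i :=
    fun X h1 h2 => dt_nn (fun k e => by
      by_cases hk : k ∈ s
      · exact mul_nonneg (h1 k) (off k hk i hi e)
      · rw [h2 k fun a => hk (mem_of_mem_erase a), zero_mul]) (h2 i (notMem_erase i s))
  obtain ⟨N, n0, n1, n2, n3⟩ := ih (s.erase i) (erase_ssubset hi)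
    (fun k j => Q k j + Q k i * Q i j) (fun j => κ j - Q i j)
    (fun k hk j hj e => by
      rw [mem_erase] at hk hj
      exact add_nonneg (off k hk.2 j hj.2 e)
        (mul_nonneg (off k hk.2 i hi hk.1) (off i hi j hj.2 hj.1.symm)))
    (fun k hk j hj e => by
      by_cases kj : k = j
      · subst kj; exact e
      rw [mem_erase] at hk hj
      have a1 := off k hk.2 i hi hk.1
      have a2 := off i hi j hj.2 hj.1.symm
      have a3 := off j hj.2 i hi hj.1
      have a4 := off i hi k hk.2 hk.1.symm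
      have a5 := off j hj.2 k hk.2 (Ne.symm kj)
      by_cases p : 0 < Q k j
      · exact add_pos_of_pos_of_nonneg (sym k hk.2 j hj.2 p) (mul_nonneg a3 a4)
      · have p' : 0 < Q k i * Q i j := by linarith
        have b1 : 0 < Q k i := a1.lt_of_ne fun z => by simp [← z] at p'
        have b2 : 0 < Q i j := a2.lt_of_ne fun z => by simp [← z] at p'
        exact add_pos_of_nonneg_of_pos a5 (mul_pos (sym i hi j hj.2 b2) (sym k hk.2 i hi b1)))
    (fun X h1 h2 h3 => by
      have x0 := h2 i (notMem_erase i s)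
      obtain ⟨j, a, b⟩ := neg (X + Pi.single i (dt Q X i)) (fun k => by
        rw [Pi.add_apply, Pi.single_apply]
        split_ifs
        exacts [add_nonneg (h1 k) (nn X h1 h2), by simpa using h1 k]) (fun k hk => by
        rw [Pi.add_apply, Pi.single_apply, if_neg (by rintro rfl; exact hk hi),
          h2 k fun a => hk (mem_of_mem_erase a), add_zero]) (fun e => h3 (funext fun k => by
        by_cases ki : k = i
        · rw [ki]; exact x0
        · simpa [ki] using congrFun e k))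
      have ji : j ≠ i := by
        rintro rfl
        rw [up0] at b
        exact lt_irrefl _ b
      exact ⟨j, by simpa [ji] using a, up X j ▸ b⟩)
    (fun j hj => by
      rw [mem_erase] at hj
      have a1 := adj j hj.2
      have a2 := off i hi j hj.2 hj.1.symm
      rcases a2.eq_or_lt with z | z
      · simp [← z]; linarith
      · have := sym i hi j hj.2 z
        nlinarith)
  have x0 := n1 i (notMem_erase i s)
  have e : ∀ j, dt Q (N + Pi.single i (dt Q N i) + Pi.single i 1) j =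
      dt (fun k j => Q k j + Q k i * Q i j) N j + Q i j := fun j => by
    rw [dt_add, up, dt_single, one_mul]
  have ei : dt Q (N + Pi.single i (dt Q N i) + Pi.single i 1) i = κ i := by
    rw [dt_add, up0, dt_single, qi.1, qi.2]
    ring
  refine ⟨N + Pi.single i (dt Q N i) + Pi.single i 1, fun k => ?_, fun k hk => ?_,
    fun j hj => ?_, fun j hj => ?_⟩
  · have := nn N n0 n1
    have := n0 k
    simp only [Pi.add_apply, Pi.single_apply]
    split_ifs <;> omega
  · have ki : k ≠ i := by rintro rfl; exact hk hi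
    simp [ki, n1 k fun a => hk (mem_of_mem_erase a)]
  · by_cases ji : j = i
    · rw [ji, ei]
    · have := n2 j (mem_erase.2 ⟨ji, hj⟩)
      rw [e]
      omega
  · by_cases ji : j = i
    · rw [ji, ei]
    · have := n3 j (by simpa [ji] using hj)
      rw [e]
      omega

/-- an anti-ample cycle gives the negativity -/
theorem neg_of {Q : ι → ι → ℤ} (off : ∀ k j, k ≠ j → 0 ≤ Q k j) {Z : ι → ℝ} (z0 : ∀ j, 0 < Z j)
    (z1 : ∀ j, ∑ k, Z k * Q k j < 0) : Neg Q univ := by
  intro X h1 _ h3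
  obtain ⟨i, hi⟩ := Function.ne_iff.1 h3
  have xi : (0 : ℝ) < X i := by exact_mod_cast (h1 i).lt_of_ne (Ne.symm hi)
  obtain ⟨j, -, hj⟩ := exists_max_image univ (fun k => (X k : ℝ) / Z k) ⟨i, mem_univ i⟩
  have c0 : 0 < (X j : ℝ) / Z j := (div_pos xi (z0 i)).trans_le (hj i (mem_univ i))
  refine ⟨j, by exact_mod_cast (div_pos_iff_of_pos_right (z0 j)).1 c0, ?_⟩
  have : ((dt Q X j : ℤ) : ℝ) ≤ X j / Z j * ∑ k, Z k * Q k j := by
    rw [dt, mul_sum]
    push_cast
    refine sum_le_sum fun k _ => ?_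
    rw [← mul_assoc]
    by_cases e : k = j
    · rw [e, div_mul_cancel₀ _ (z0 j).ne']
    · exact mul_le_mul_of_nonneg_right ((div_le_iff₀ (z0 k)).1 (hj k (mem_univ k)))
        (by exact_mod_cast off k j e)
  exact_mod_cast this.trans_lt (mul_neg_of_pos_of_neg c0 (z1 j))

/-- **LAT**: the integral Zariski decomposition of the canonical divisor -/
theorem lat {Q : ι → ι → ℤ} {κ : ι → ℤ} (off : ∀ k j, k ≠ j → 0 ≤ Q k j)
    (sym : ∀ k j, 0 < Q k j → 0 < Q j k) (neg : Neg Q univ) (adj : ∀ j, -2 ≤ κ j + Q j j) :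
    ∃ N : ι → ℤ, (∀ k, 0 ≤ N k) ∧ (∀ j, dt Q N j ≤ κ j) ∧ ∀ j, 0 < N j → dt Q N j = κ j := by
  classical
  obtain ⟨N, a, -, b, c⟩ := aux univ Q κ (fun k _ j _ => off k j) (fun k _ j _ => sym k j) neg
    fun j _ => adj j
  exact ⟨N, a, fun j => b j (mem_univ j), c⟩

/-- the canonical cycle is `W - D` with `W ≥ 1` and `D > 0` anti-nef: then `N < W` -/
theorem lat_lt {Q : ι → ι → ℤ} (off : ∀ k j, k ≠ j → 0 ≤ Q k j)
    (sym : ∀ k j, 0 < Q k j → 0 < Q j k) (neg : Neg Q univ) {D W : ι → ℤ}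
    (adj : ∀ j, -2 ≤ dt Q (W - D) j + Q j j) (d0 : ∀ j, 0 < D j) (d1 : ∀ j, dt Q D j ≤ 0)
    (w1 : ∀ j, 1 ≤ W j) :
    ∃ N : ι → ℤ, (∀ k, 0 ≤ N k) ∧ (∀ k, N k < W k) ∧ ∀ j, dt Q N j ≤ dt Q (W - D) j := by
  classical
  obtain ⟨N, a, b, c⟩ := lat off sym neg adj
  refine ⟨N, a, ?_, b⟩
  have u : ∀ j, W j ≤ N j → dt Q (W - N) j = dt Q D j := fun j h => by
    rw [dt_sub, c j (by have := w1 j; omega), dt_sub]
    ring
  have u0 : ∀ k, N k ≤ W k := by
    by_contra h
    push Not at h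
    obtain ⟨i, hi⟩ := h
    obtain ⟨j, h1, h2⟩ := neg (fun k => max (N k - W k) 0) (fun _ => le_max_right _ _)
      (fun k hk => (hk (mem_univ k)).elim) fun e => by
        have := congrFun e i
        simp only [Pi.zero_apply] at this
        omega
    have e : (W - N) = (fun k => max (W k - N k) 0) - fun k => max (N k - W k) 0 := by
      funext k
      simp only [Pi.sub_apply]
      omega
    have h3 := u j (by omega)
    have h4 := dt_nn (Q := Q) (X := fun k => max (W k - N k) 0) (j := j)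
      (fun k e => mul_nonneg (le_max_right _ _) (off k j e)) (by omega)
    have := d1 j
    rw [e, dt_sub] at h3
    omega
  by_contra h
  push Not at h
  obtain ⟨i, hi⟩ := h
  obtain ⟨j, h1, h2⟩ := neg (fun k => if W k ≤ N k then D k else 0) (fun k => by
    split_ifs
    exacts [(d0 k).le, le_rfl]) (fun k hk => (hk (mem_univ k)).elim) fun e => by
      have := congrFun e i
      have := d0 i
      simp only [Pi.zero_apply, if_pos hi] at *
      omega
  have hj : W j ≤ N j := by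
    by_contra e
    simp [e] at h1
  have t : ∀ k, 0 ≤ (W - N) k * Q k j := fun k => by
    by_cases e : k = j
    · have := u0 j
      rw [e, Pi.sub_apply, show W j - N j = 0 by omega, zero_mul]
    · exact mul_nonneg (sub_nonneg.2 (u0 k)) (off k j e)
  have h3 := u j hj
  have h4 : dt Q (W - N) j = 0 := le_antisymm (h3 ▸ d1 j) (sum_nonneg fun k _ => t k)
  have h5 := (sum_eq_zero_iff_of_nonneg fun k _ => t k).1 h4
  refine h2.ne ((sum_congr rfl fun k _ => ?_).trans (h3.symm.trans h4))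
  beta_reduce
  split_ifs with e
  · rfl
  · have := (mul_eq_zero.1 (h5 k (mem_univ k))).resolve_left (by
      rw [Pi.sub_apply]; omega)
    simp [this]

/-- the curve `C` and the degree on it -/
theorem pick [Nonempty ι] {Q : ι → ι → ℤ} (off : ∀ k j, k ≠ j → 0 ≤ Q k j)
    (sym : ∀ k j, 0 < Q k j → 0 < Q j k) {Z : ι → ℝ} (z0 : ∀ j, 0 < Z j)
    (z1 : ∀ j, ∑ k, Z k * Q k j < 0) {D W : ι → ℤ}
    (adj : ∀ j, -2 ≤ dt Q (W - D) j + Q j j) (d0 : ∀ j, 0 < D j) (d1 : ∀ j, dt Q D j ≤ 0)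
    (w1 : ∀ j, 1 ≤ W j) : ∃ (N : ι → ℤ) (C : ι) (s : ℝ), 0 < s ∧ (∀ k, 0 ≤ N k) ∧
      (∀ k, N k < W k) ∧ s * Z C = N C + 1 ∧ (∀ k, s * Z k ≤ N k + 1) ∧
      ∀ G : ι → ℤ, G C = N C → (∀ k, G k ≤ N k) → 0 ≤ dt Q (W - D - G) C := by
  obtain ⟨N, a, b, c⟩ := lat_lt off sym (neg_of off z0 z1) adj d0 d1 w1
  obtain ⟨C, -, hC⟩ := exists_min_image univ (fun k => ((N k : ℝ) + 1) / Z k) univ_nonempty
  have n0 : (0 : ℝ) ≤ N C := by exact_mod_cast a C
  refine ⟨N, C, (N C + 1) / Z C, div_pos (by linarith) (z0 C), a, b,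
    div_mul_cancel₀ _ (z0 C).ne', fun k => (le_div_iff₀ (z0 k)).1 (hC k (mem_univ k)),
    fun G g0 g1 => ?_⟩
  have k1 := dt_nn (Q := Q) (X := N - G) (j := C)
    (fun k e => mul_nonneg (sub_nonneg.2 (g1 k)) (off k C e)) (by simp [g0])
  have k2 := c C
  rw [dt_sub] at k1 ⊢
  omega

end Vale.Agent.P283R.T3.L94
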