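import Vale.Agent.P283R.T3.Mul
import Vale.Agent.P283R.T3.All0

/-!
# P283R, block T3: the row `M2` and the theorem on mild points
-/

namespace Vale.Agent.P283R.T3

/-- **M2** -/
theorem m2 : M2 := fun F _ _ S p y h aff nor hp fr h0 h1 h2 _ => by
  have := aff.ft
  let _ := Ideal.Quotient.field p
  have : Module.Finite ℂ (S ⧸ p) := finite_of_finite_type_of_isJacobsonRing ℂ (S ⧸ p)
  obtain ⟨z, a, b⟩ := mult aff nor hp.isPrime (fun a => by
    obtain ⟨c, hc⟩ := (IsAlgClosed.algebraMap_bijective_of_isIntegral (k := ℂ) (K := S ⧸ p)).2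
      (Ideal.Quotient.mk p a)
    exact ⟨c, Ideal.Quotient.eq.1 hc.symm⟩) fr h0 h1 (h2 p le_rfl)
  choose s s1 s2 using a
  exact ⟨s, s1, fun a ha => by simpa only [s2] using b a ha⟩

end Vale.Agent.P283R.T3
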