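import Vale.Agent.P283R.T3.Ms97
import Vale.Agent.P283R.T3.Ad78
import Vale.Agent.P283R.Be2.Nn
import Vale.Agent.P283R.Tp.Hrt
import Vale.Agent.P283R.Tp.Eig
import Vale.Agent.P283R.Tp.Ram

/-!
# P283R, block T3: rational double points, the assembly
-/

set_option linter.all false

open Set MvPolynomial

noncomputable section

namespace Vale.Agent.P283R.T3.M97

open Vale.Agent.P287D Vale.Agent.P297Z

section

variable {k : Type} [Field k] [Algebra ℂ k] {t : Fin 2 → k}

theorem av_ne (h : Skp.Rat t) {s : MvPolynomial (Fin 2) ℂ} (hs : constantCoeff s ≠ 0) :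
    aeval t s ≠ 0 := fun e => hs (by
  rw [(algebraicIndependent_iff.1 h.1) s e, map_zero])

theorem Mr.add (h : Skp.Rat t) {x y : k} (hx : Mr t x) (hy : Mr t y) : Mr t (x + y) := by
  obtain ⟨r, s, a, b, rfl⟩ := hx
  obtain ⟨r', s', a', b', rfl⟩ := hy
  refine ⟨r * s' + s * r', s * s', by simp [a, a'], by simp [b, b'], ?_⟩
  rw [div_add_div _ _ (av_ne h a) (av_ne h a')]
  simp

theorem Mr.smul {x : k} (hx : Mr t x) (c : ℂ) : Mr t (c • x) := by
  obtain ⟨r, s, a, b, rfl⟩ := hx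
  refine ⟨C c * r, s, a, by simp [b], ?_⟩
  rw [map_mul, aeval_C, Algebra.smul_def, mul_div_assoc]

theorem Lr.val (h : Skp.Rat t) {x : k} (hx : Lr t x) :
    ∃ c : ℂ, Mr t (x - algebraMap ℂ k c) := by
  obtain ⟨r, s, a, rfl⟩ := hx
  refine ⟨constantCoeff r / constantCoeff s, r - C (constantCoeff r / constantCoeff s) * s, s, a,
    by simp [div_mul_cancel₀ _ a], ?_⟩
  rw [map_sub, map_mul, aeval_C, sub_div, mul_div_cancel_right₀ _ (av_ne h a)]

/-- a linear form with values modulo the maximal ideal has a kernel of codimension one -/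
theorem line (h : Skp.Rat t) {V : Type} [AddCommGroup V] [Module ℂ V] (φ : V →ₗ[ℂ] k)
    (hφ : ∀ a, Lr t (φ a)) : ∃ w : V, ∀ a, ∃ c : ℂ, Mr t (φ (a - c • w)) := by
  by_cases e : ∀ a, Mr t (φ a)
  · exact ⟨0, fun a => ⟨0, e _⟩⟩
  push Not at e
  obtain ⟨w, hw⟩ := e
  obtain ⟨c₀, h0⟩ := (hφ w).val h
  have c0 : c₀ ≠ 0 := fun z => hw (by simpa [z] using h0)
  refine ⟨w, fun a => ?_⟩
  obtain ⟨c, hc⟩ := (hφ a).val h
  refine ⟨c / c₀, ?_⟩
  have := hc.add h (h0.smul (-(c / c₀)))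
  convert this using 1
  rw [map_sub, map_smul, smul_sub, Algebra.smul_def (-(c / c₀)) (algebraMap ℂ k c₀), ← map_mul,
    neg_mul, div_mul_cancel₀ _ c0, map_neg, neg_smul]
  ring

end

theorem asm : ASM := by
  intro hS h1 h2 hV hU F _ _ S p y h aff nor mx fr h0 pd klt _
  have pr := mx.isPrime
  have res := Eg.res_max aff p
  obtain ⟨t, tp, ind, int, red⟩ := Nn.nnS (Bm.trdeg_eq aff.ff) S aff.fg aff.fr p res
  let k := IntermediateField.adjoin ℂ (range fun l => (t l : F))
  let tk : Fin 2 → k := fun l => ⟨t l, IntermediateField.subset_adjoin _ _ ⟨l, rfl⟩⟩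
  have hk : Skp.Rat tk := Skp.rat_adjoin ind
  have eu : up F tk = fun l => (t l : F) := rfl
  have D : Dt tk S p := ⟨hk, aff, nor, mx, fun l => ⟨t l, tp l, rfl⟩, int⟩
  obtain ⟨δ, d0, ed⟩ := A78.chg (z := up F tk) (m := 1) fr (frm_of aff.ff ind) one_pos h0
  have el : ∀ R, ld y 1 h R = 1 + kap (up F tk) R - R.ord δ := fun R => by
    rw [← ed, ld]; simp
  have ek : ∀ R, PDat S p R → kap (up F tk) R = R.ord δ := fun R a => by
    have := el R
    rw [pd R a] at this
    linarith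
  obtain ⟨T, Tf, Tb, van⟩ := hV k F tk S p D
  obtain ⟨u, up0, u1, u2⟩ := hU k F tk S p D T δ Tf Tb d0 ek
  have u0 : (u : F) / δ ≠ 0 := div_ne_zero (Hr.ne_of_notMem up0) d0
  have lr : ∀ a : S, Lr tk (Algebra.trace k F (u / δ * a)) := fun a => h2 k F tk S p D _ (by
    by_cases a0 : (a : F) = 0
    · exact .inl (by rw [a0, mul_zero])
    refine .inr fun R hR _ => (u1 R hR).trans ?_
    obtain ⟨q, c, -⟩ := hR
    have := Pl.ord_nonneg_of_mem R.toPlace (c a).1
    rw [Pl.ord_mul _ u0 a0]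
    exact_mod_cast le_add_of_nonneg_right this)
  have rd : ∀ R ∈ T, Cen S p R → ∀ a ∈ p, (a : F) ≠ 0 → R.ord (up F tk 0) ≤ R.ord (a : F) :=
    fun Q hQ c a ha a0 => by
      have := red _ (Pl.val Q.toPlace) (fun c => (Pl.mem_ring_iff _ _).1 (Q.con c)) (fun b hb => by
        by_cases b0 : (b : F) = 0
        · simp [b0]
        · exact (Pl.ord_pos_iff_val _ b0).1 (((Hr.cen_iff c b).1 hb).resolve_left b0))
        (Pl.val Q.toPlace (t 0)) (fun j => by
          rw [Pl.val_eq _ _ (ind.ne_zero j), Pl.val_eq _ _ (ind.ne_zero 0), WithZero.exp_le_exp]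
          exact neg_le_neg ((Tb Q hQ).2.2.1 j).ge) a ha
      rw [Pl.val_eq _ _ a0, Pl.val_eq _ _ (ind.ne_zero 0), WithZero.exp_le_exp] at this
      exact neg_le_neg_iff.1 this
  have mr : ∀ a ∈ p, ∀ b ∈ p, Mr tk (Algebra.trace k F (u / δ * (a * b : S))) := fun a ha b hb =>
    van _ (lr _) (by
      by_cases a0 : (a : F) = 0
      · exact .inl (by simp [a0])
      by_cases b0 : (b : F) = 0
      · exact .inl (by simp [b0])
      refine .inr fun R hR => ?_
      rw [Subalgebra.coe_mul, Pl.ord_mul _ u0 (mul_ne_zero a0 b0), Pl.ord_mul _ a0 b0]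
      rcases u2 R hR with c | c
      · have e1 := rd R hR c a ha a0
        have e2 := rd R hR c b hb b0
        have e3 := klt p le_rfl R c
        rw [el, (Tb R hR).2.2.2] at e3
        have e4 : R.ord δ < 2 * R.ord (up F tk 0) := by exact_mod_cast sub_pos.1 e3
        rw [Pl.ord_div _ (Hr.ne_of_notMem up0) d0, Hr.cen_ord c up0]
        omega
      · have e1 := Pl.ord_nonneg_of_mem R.toPlace ((Tb R hR).1 a a.2)
        have e2 := Pl.ord_nonneg_of_mem R.toPlace ((Tb R hR).1 b b.2)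
        omega)
  let φ : p →ₗ[ℂ] k := ((Algebra.trace k F).restrictScalars ℂ).comp
    ((LinearMap.mulLeft ℂ ((u : F) / δ)).comp
      (S.val.toLinearMap.comp (p.subtype.restrictScalars ℂ)))
  have eφ : ∀ a : p, φ a = Algebra.trace k F (u / δ * ((a : S) : F)) := fun a => rfl
  obtain ⟨w, hw⟩ := line hk φ fun a => lr a
  refine ⟨![t 0, t 1, w], fun j => by fin_cases j <;> simp [tp], fun a ha => ?_⟩
  obtain ⟨c, hc⟩ := hw ⟨a, ha⟩
  set x : p := ⟨a, ha⟩ - c • w with hx
  obtain ⟨η, e1, e2⟩ := hS k F tk S p D (u / δ * ((x : S) : F)) fun b hb => by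
    obtain ⟨c', hc'⟩ := res ⟨b, hb⟩
    have := (mr x x.2 _ hc').add hk (hc.smul c')
    convert this using 1
    rw [eφ, ← LinearMap.map_smul_of_tower, ← map_add]
    congr 1
    simp only [Subalgebra.coe_mul, AddSubgroupClass.coe_sub, Algebra.smul_def,
      SubalgebraClass.coe_algebraMap]
    ring
  have lo : ∀ l, η l * δ / u ∈ Lo S p := fun l => by
    obtain ⟨s, s', a1, a2⟩ := Hr.lo_of (g := η l * δ) aff nor pr fun R hR => by
      by_cases z : η l = 0
      · simp [z, zero_mem]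
      have := h1 k F tk S p D _ (e2 l) z R hR
      rw [ek R hR] at this
      have : -R.ord δ ≤ R.ord (η l) := by exact_mod_cast this
      exact Cb.mem_ord (by rw [Pl.ord_mul _ z d0]; omega)
    exact ⟨s, s' * u, fun m => (pr.mem_or_mem m).elim a1 up0, by
      rw [a2, Subalgebra.coe_mul, div_div]⟩
  refine ⟨![η 0 * δ / u, η 1 * δ / u, algebraMap ℂ F c], fun j => ?_, ?_⟩
  · fin_cases j
    · exact lo 0
    · exact lo 1
    · exact ⟨algebraMap ℂ S c, 1, (Ideal.ne_top_iff_one p).1 pr.ne_top, by simp⟩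
  · have ex : ((x : S) : F) = a - algebraMap ℂ F c * ((w : S) : F) := by
      rw [hx]; simp [Algebra.smul_def]
    have un := Hr.ne_of_notMem up0
    rw [ex, Fin.sum_univ_two, eu] at e1
    simp only [Fin.sum_univ_three, Matrix.cons_val_zero, Matrix.cons_val_one, Matrix.cons_val]
    have e3 : (a : F) - algebraMap ℂ F c * ((w : S) : F) = δ / u * ((t 0 : F) * η 0 + t 1 * η 1) := by
      rw [← e1]; field_simp
    rw [sub_eq_iff_eq_add.1 e3]
    ring

end Vale.Agent.P283R.T3.M97
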