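import Vale.Agent.P283R.T3.Sf52

/-!
# P283R, block T3: consequences of MILD
-/

open Set

noncomputable section

namespace Vale.Agent.P283R.T3

open Vale.Agent.P287D Vale.Agent.P283M

/-- from `1 + b ord` to `(b + 1) ord` -/
theorem em_zero {d E : ℕ} {b : ℝ} (h : Tg.EM d E 1 b) : Tg.EM d E 0 (b + 1) :=
  fun F _ _ S p y g a1 a2 a3 a4 a5 a6 a7 a8 => h F S p y g a1 a2 a3 a4 a5 a6 a7 fun R c => by
    obtain ⟨x, hx, x0, k⟩ := a8 R c
    have o := ((Bm.rd_zero_iff R (c x).1).1 ((c x).2.1 hx)).resolve_left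
      fun e => x0 (Subtype.ext e)
    have o' : (1 : ℝ) ≤ R.ord (x : F) := by exact_mod_cast o
    exact ⟨x, hx, x0, by linarith⟩

/-- all dimensions `d ≥ 3` -/
theorem MILD.em (h : MILD) {d : ℕ} (hd : 3 ≤ d) : Tg.EM d (d + 1) 1 (d - 3) := by
  obtain ⟨n, rfl⟩ : ∃ n, d = n + 3 := ⟨d - 3, by omega⟩
  simpa using h n

/-- the log canonical threshold of the maximal ideal exceeds `d - 2` -/
theorem MILD.em0 (h : MILD) (m : M2) {d : ℕ} (hd : 2 ≤ d) : Tg.EM d (d + 1) 0 (d - 2) := by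
  rcases hd.eq_or_lt with rfl | k
  · simpa using (show Tg.EM 2 3 0 0 from m)
  · have := em_zero (h.em k)
    rwa [show (d : ℝ) - 3 + 1 = d - 2 by ring] at this

end Vale.Agent.P283R.T3
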