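import Vale.Agent.P283R.T3.Spl
import Vale.Agent.P283R.Tg.St
import Vale.Agent.P283R.Be2.Skp

/-!
# P283R, block T3: rational double points, the pieces
-/

open Set MvPolynomial

noncomputable section

namespace Vale.Agent.P283R.T3.M97

open Vale.Agent.P287D

section

variable {k F : Type} [Field k] [Algebra ℂ k] [Field F] [Algebra ℂ F] [Algebra k F]

/-- the local ring of the plane at the origin -/
def Lr (t : Fin 2 → k) (z : k) : Prop :=
  ∃ r s : MvPolynomial (Fin 2) ℂ, constantCoeff s ≠ 0 ∧ z = aeval t r / aeval t s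

/-- its maximal ideal -/
def Mr (t : Fin 2 → k) (z : k) : Prop := ∃ r s : MvPolynomial (Fin 2) ℂ,
  constantCoeff s ≠ 0 ∧ constantCoeff r = 0 ∧ z = aeval t r / aeval t s

variable (F) in
/-- the coordinates of the plane in `F` -/
abbrev up (t : Fin 2 → k) : Fin 2 → F := fun l => algebraMap k F (t l)

/-- a finite projection of the normal surface to the plane -/
structure Dt (t : Fin 2 → k) (S : Subalgebra ℂ F) (p : Ideal S) : Prop where
  rat : Skp.Rat t
  aff : Aff 2 S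
  nor : IsIntegrallyClosed S
  mx : p.IsMaximal
  tp : ∀ l, ∃ a ∈ p, (a : F) = up F t l
  int : ∀ a ∈ S, IsIntegral (Algebra.adjoin ℂ (range (up F t))) a

/-- the trace dual -/
def Du (t : Fin 2 → k) (S : Subalgebra ℂ F) (ξ : F) : Prop :=
  ∀ a ∈ S, Lr t (Algebra.trace k F (ξ * a))

/-- the centre passes through the fibre over the origin -/
def Th0 (t : Fin 2 → k) (R : Pl F) : Prop :=
  ∀ s : MvPolynomial (Fin 2) ℂ, constantCoeff s ≠ 0 → R.ord (aeval (up F t) s) = 0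

/-- a place over the blow up of the origin -/
def Bl (t : Fin 2 → k) (S : Subalgebra ℂ F) (R : Pl F) : Prop :=
  (∀ a ∈ S, a ∈ R.ring) ∧ 0 < R.ord (up F t 0) ∧ (∀ l, R.ord (up F t l) = R.ord (up F t 0)) ∧
    1 + kap (up F t) R = 2 * R.ord (up F t 0)

end

/-- a statement on projections -/
def ForD (T : ∀ (k F : Type) [Field k] [Algebra ℂ k] [Field F] [Algebra ℂ F] [Algebra k F]
    (_ : Fin 2 → k) (S : Subalgebra ℂ F) (_ : Ideal S), Prop) : Prop :=
  ∀ (k F : Type) [Field k] [Algebra ℂ k] [Field F] [Algebra ℂ F] [Algebra k F]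
    [IsScalarTower ℂ k F] (t : Fin 2 → k) (S : Subalgebra ℂ F) (p : Ideal S), Dt t S p →
      T k F t S p

/-- **SPL**: the splitting in the dual -/
def SPL : Prop := ForD fun k F _ _ _ _ _ t S _ => ∀ ξ : F,
  (∀ a ∈ S, Mr t (Algebra.trace k F (ξ * a))) →
    ∃ η : Fin 2 → F, ξ = ∑ l, up F t l * η l ∧ ∀ l, Du t S (η l)

/-- **DU1**: the poles of the dual -/
def DU1 : Prop := ForD fun _ F _ _ _ _ _ t S p => ∀ ξ : F, Du t S ξ → ξ ≠ 0 →
  ∀ R, PDat S p R → -kap (up F t) R ≤ R.ord ξ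

/-- **DU2**: the trace is regular -/
def DU2 : Prop := ForD fun k F _ _ _ _ _ t S _ => ∀ ξ : F,
  (ξ = 0 ∨ ∀ R, PD S R → Th0 t R → -kap (up F t) R ≤ R.ord ξ) → Lr t (Algebra.trace k F ξ)

/-- **VAN**: the trace vanishes at the origin -/
def VAN : Prop := ForD fun k F _ _ _ _ _ t S _ => ∃ T : Set (Pl F), T.Finite ∧
  (∀ R ∈ T, Bl t S R) ∧ ∀ ξ : F, Lr t (Algebra.trace k F ξ) → (ξ = 0 ∨ ∀ R ∈ T, 0 < R.ord ξ) →
    Mr t (Algebra.trace k F ξ)

/-- **UEX**: killing the other points of the fibre -/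
def UEX : Prop := ForD fun _ F _ _ _ _ _ t S p => ∀ (T : Set (Pl F)) (δ : F), T.Finite →
  (∀ R ∈ T, Bl t S R) → δ ≠ 0 → (∀ R, PDat S p R → kap (up F t) R = R.ord δ) →
    ∃ u : S, u ∉ p ∧ (∀ R, PD S R → -kap (up F t) R ≤ R.ord (u / δ : F)) ∧
      ∀ R ∈ T, Cen S p R ∨ 0 < R.ord (u / δ : F)

/-- **ASM**: the assembly -/
def ASM : Prop := SPL → DU1 → DU2 → VAN → UEX → Tg.EM 2 3 0 0

end Vale.Agent.P283R.T3.M97
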