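import Vale.Agent.P283R.Be2.RSk
import Vale.Agent.P283R.Tp.Der

/-!
# P283R, block T3: the trace and the places of a finite extension
-/

set_option linter.all false

open Set MvPolynomial

noncomputable section

namespace Vale.Agent.P283R.T3.Mul

open Vale.Agent.P287D Vale.Agent.P297Z Skp

/-- power sums -/
theorem psum {κ ι : Type} [Field κ] [CharZero κ] [Fintype ι] (y : ι → κ)
    (h : ∀ m : ℕ, ∑ i, y i ^ (m + 1) = 0) (i : ι) : y i = 0 := by
  classical
  have k : ∀ G : Polynomial κ, ∑ i, (G.eval 0 - G.eval (y i)) = 0 := fun G => by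
    induction G using Polynomial.induction_on' with
    | add p q a b =>
      simp only [Polynomial.eval_add, add_sub_add_comm, Finset.sum_add_distrib, a, b, add_zero]
    | monomial n c =>
      rcases n with _ | n
      · simp
      · simp [Polynomial.eval_monomial, ← Finset.mul_sum, h]
  let T := Finset.univ.filter fun i => y i ≠ 0
  let G := ∏ j ∈ T, (Polynomial.X - Polynomial.C (y j))
  have g0 : G.eval 0 ≠ 0 := by
    simp [G, Polynomial.eval_prod, Finset.prod_ne_zero_iff, T]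
  have g1 : ∀ j, G.eval 0 - G.eval (y j) = if y j ≠ 0 then G.eval 0 else 0 := fun j => by
    split_ifs with c
    · rw [sub_eq_self, Polynomial.eval_prod]
      exact Finset.prod_eq_zero (i := j) (by simpa [T] using c) (by simp)
    · rw [not_not.1 c, sub_self]
  have := k G
  rw [Finset.sum_congr rfl fun j _ => g1 j, ← Finset.sum_filter, Finset.sum_const, nsmul_eq_mul,
    mul_eq_zero, or_iff_left g0, Nat.cast_eq_zero, Finset.card_eq_zero] at this
  simpa using Finset.filter_eq_empty_iff.1 this (Finset.mem_univ i)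

theorem ht1 {A : Type} [CommRing A] [IsDomain A] [IsNoetherianRing A] {q : Ideal A} {s : A}
    (s0 : s ≠ 0) (h : q ∈ (Ideal.span {s}).minimalPrimes) : q.height = 1 :=
  have := h.1.1
  le_antisymm (Ideal.height_le_one_of_isPrincipal_of_mem_minimalPrimes _ q h)
    (Order.one_le_iff_ne_zero.2 fun e => s0 (by
      have := h.1.2 (Ideal.mem_span_singleton_self s)
      rwa [Ideal.height_eq_zero_iff_eq_bot.1 e, Ideal.mem_bot] at this))

variable {k F : Type} [Field k] [Algebra ℂ k] [Field F] [Algebra ℂ F] {S : Subalgebra ℂ F}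
  {p q : Ideal S} {d : ℕ}

/-- a function which is a unit at `p` and vanishes highly along finitely many places -/
theorem av (hp : p.IsPrime) (g : F) {T : Set (Pl F)} (hT : T.Finite) :
    (∀ R ∈ T, (∀ s : S, (s : F) ∈ R.ring) ∧ ∃ x : S, x ∉ p ∧ 0 < R.ord x) →
      ∃ u : S, u ∉ p ∧ ∀ R ∈ T, R.ord g < R.ord u := by
  induction T, hT using Set.Finite.induction_on with
  | empty => exact fun _ => ⟨1, (Ideal.ne_top_iff_one p).1 hp.ne_top, fun _ h => h.elim⟩
  | @insert R T _ _ ih =>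
    intro h
    obtain ⟨u, u1, u2⟩ := ih fun R a => h R (.inr a)
    obtain ⟨m, x, x1, x2⟩ := h R (.inl rfl)
    have u0 := Hr.ne_of_notMem u1
    have x0 := pow_ne_zero ((R.ord g).natAbs + 1) (Hr.ne_of_notMem x1)
    refine ⟨u * x ^ ((R.ord g).natAbs + 1), fun c => (hp.mem_or_mem c).elim u1
      fun c => x1 (hp.mem_of_pow_mem _ c), fun Q hQ => ?_⟩
    rw [MulMemClass.coe_mul, SubmonoidClass.coe_pow, Pl.ord_mul _ u0 x0]
    rcases hQ with rfl | hQ
    · have := Pl.ord_nonneg_of_mem Q.toPlace (m u)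
      rw [Pl.ord_pow, Nat.cast_succ, Int.natCast_natAbs]
      nlinarith [abs_nonneg (Q.ord g), le_abs_self (Q.ord g)]
    · have := Pl.ord_nonneg_of_mem Q.toPlace (pow_mem ((h Q (.inr hQ)).1 x) ((R.ord g).natAbs + 1))
      have := u2 Q hQ
      omega

/-- the points over the origin -/
theorem res_of {t : Fin d → S}
    (int : ∀ a ∈ S, IsIntegral (Algebra.adjoin ℂ (range fun l => (t l : F))) a) (hq : q.IsPrime)
    (tq : ∀ l, t l ∈ q) (a : S) : ∃ c : ℂ, a - algebraMap ℂ S c ∈ q := by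
  let B := MvPolynomial (Fin d) ℂ
  have : Algebra.IsIntegral ℂ (S ⧸ q) := ⟨fun x => by
    obtain ⟨a, rfl⟩ := Ideal.Quotient.mk_surjective x
    let : Algebra B F := (S.val.comp (aeval t : B →ₐ[ℂ] S)).toRingHom.toAlgebra
    obtain ⟨G, g1, g2⟩ : IsIntegral B (a : F) := int_mono (fun b => by
      have : (b : F) ∈ (aeval fun l => (t l : F) : B →ₐ[ℂ] F).range :=
        Algebra.adjoin_range_eq_range_aeval ℂ (fun l => (t l : F)) ▸ b.2
      exact this.imp fun G h => (comp_aeval_apply t S.val G).trans h) (int a a.2)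
    have g3 : G.eval₂ (aeval t : B →ₐ[ℂ] S).toRingHom a = 0 :=
      Subtype.ext ((Polynomial.hom_eval₂ G _ S.val.toRingHom a).trans g2)
    refine ⟨G.map constantCoeff, g1.map _, ?_⟩
    rw [Polynomial.eval₂_map, ← (Ideal.Quotient.mk q).map_zero, ← g3, Polynomial.hom_eval₂]
    refine congrArg (Polynomial.eval₂ · _ G) (ringHom_ext (fun c => ?_) fun l => ?_)
    · simp [B]
    · simpa [B] using (Ideal.Quotient.eq_zero_iff_mem.2 (tq l)).symm⟩
  obtain ⟨c, hc⟩ := (IsAlgClosed.algebraMap_bijective_of_isIntegral (k := ℂ) (K := S ⧸ q)).2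
    (Ideal.Quotient.mk q a)
  exact ⟨c, Ideal.Quotient.eq.1 hc.symm⟩

theorem inR {t : Fin d → F} {a : F} (int : IsIntegral (Algebra.adjoin ℂ (range t)) a) {R : Pl F}
    (h : ∀ l, t l ∈ R.ring) : a ∈ R.ring := by
  have hB : ∀ b ∈ Algebra.adjoin ℂ (range t), b ∈ R.ring := fun b hb => Algebra.adjoin_induction
    (fun _ ⟨l, e⟩ => e ▸ h l) R.con (fun _ _ _ _ => add_mem) (fun _ _ _ _ => mul_mem) hb
  have hi : IsIntegral R.ring a :=
    int_mono (fun b : Algebra.adjoin ℂ (range t) => ⟨⟨b, hB b b.2⟩, rfl⟩) int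
  obtain ⟨y, hy⟩ := IsIntegrallyClosed.isIntegral_iff.1 hi
  exact hy ▸ y.2

variable [Algebra k F] [IsScalarTower ℂ k F] [FiniteDimensional k F]

theorem tr_pos (W : Pl k) {η : F}
    (h : ∀ R, Lies (algebraMap k F) R W → η = 0 ∨ 0 < R.ord η) :
    Algebra.trace k F η = 0 ∨ 0 < W.ord (Algebra.trace k F η) := by
  have : CharZero k := charZero_of_injective_algebraMap (algebraMap ℂ k).injective
  let Ω := AlgebraicClosure k
  obtain ⟨V, hV⟩ := val_over (algebraMap k Ω) W
  rw [← lt_iff hV, trace_eq_sum_embeddings Ω]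
  refine V.valuation.map_sum_lt one_ne_zero fun σ _ => ?_
  have l1 : ∀ a, a ∈ W.ring ↔ algebraMap k F a ∈ V.comap (σ : F →+* Ω) := fun a => by
    rw [hV, ← σ.commutes]; rfl
  obtain ⟨R, hR⟩ := pl_over W _ l1
  have hR' : ∀ a, a ∈ R.ring ↔ (σ : F →+* Ω) a ∈ V := fun a => by rw [hR]; rfl
  exact (lt_iff hR' η).2 (h R fun a => by rw [hR]; exact l1 a)

/-- the tame bound for the trace dual along a prime divisor -/
theorem du {R : Pl F} {W : Pl k} (l : Lies (algebraMap k F) R W) (c : Cen S q R)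
    (lo : ∀ a ∈ R.ring, a ∈ Lo S q) (io : ∀ a ∈ S, IsIntegral W.ring a) {η : F}
    (h : ∀ s ∈ S, Algebra.trace k F (η * s) = 0 ∨ 0 < W.ord (Algebra.trace k F (η * s))) :
    η = 0 ∨ 0 < R.ord η := by
  have : CharZero k := charZero_of_injective_algebraMap (algebraMap ℂ k).injective
  by_contra n
  rw [not_or, not_lt] at n
  obtain ⟨s, u, hu, e⟩ := lo η⁻¹ ((Pl.ord_nonneg_iff R.toPlace (inv_ne_zero n.1)).1 (by
    rw [Pl.ord_inv]; omega))
  rw [eq_div_iff (Hr.ne_of_notMem hu), inv_mul_eq_iff_eq_mul₀ n.1] at e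
  let Ω := AlgebraicClosure k
  let σ₀ : F →ₐ[k] Ω := IsAlgClosed.lift
  obtain ⟨V, hV⟩ := val_over (σ₀ : F →+* Ω) R
  have hW : ∀ a, a ∈ W.ring ↔ algebraMap k Ω a ∈ V := fun a => by
    rw [l a, hV, ← σ₀.commutes]; rfl
  have vo : Sk2.Vo W.ring k V.valuation := fun a => by
    rw [V.valuation_le_one_iff, ← hW]
    exact ⟨fun h => ⟨⟨a, h⟩, rfl⟩, fun ⟨b, h⟩ => h ▸ b.2⟩
  have m : ∀ σ : F →ₐ[k] Ω, σ u ∈ V := fun σ =>
    (V.valuation_le_one_iff _).1 (Sk2.le_of_int vo (io _ u.2) σ)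
  have : CharZero (IsLocalRing.ResidueField V) := charZero_of_injective_ringHom
    ((IsLocalRing.residue V).comp (((algebraMap k Ω).comp (algebraMap ℂ k)).codRestrict V
      fun c => (hW _).1 (W.con c))).injective
  have z := psum (fun σ : F →ₐ[k] Ω => IsLocalRing.residue V ⟨σ u, m σ⟩) (fun n => by
    simp only [← map_pow, ← map_sum]
    rw [IsLocalRing.residue_eq_zero_iff, V.valuation_lt_one_iff]
    have := (lt_iff hW _).2 (h (s * u ^ n) (mul_mem s.2 (pow_mem u.2 n)))
    rw [trace_eq_sum_embeddings Ω, ← mul_assoc, ← e, ← pow_succ'] at this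
    simpa using this) σ₀
  rw [IsLocalRing.residue_eq_zero_iff, V.valuation_lt_one_iff] at z
  exact hu ((Hr.cen_iff c u).2 ((lt_iff hV _).1 z))

end Vale.Agent.P283R.T3.Mul
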