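import Vale.Agent.P283R.T3.Spl
import Vale.Agent.P283R.T3.Mua

/-!
# P283R, block T3: a Gorenstein log terminal surface point has embedding dimension at most three
-/

set_option linter.all false

open Set MvPolynomial

noncomputable section

namespace Vale.Agent.P283R.T3.Mul

open Vale.Agent.P287D Vale.Agent.P297Z Skp
open Vale.Agent.P285N.Brep (jac Fr)

variable {k F : Type} [Field k] [Algebra ℂ k] [Field F] [Algebra ℂ F] {S : Subalgebra ℂ F}
  {p q : Ideal S} {d : ℕ}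

/-- the polynomial ring -/
theorem base {t : Fin d → k} (h : Rat t) :
    Aff d (Algebra.adjoin ℂ (range t)) ∧ IsIntegrallyClosed (Algebra.adjoin ℂ (range t)) ∧
      ∀ W, PD (Algebra.adjoin ℂ (range t)) W → kap t W = 0 := by
  have mt : ∀ r, aeval t r ∈ Algebra.adjoin ℂ (range t) := fun r => by
    rw [Algebra.adjoin_range_eq_range_aeval]; exact ⟨r, rfl⟩
  refine ⟨⟨h.ff, Subalgebra.fg_def.2 ⟨_, finite_range _, rfl⟩, fun a =>
    let ⟨r, s, e⟩ := h.2 a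
    ⟨⟨_, mt r⟩, ⟨_, mt s⟩, e⟩⟩, IsIntegrallyClosed.of_equiv h.1.aevalEquiv.toRingEquiv,
    fun W ⟨q, c, lo⟩ => ?_⟩
  obtain ⟨D, hD⟩ := Cb.fr_of h.ff h.1
  have hq := Hr.cen_prime c
  refine Dr13.der_kap hq hD (fun j => Dr13.coe_mem hq ⟨_, Algebra.subset_adjoin ⟨j, rfl⟩⟩)
    (fun j a => Dr13.der_lo hq le_rfl fun s => Dr13.coe_mem hq ⟨D j s, ?_⟩) W ⟨q, le_rfl, c, lo⟩
  refine Algebra.adjoin_induction (p := fun x _ => D j x ∈ Algebra.adjoin ℂ (range t)) ?_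
    (fun c => by simp) (fun _ _ _ _ a b => by rw [map_add]; exact add_mem a b)
    (fun _ _ x y a b => by
      rw [Derivation.leibniz, smul_eq_mul, smul_eq_mul]
      exact add_mem (mul_mem x b) (mul_mem y a)) s.2
  rintro _ ⟨l, rfl⟩
  rw [hD.dual]
  split_ifs
  · exact one_mem _
  · exact zero_mem _

/-- a place over a prime divisor is a prime divisor -/
theorem pd_up [Algebra k F] {B : Subalgebra ℂ k} (hS : Aff d S) (hn : IsIntegrallyClosed S)
    (φ : B →+* S) (e : ∀ b : B, (φ b : F) = algebraMap k F b) (int : φ.IsIntegral) {R : Pl F}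
    {W : Pl k} (l : Lies (algebraMap k F) R W) (m : ∀ a ∈ S, a ∈ R.ring) (h : PD B W) :
    PD S R := by
  obtain ⟨q', c', lo'⟩ := h
  have := hS.noeth
  let q := RingHom.ker (Bm.rdh R S m)
  have c : Cen S q R := fun x => ⟨m x x.2, Iff.rfl⟩
  have hq := Hr.cen_prime c
  have qq : ∀ b, φ b ∈ q ↔ b ∈ q' := fun b => by
    rw [Hr.cen_iff c, Hr.cen_iff c', e, l.ord_pos_iff, map_eq_zero]
  obtain ⟨s, u, hu, e'⟩ := lo' W.t ((Pl.ord_nonneg_iff W.toPlace W.t_ne).1 (by rw [W.ord_t]; omega))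
  have s0 : (s : k) ≠ 0 := fun z => W.t_ne (by rw [e', z, zero_div])
  have s1 : W.ord s = 1 := by
    have := W.ord_t
    rwa [e', Pl.ord_div _ s0 (Hr.ne_of_notMem hu), Hr.cen_ord c' hu, sub_zero] at this
  have mn := Hr.pd_min c' lo' s0 (by omega)
  have h1 : q.height = 1 := ht1 (s := φ s)
    (fun z => s0 ((map_eq_zero (algebraMap k F)).1 (by rw [← e, z]; rfl)))
    ⟨⟨hq, (Ideal.span_singleton_le_iff_mem _).2 ((qq s).2 (mn.1.2
      (Ideal.mem_span_singleton_self s)))⟩, fun J ⟨a, b⟩ le => by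
      by_contra n
      let := φ.toAlgebra
      have : Algebra.IsIntegral B S := ⟨int⟩
      have k1 := Ideal.IsIntegral.comap_lt_comap (R := B) (lt_of_le_not_ge le n)
      refine k1.not_ge fun x hx => mn.2 (y := J.comap φ) ⟨Ideal.comap_isPrime φ J,
        (Ideal.span_singleton_le_iff_mem _).2 (b (Ideal.mem_span_singleton_self _))⟩
        (fun x hx => (qq x).1 (le hx)) ((qq x).1 hx)⟩
  obtain ⟨R', c1, c2⟩ := Hr.exists_pl hS hn hq h1
  have := ValuationSubring.eq_of_le_of_ne_top R'.ring (fun a ha => Hr.cen_lo c (c2 a ha))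
    (Pl.ring_ne_top R.toPlace)
  exact ⟨q, c, fun a ha => c2 a (this ▸ ha)⟩

theorem out {R : Pl F} (c : Cen S q R) (h : ¬ q ≤ p) :
    (∀ s : S, (s : F) ∈ R.ring) ∧ ∃ x : S, x ∉ p ∧ 0 < R.ord x :=
  let ⟨x, a, b⟩ := SetLike.not_le_iff_exists.1 h
  ⟨fun s => (c s).1, x, b, ((Hr.cen_iff c x).1 a).resolve_left (Hr.ne_of_notMem b)⟩

/-- the coordinate ring of the plane -/
abbrev Bs (tk : Fin 2 → k) : Subalgebra ℂ k := Algebra.adjoin ℂ (range tk)

/-- the coordinates -/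
def co (tk : Fin 2 → k) (l : Fin 2) : Bs tk := ⟨tk l, Algebra.subset_adjoin ⟨l, rfl⟩⟩

theorem sur (tk : Fin 2 → k) (b : Bs tk) : ∃ G : MvPolynomial (Fin 2) ℂ, aeval (co tk) G = b := by
  have : (b : k) ∈ (aeval tk : MvPolynomial (Fin 2) ℂ →ₐ[ℂ] k).range :=
    Algebra.adjoin_range_eq_range_aeval ℂ tk ▸ b.2
  exact this.imp fun G h => Subtype.ext ((comp_aeval_apply (co tk) (Bs tk).val G).trans h)

theorem org {tk : Fin 2 → k} {n : Ideal (Bs tk)} (np : n.IsPrime) (xn : ∀ l, co tk l ∈ n) :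
    n = Ideal.span {co tk 0, co tk 1} := le_antisymm (fun b hb => by
  obtain ⟨G, rfl⟩ := sur tk b
  have k : ∀ G : MvPolynomial (Fin 2) ℂ, aeval (co tk) G - algebraMap ℂ _ (constantCoeff G) ∈
      Ideal.span {co tk 0, co tk 1} := fun G => by
    induction G using MvPolynomial.induction_on with
    | C c => simp
    | add a b u v => rw [map_add, map_add, map_add, add_sub_add_comm]; exact add_mem u v
    | mul_X a l _ =>
      simp only [map_mul, aeval_X, constantCoeff_X, mul_zero, map_zero, sub_zero]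
      exact Ideal.mul_mem_left _ _ (Ideal.subset_span (by fin_cases l <;> simp))
  simpa [(mem_iff np xn G).1 hb] using k G)
  (Ideal.span_le.2 (by rintro _ (rfl | rfl) <;> exact xn _))

theorem bW {tk : Fin 2 → k} {W : Pl k} (hW : ∀ l, tk l ∈ W.ring) (b : Bs tk) : (b : k) ∈ W.ring :=
  inR (isIntegral_algebraMap (x := b)) hW

variable [Algebra k F] [IsScalarTower ℂ k F]

theorem cs (c : ℂ) : algebraMap k F (algebraMap ℂ k c) = algebraMap ℂ F c :=
  (IsScalarTower.algebraMap_apply ℂ k F c).symm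

theorem tπ (a : k) (z : F) : Algebra.trace k F (algebraMap k F a * z) =
    a * Algebra.trace k F z := by rw [← Algebra.smul_def, map_smul, smul_eq_mul]

/-- a finite projection to the plane -/
structure Ctx (S : Subalgebra ℂ F) (p : Ideal S) (tk : Fin 2 → k) (t : Fin 2 → S)
    (φ : Bs tk →+* S) : Prop where
  aff : Aff 2 S
  nor : IsIntegrallyClosed S
  hp : p.IsPrime
  hk : Rat tk
  e : ∀ l, algebraMap k F (tk l) = t l
  tp : ∀ l, t l ∈ p
  ind : AlgebraicIndependent ℂ fun l => (t l : F)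
  int : ∀ a ∈ S, IsIntegral (Algebra.adjoin ℂ (range fun l => (t l : F))) a
  eφ : ∀ b, (φ b : F) = algebraMap k F b

variable {tk : Fin 2 → k} {t : Fin 2 → S} {φ : Bs tk →+* S} {y : Fin 2 → F} {h δ : F} {u : S}

theorem Ctx.np (H : Ctx S p tk t φ) : (p.comap φ).IsPrime :=
  have := H.hp
  Ideal.comap_isPrime φ p

theorem Ctx.xn (H : Ctx S p tk t φ) (l : Fin 2) : co tk l ∈ p.comap φ :=
  show φ (co tk l) ∈ p from (Subtype.ext ((H.eφ _).trans (H.e l)) : φ (co tk l) = t l) ▸ H.tp l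

theorem Ctx.mB (H : Ctx S p tk t φ) (b : Bs tk) : algebraMap k F b ∈ S := H.eφ b ▸ (φ b).2

theorem Ctx.iB (H : Ctx S p tk t φ) {a : F} (ha : a ∈ S) : IsIntegral (Bs tk) a :=
  int_mono (fun b => Algebra.adjoin_induction (p := fun x _ => x ∈ (algebraMap (Bs tk) F).range)
    (by rintro _ ⟨l, rfl⟩; exact ⟨co tk l, H.e l⟩) (fun c => ⟨algebraMap ℂ _ c, cs c⟩)
    (fun _ _ _ _ => add_mem) (fun _ _ _ _ => mul_mem) b.2) (H.int a ha)

theorem Ctx.iφ (H : Ctx S p tk t φ) : φ.IsIntegral := fun a => by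
  obtain ⟨G, g1, g2⟩ := H.iB a.2
  refine ⟨G, g1, Subtype.ext (((Polynomial.hom_eval₂ G _ S.val.toRingHom a).trans ?_).trans g2)⟩
  exact congrArg (Polynomial.eval₂ · (a : F) G) (RingHom.ext H.eφ)

theorem Ctx.up (H : Ctx S p tk t φ) {R : Pl F} {W : Pl k} (l : Lies (algebraMap k F) R W)
    (hW : ∀ l, tk l ∈ W.ring) : ∀ a ∈ S, a ∈ R.ring :=
  fun a ha => inR (H.int a ha) fun j => H.e j ▸ (l _).1 (hW j)

theorem Ctx.hur (H : Ctx S p tk t φ) {R : Pl F} {W : Pl k} (l : Lies (algebraMap k F) R W) :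
    kap (fun l => (t l : F)) R + 1 = R.ord (algebraMap k F W.t) * (kap tk W + 1) := by
  simpa only [H.e] using Cb.hur H.hk.ff H.aff.ff cs l H.hk.1

/-- the coordinates are a regular sequence -/
theorem Ctx.rs (H : Ctx S p tk t φ) {a b : S} (e : t 1 * a = t 0 * b) : (a : F) / t 0 ∈ S := by
  have := H.aff.noeth
  have t0 : ∀ l, (t l : F) ≠ 0 := H.ind.ne_zero
  refine Hr.mem_of H.aff H.nor fun R ⟨q, c, lo⟩ => ?_
  by_cases k0 : t 0 ∈ q
  swap
  · exact Hr.cen_lo c ⟨a, t 0, k0, rfl⟩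
  by_cases k1 : t 1 ∈ q
  swap
  · refine Hr.cen_lo c ⟨b, t 1, k1, ?_⟩
    rw [div_eq_div_iff (t0 0) (t0 1), mul_comm, mul_comm (b : F)]
    exact congrArg Subtype.val e
  have hq := Hr.cen_prime c
  obtain ⟨d, w, hd, hw⟩ := Hr.exists_ind H.aff hq (ht1 (s := t 0)
    (fun z => t0 0 (congrArg Subtype.val z))
    (Hr.pd_min c lo (t0 0) (((Hr.cen_iff c _).1 k0).resolve_left (t0 0)).ne'))
  obtain rfl : d = 1 := by omega
  obtain ⟨c, hc⟩ := res_of H.int hq (Fin.forall_fin_two.2 ⟨k0, k1⟩) (w 0)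
  refine (hw (X 0 - C c) (fun z => ?_) (by simpa using hc)).elim
  simpa using congrArg (eval fun _ => c + 1) z

/-- splitting in the trace dual -/
theorem Ctx.spl (H : Ctx S p tk t φ) {E : Pl k} (cE : Cen (Bs tk) (p.comap φ) E) {ξ : F}
    (hξ : ∀ s ∈ S, Algebra.trace k F (ξ * s) ∈ Lo (Bs tk) (p.comap φ) ∧
      Cb.Mx E (Algebra.trace k F (ξ * s))) :
    ∃ ξ₁ ξ₂ : F, ξ = t 0 * ξ₁ + t 1 * ξ₂ ∧
      (∀ s ∈ S, Algebra.trace k F (ξ₁ * s) ∈ Lo (Bs tk) (p.comap φ)) ∧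
      ∀ s ∈ S, Algebra.trace k F (ξ₂ * s) ∈ Lo (Bs tk) (p.comap φ) := by
  have := Pb.fin_of_ff H.hk.ff H.aff.ff
  have : CharZero k := charZero_of_injective_algebraMap (algebraMap ℂ k).injective
  obtain ⟨afB, -, -⟩ := base H.hk
  have np := H.np
  have sp := org np H.xn
  generalize p.comap φ = n at *
  have mB := H.mB
  have nm : ∀ {a b : Bs tk}, a ∉ n → b ∉ n → a * b ∉ n := fun a b z => (np.mem_or_mem z).elim a b
  have n1 : (1 : Bs tk) ∉ n := (Ideal.ne_top_iff_one n).1 np.ne_top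
  have := afB.isFrac
  have := afB.noeth
  let O := Localization.subalgebra.ofField k n.primeCompl n.primeCompl_le_nonZeroDivisors
  have hO : ∀ a, a ∈ O ↔ a ∈ Lo (Bs tk) n := fun a =>
    ⟨fun ⟨s, t, b, e⟩ => ⟨s, t, b, e.trans (div_eq_mul_inv _ _).symm⟩,
      fun ⟨s, t, b, e⟩ => ⟨s, t, b, e.trans (div_eq_mul_inv _ _)⟩⟩
  have : IsLocalRing O := IsLocalization.AtPrime.isLocalRing O n
  have : IsNoetherianRing O := IsLocalization.isNoetherianRing n.primeCompl O inferInstance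
  have : IsFractionRing O k := IsFractionRing.of_field O k fun z =>
    let ⟨s, t, e⟩ := afB.fr z
    ⟨algebraMap (Bs tk) O s, algebraMap (Bs tk) O t, e⟩
  have hm : IsLocalRing.maximalIdeal O =
      Ideal.span {algebraMap (Bs tk) O (co tk 0), algebraMap (Bs tk) O (co tk 1)} := by
    rw [← IsLocalization.AtPrime.map_eq_maximalIdeal n O]
    exact (congrArg (Ideal.map (algebraMap _ O)) sp).trans (by rw [Ideal.map_span, Set.image_pair])
  have b0 : ∀ {b : Bs tk}, b ∉ n → algebraMap k F b ≠ 0 := fun b =>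
    (map_ne_zero _).2 (Hr.ne_of_notMem b)
  have iv : ∀ {b : Bs tk}, b ∉ n → (b : k)⁻¹ ∈ O := fun b => (hO _).2 ⟨1, _, b, by simp⟩
  have sd : ∀ (r : O) (z : F), r • z = algebraMap k F r * z := fun r z => Algebra.smul_def r z
  let M : Submodule O F :=
    { carrier := {m | ∃ b : Bs tk, b ∉ n ∧ algebraMap k F b * m ∈ S}
      add_mem' := fun {a c} ⟨b, b1, b2⟩ ⟨b', c1, c2⟩ => ⟨b * b', nm b1 c1, by
        have := add_mem (mul_mem (mB b') b2) (mul_mem (mB b) c2)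
        convert this using 1
        rw [MulMemClass.coe_mul, map_mul]; ring⟩
      zero_mem' := ⟨1, n1, by simp⟩
      smul_mem' := fun r m ⟨b, b1, b2⟩ => by
        obtain ⟨s, u, hu, er⟩ := (hO r).1 r.2
        refine ⟨b * u, nm b1 hu, ?_⟩
        have := b0 hu
        convert mul_mem (mB s) b2 using 1
        rw [sd, er, MulMemClass.coe_mul, map_mul, map_div₀]
        field_simp }
  have SM : ∀ a ∈ S, a ∈ M := fun a ha => ⟨1, n1, by simpa using ha⟩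
  have MS : ∀ m ∈ M, ∃ r : O, ∃ s ∈ S, m = r • s := fun m ⟨b, b1, b2⟩ =>
    ⟨⟨_, iv b1⟩, _, b2, by rw [sd, map_inv₀, inv_mul_cancel_left₀ (b0 b1)]⟩
  have fg : M.FG := by
    obtain ⟨T, hT⟩ := H.aff.fg
    refine (fg_adjoin_of_finite (R := O) T.finite_toSet fun a ha => int_mono
      (fun b : Bs tk => ⟨algebraMap _ O b, rfl⟩) (H.iB (hT ▸ Algebra.subset_adjoin ha))).of_le ?_
    intro m hm
    obtain ⟨r, s, hs, rfl⟩ := MS m hm
    rw [← hT] at hs
    exact Submodule.smul_mem _ r (Algebra.adjoin_induction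
      (p := fun x _ => x ∈ Algebra.adjoin O (T : Set F)) (fun _ a => Algebra.subset_adjoin a)
      (fun c => cs (k := k) (F := F) c ▸
        Subalgebra.algebraMap_mem _ (algebraMap (Bs tk) O (algebraMap ℂ _ c)))
      (fun _ _ _ _ => add_mem) (fun _ _ _ _ => mul_mem) hs)
  have top : Submodule.span k (M : Set F) = ⊤ := eq_top_iff.2 fun z _ => by
    obtain ⟨s, u, rfl⟩ := H.aff.fr z
    have k1 : (s : F) / u ∈ Algebra.adjoin k (S : Set F) := by
      rw [div_eq_mul_inv]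
      exact mul_mem (Algebra.subset_adjoin s.2) ((Algebra.adjoin k (S : Set F)).inv_mem_of_algebraic
        (x := ⟨(u : F), Algebra.subset_adjoin u.2⟩) (Algebra.IsAlgebraic.isAlgebraic _))
    rw [← Subalgebra.mem_toSubmodule, Algebra.adjoin_eq_span,
      show (Submonoid.closure (S : Set F) : Set F) = S from
        congrArg _ (Submonoid.closure_eq S.toSubmonoid)] at k1
    exact Submodule.span_mono SM k1
  have sm : ∀ l (z : F), algebraMap (Bs tk) O (co tk l) • z = t l * z := fun l z => by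
    rw [sd, ← H.e]; rfl
  obtain ⟨ξ₁, ξ₂, e1, e2, e3⟩ := split hm (fun z => H.hk.1.ne_zero 0 (congrArg Subtype.val z))
    M fg top (by
      rintro m ⟨b, b1, b2⟩ ⟨m', ⟨b', c1, c2⟩, em⟩
      rw [sm, sm] at em
      refine ⟨m / t 0, ⟨b * b', nm b1 c1, ?_⟩, by rw [sm, mul_div_cancel₀ _ (H.ind.ne_zero 0)]⟩
      have := H.rs (a := φ b' * ⟨_, b2⟩) (b := φ b * ⟨_, c2⟩) (Subtype.ext (by
        simp only [MulMemClass.coe_mul, H.eφ]
        linear_combination (algebraMap k F b * algebraMap k F b') * em))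
      convert this using 1
      simp only [MulMemClass.coe_mul, H.eφ, map_mul]
      ring) (ξ := ξ) fun m hm => by
      obtain ⟨r, s, hs, rfl⟩ := MS m hm
      obtain ⟨a1, a2⟩ := hξ s hs
      refine ⟨r * ⟨_, (hO _).2 a1⟩, Ideal.mul_mem_left _ _ ((IsLocalRing.mem_maximalIdeal _).2
        fun un => ?_), by rw [sd, mul_left_comm, tπ]; rfl⟩
      obtain ⟨v, hv⟩ := un.exists_right_inv
      have := a2.mul (Hr.cen_lo cE ((hO _).1 v.2))
      rw [mul_comm, show Algebra.trace k F (ξ * s) * v = 1 from congrArg Subtype.val hv] at this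
      exact Cb.not_mx_one this
  refine ⟨ξ₁, ξ₂, by rw [e1, sm, sm], fun s hs => ?_, fun s hs => ?_⟩
  · obtain ⟨r, hr⟩ := e2 s (SM s hs)
    exact hr ▸ (hO _).1 r.2
  · obtain ⟨r, hr⟩ := e3 s (SM s hs)
    exact hr ▸ (hO _).1 r.2

theorem ou (u0 : (u : F) ≠ 0) (d0 : δ ≠ 0) (R : Pl F) {z : F} (z0 : z ≠ 0) :
    R.ord (u / δ * z) = R.ord u - R.ord δ + R.ord z := by
  rw [Pl.ord_mul _ (div_ne_zero u0 d0) z0, Pl.ord_div _ u0 d0]

theorem Ctx.d1 (H : Ctx S p tk t φ) (d0 : δ ≠ 0) (u1 : u ∉ p)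
    (od : ∀ R, PDat S p R → (R.ord δ : ℝ) = kap (fun l => (t l : F)) R)
    (u2 : ∀ R, PD S R → R.ord δ ≠ 0 → ¬ PDat S p R → R.ord δ < R.ord u) {s : F} (hs : s ∈ S) :
    Algebra.trace k F (u / δ * s) ∈ Lo (Bs tk) (p.comap φ) := by
  have := Pb.fin_of_ff H.hk.ff H.aff.ff
  obtain ⟨afB, noB, kB⟩ := base H.hk
  have u0 := Hr.ne_of_notMem u1
  refine Hr.lo_of afB noB H.np fun W ⟨q, _, c, lo⟩ => ?_
  have := tr_pos W (η := algebraMap k F W.t * (u / δ * s)) fun R l => by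
    by_cases s0 : s = 0
    · simp [s0]
    have m := H.up l fun j => (c (co tk j)).1
    have a1 := Pl.ord_nonneg_of_mem R.toPlace (m _ hs)
    have a2 := Pl.ord_nonneg_of_mem R.toPlace (m _ u.2)
    have a3 := l.e_pos
    right
    rw [Pl.ord_mul _ ((map_ne_zero _).2 W.t_ne) (mul_ne_zero (div_ne_zero u0 d0) s0),
      ou u0 d0 R s0]
    by_cases pd : PDat S p R
    · have a4 := H.hur l
      rw [kB W ⟨q, c, lo⟩, ← od R pd, zero_add, mul_one] at a4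
      have : R.ord δ + 1 = R.ord (algebraMap k F W.t) := by exact_mod_cast a4
      omega
    by_cases z : R.ord δ = 0
    · omega
    have := u2 R (pd_up H.aff H.nor φ H.eφ H.iφ l m ⟨q, c, lo⟩) z pd
    omega
  rw [tπ, ← Cb.mx_iff, Cb.Mx, mul_div_cancel_left₀ _ W.t_ne] at this
  exact this

theorem Ctx.d3 (H : Ctx S p tk t φ) (d0 : δ ≠ 0)
    (od : ∀ R, PDat S p R → (R.ord δ : ℝ) = kap (fun l => (t l : F)) R) {ξ : F}
    (hξ : ∀ s ∈ S, Algebra.trace k F (ξ * s) ∈ Lo (Bs tk) (p.comap φ)) : δ * ξ ∈ Lo S p := by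
  have := Pb.fin_of_ff H.hk.ff H.aff.ff
  refine Hr.lo_of H.aff H.nor H.hp fun R pd => ?_
  obtain ⟨W, l⟩ := Pb.down H.hk.ff H.aff.ff R
  obtain ⟨q, le, c, lo⟩ := id pd
  have hW : ∀ j, tk j ∈ W.ring := fun j => (l _).2 (H.e j ▸ (c (t j)).1)
  by_cases z : ξ = 0
  · simpa [z] using zero_mem R.ring
  have π0 : algebraMap k F W.t ≠ 0 := (map_ne_zero _).2 W.t_ne
  have := du l c lo (fun a ha => int_mono (fun b : Bs tk => ⟨⟨b, bW hW b⟩, rfl⟩) (H.iB ha))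
    (η := algebraMap k F W.t * ξ) fun s hs => by
      obtain ⟨a, b, hb, er⟩ := hξ s hs
      rw [mul_assoc, tπ, ← Cb.mx_iff]
      exact Cb.mx_t ((l _).2 (Hr.cen_lo c ⟨φ a, φ b, fun z => hb (le z), by
        rw [er, map_div₀, H.eφ, H.eφ]⟩))
  rw [or_iff_right (mul_ne_zero π0 z), Pl.ord_mul _ π0 z] at this
  have a4 := H.hur l
  rw [← od R pd] at a4
  have a5 := Cb.kap_nonneg H.hk.ff hW
  have a6 : (0 : ℝ) < R.ord (algebraMap k F W.t) := by exact_mod_cast l.e_pos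
  have a7 : (R.ord (algebraMap k F W.t) : ℝ) ≤ R.ord δ + 1 := by nlinarith
  have : R.ord (algebraMap k F W.t) ≤ R.ord δ + 1 := by exact_mod_cast a7
  refine Cb.mem_ord ?_
  rw [Pl.ord_mul _ d0 z]
  omega

theorem exists_blw {n : ℕ} {tk : Fin (n + 1) → k} {t : Fin (n + 1) → F} (hk : Rat tk)
    (hF : FF F (n + 1)) (ind : AlgebraicIndependent ℂ t) (e : ∀ l, algebraMap k F (tk l) = t l) :
    ∃ E : Pl k, (∀ l, 0 < E.ord (tk l)) ∧ ∀ R, Lies (algebraMap k F) R E →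
      (∀ l, R.ord (t l) = R.ord (t 0)) ∧ 1 + kap t R = (n + 1 : ℕ) * R.ord (t 0) := by
  obtain ⟨E, w0, -, w2, -⟩ := place hk
  refine ⟨E, fun l => by rw [(kap_ch hk.ff hk.1 E w0 w2).1 l]; exact w0, fun R l =>
    kap_ch hF ind R (e 0 ▸ (l.ord_pos_iff _).2 w0) fun G G0 => ?_⟩
  have : aeval (fun l : Fin n => t l.succ / t 0) G =
      algebraMap k F (aeval (fun l => tk l.succ / tk 0) G) := by
    rw [← IsScalarTower.toAlgHom_apply ℂ k F, comp_aeval_apply]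
    exact congrArg (aeval · G) (funext fun l => by
      rw [IsScalarTower.toAlgHom_apply, map_div₀, e, e])
  rw [this, l.ord, (w2 G G0).2, mul_zero]
  exact ⟨(map_ne_zero _).2 (w2 G G0).1, rfl⟩

/-- the order at the origin -/
theorem Ctx.blw (H : Ctx S p tk t φ) : ∃ E : Pl k, Cen (Bs tk) (p.comap φ) E ∧
    ∀ R, Lies (algebraMap k F) R E → (∀ l, R.ord (t l) = R.ord (t 0)) ∧
      1 + kap (fun l => (t l : F)) R = 2 * R.ord (t 0) := by
  obtain ⟨E, oE, kE⟩ := exists_blw (n := 1) H.hk H.aff.ff H.ind H.e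
  have tE : ∀ l, tk l ∈ E.ring := fun l => Cb.mem_ord (oE l).le
  have c : Cen (Bs tk) (RingHom.ker (Bm.rdh E _ fun b hb => bW tE ⟨b, hb⟩)) E := fun x =>
    ⟨bW tE x, Iff.rfl⟩
  refine ⟨E, fun b => ⟨(c b).1, Iff.trans ?_ (c b).2⟩, fun R l => ⟨(kE R l).1, ?_⟩⟩
  · have xq : ∀ l, co tk l ∈ RingHom.ker (Bm.rdh E _ fun b hb => bW tE ⟨b, hb⟩) := fun l =>
      (Hr.cen_iff c (co tk l)).2 (.inr (oE l))
    rw [org H.np H.xn, org (Hr.cen_prime c) xq]
  exact (kE R l).2.trans (by norm_num)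

theorem Ctx.main (H : Ctx S p tk t φ) (fr : Frm y) (h0 : h ≠ 0)
    (h1 : ∀ R, PDat S p R → ld y 1 h R = 1) (h2 : ∀ R, Cen S p R → 0 < ld y 1 h R)
    (red : ∀ (Γ : Type) [LinearOrderedCommGroupWithZero Γ] (v : Valuation F Γ),
      (∀ c, v (algebraMap ℂ F c) ≤ 1) → (∀ a ∈ p, v (a : F) < 1) →
      ∀ g, (∀ l, v (t l : F) ≤ g) → ∀ a ∈ p, v (a : F) ≤ g) :
    ∃ (ξ : F) (E : Pl k), Cen (Bs tk) (p.comap φ) E ∧
      (∀ s ∈ S, Algebra.trace k F (ξ * s) ∈ Lo (Bs tk) (p.comap φ)) ∧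
      ∀ a ∈ p, Cb.Mx E (Algebra.trace k F (ξ * a)) →
        ∃ c₀ ∈ Lo S p, ∃ c₁ ∈ Lo S p, (a : F) = c₀ * t 0 + c₁ * t 1 := by
  have := Pb.fin_of_ff H.hk.ff H.aff.ff
  have hp := H.hp
  have t0 : ∀ l, (t l : F) ≠ 0 := H.ind.ne_zero
  obtain ⟨D, hD⟩ := fr
  have j0 : jac D (fun l => (t l : F)) ≠ 0 := (Cb.jac_ne_iff hD _).2 H.ind
  obtain ⟨δ, d0, od⟩ : ∃ δ : F, δ ≠ 0 ∧ ∀ R : Pl F,
      (R.ord δ : ℝ) = kap (fun l => (t l : F)) R + 1 - ld y 1 h R :=
    ⟨_, mul_ne_zero j0 h0, fun R => by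
      rw [Cb.kap_chg hD j0, Pi.add_apply, dv_apply, ld, Pl.ord_mul _ j0 h0]; push_cast; ring⟩
  have od' : ∀ R, PDat S p R → (R.ord δ : ℝ) = kap (fun l => (t l : F)) R := fun R a => by
    rw [od, h1 R a, add_sub_cancel_right]
  obtain ⟨E, cE, kE⟩ := H.blw
  have tE : ∀ l, tk l ∈ E.ring := fun l => (cE (co tk l)).1
  obtain ⟨u, u1, u2⟩ := av hp δ (T := {R | (PD S R ∧ R.ord δ ≠ 0) ∧ ¬ PDat S p R} ∪
      {R | Lies (algebraMap k F) R E ∧ ¬ Cen S p R})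
    (((Hr.fin_ord H.aff δ).subset fun _ a => a.1).union
      ((Pb.fin_above E).subset fun _ a => a.1)) (by
    rintro R (⟨⟨⟨q, c, lo⟩, -⟩, a⟩ | ⟨l, a⟩)
    · exact out c fun le => a ⟨q, le, c, lo⟩
    have c : Cen S (RingHom.ker (Bm.rdh R S (H.up l tE))) R := fun x => ⟨H.up l tE x x.2, Iff.rfl⟩
    refine out c fun le => a (le_antisymm le (fun z hz => ?_) ▸ c)
    obtain ⟨c', hc⟩ := res_of H.int (Hr.cen_prime c) (fun j => (Hr.cen_iff c _).2 (.inr
      (H.e j ▸ (l.ord_pos_iff _).2 (((Hr.cen_iff cE _).1 (H.xn j)).resolve_left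
        (H.hk.1.ne_zero j))))) z
    by_cases c0 : c' = 0
    · simpa [c0] using hc
    exact (hp.ne_top (p.eq_top_of_isUnit_mem (by simpa using sub_mem hz (le hc))
      ((IsUnit.mk0 c' c0).map (algebraMap ℂ S)))).elim)
  have u0 := Hr.ne_of_notMem u1
  have d1 := fun {s : F} (hs : s ∈ S) =>
    H.d1 d0 u1 od' (fun R a b c => u2 R (.inl ⟨⟨a, b⟩, c⟩)) hs
  have d2 : ∀ a ∈ p, ∀ b ∈ p, Cb.Mx E (Algebra.trace k F (u / δ * (a * b))) := fun a ha b hb => by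
    refine Cb.mx_iff.2 (tr_pos E fun R l => ?_)
    by_cases s0 : (a : F) * b = 0
    · exact .inl (by rw [s0, mul_zero])
    right
    rw [ou u0 d0 R s0]
    have m := H.up l tE
    have a2 := Pl.ord_nonneg_of_mem R.toPlace (m _ u.2)
    by_cases c : Cen S p R
    swap
    · have := u2 R (.inr ⟨l, c⟩)
      have := Pl.ord_nonneg_of_mem R.toPlace (m _ (mul_mem a.2 b.2))
      omega
    obtain ⟨k1, k2⟩ := kE R l
    have lw : ∀ a ∈ p, (a : F) ≠ 0 → R.ord (t 0) ≤ R.ord a := fun a ha a0 => by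
      have := red _ (Pl.val R.toPlace) (fun c => (Pl.mem_ring_iff _ _).1 (R.con c)) (fun b hb => by
        by_cases b0 : (b : F) = 0
        · simp [b0]
        · exact (Pl.ord_pos_iff_val _ b0).1 (((Hr.cen_iff c b).1 hb).resolve_left b0))
        (Pl.val R.toPlace (t 0)) (fun j => by
          rw [Pl.val_eq _ _ (t0 j), Pl.val_eq _ _ (t0 0), k1 j]) a ha
      rw [Pl.val_eq _ _ a0, Pl.val_eq _ _ (t0 0), WithZero.exp_le_exp] at this
      exact neg_le_neg_iff.1 this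
    have a3 := lw a ha (left_ne_zero_of_mul s0)
    have a4 := lw b hb (right_ne_zero_of_mul s0)
    have a5 : (R.ord δ : ℝ) < 2 * R.ord (t 0) := by linarith [od R, h2 R c]
    have : R.ord δ < 2 * R.ord (t 0) := by exact_mod_cast a5
    rw [Pl.ord_mul _ (left_ne_zero_of_mul s0) (right_ne_zero_of_mul s0)]
    omega
  refine ⟨u / δ, E, cE, fun s hs => d1 hs, fun a ha hN => ?_⟩
  obtain ⟨ξ₁, ξ₂, e1, e2, e3⟩ := H.spl cE (ξ := u / δ * a) fun s hs => by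
    refine ⟨mul_assoc (u / δ : F) a s ▸ d1 (mul_mem a.2 hs), ?_⟩
    obtain ⟨c, hc⟩ := res_of H.int hp H.tp ⟨s, hs⟩
    have := (d2 a ha _ hc).add (hN.mul (E.con c))
    rw [← tπ, ← map_add, cs] at this
    convert this using 2
    change _ = u / δ * (a * (s - algebraMap ℂ F c)) + _
    ring
  refine ⟨_, (Dr13.loc hp).mul_mem (H.d3 d0 od' e2) (Dr13.inv_mem hp u1),
    _, (Dr13.loc hp).mul_mem (H.d3 d0 od' e3) (Dr13.inv_mem hp u1), ?_⟩
  field_simp at e1 ⊢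
  linear_combination e1

theorem Ctx.gen (H : Ctx S p tk t φ) {ξ : F} {E : Pl k} (cE : Cen (Bs tk) (p.comap φ) E)
    (d1 : ∀ s ∈ S, Algebra.trace k F (ξ * s) ∈ Lo (Bs tk) (p.comap φ))
    (key : ∀ a ∈ p, Cb.Mx E (Algebra.trace k F (ξ * a)) →
      ∃ c₀ ∈ Lo S p, ∃ c₁ ∈ Lo S p, (a : F) = c₀ * t 0 + c₁ * t 1) :
    ∃ w ∈ p, ∀ a ∈ p, ∃ c₀ ∈ Lo S p, ∃ c₁ ∈ Lo S p, ∃ c₂ ∈ Lo S p,
      (a : F) = c₀ * t 0 + c₁ * t 1 + c₂ * w := by
  have hp := H.hp
  by_cases all : ∀ a ∈ p, Cb.Mx E (Algebra.trace k F (ξ * a))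
  · exact ⟨0, p.zero_mem, fun a ha =>
      let ⟨c₀, a0, c₁, a1, e⟩ := key a ha (all a ha)
      ⟨c₀, a0, c₁, a1, _, Dr13.coe_mem hp 0, by rw [e]; simp⟩⟩
  push Not at all
  obtain ⟨w, hw, wN⟩ := all
  obtain ⟨s, s', hs', es⟩ := d1 _ w.2
  have hs : s ∉ p.comap φ := fun z => wN (by
    rw [es, div_eq_inv_mul]
    exact (Cb.mx_iff.2 ((Hr.cen_iff cE s).1 z)).mul (Hr.cen_lo cE (Dr13.inv_mem H.np hs')))
  refine ⟨w, hw, fun a ha => ?_⟩
  obtain ⟨b, b', hb, eb⟩ := d1 _ a.2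
  rw [eq_div_iff (Hr.ne_of_notMem hb)] at eb
  rw [eq_div_iff (Hr.ne_of_notMem hs')] at es
  obtain ⟨c₀, a0, c₁, a1, e'⟩ := key (φ (b' * s) * a - φ (b * s') * w)
    (sub_mem (p.mul_mem_left _ ha) (p.mul_mem_left _ hw)) (by
      have : ξ * (φ (b' * s) * a - φ (b * s') * w : S) = algebraMap k F (b' * s : Bs tk) * (ξ * a) -
          algebraMap k F (b * s' : Bs tk) * (ξ * w) := by
        rw [← H.eφ, ← H.eφ]; push_cast; ring
      rw [this, map_sub, tπ, tπ]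
      convert Cb.mx_zero
      push_cast
      linear_combination (s : k) * eb - (b : k) * es)
  have hb' : φ (b' * s) ∉ p := fun z => (H.np.mem_or_mem z).elim hb hs
  have i := Dr13.inv_mem hp hb'
  refine ⟨_, (Dr13.loc hp).mul_mem a0 i, _, (Dr13.loc hp).mul_mem a1 i,
    _, (Dr13.loc hp).mul_mem (Dr13.coe_mem hp (φ (b * s'))) i, ?_⟩
  have := Hr.ne_of_notMem hb'
  rw [AddSubgroupClass.coe_sub, MulMemClass.coe_mul, MulMemClass.coe_mul] at e'
  field_simp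
  linear_combination e'

end Vale.Agent.P283R.T3.Mul

namespace Vale.Agent.P283R.T3

open Vale.Agent.P287D

/-- **MULT** -/
theorem mult {F : Type} [Field F] [Algebra ℂ F] {S : Subalgebra ℂ F} {p : Ideal S} {y : Fin 2 → F}
    {h : F} (aff : Aff 2 S) (nor : IsIntegrallyClosed S) (hp : p.IsPrime)
    (res : ∀ a : S, ∃ c : ℂ, a - algebraMap ℂ S c ∈ p) (fr : Frm y) (h0 : h ≠ 0)
    (h1 : ∀ R, PDat S p R → ld y 1 h R = 1) (h2 : ∀ R, Cen S p R → 0 < ld y 1 h R) :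
    ∃ z : Fin 3 → F, (∀ j, ∃ s ∈ p, (s : F) = z j) ∧
      ∀ a ∈ p, ∃ c : Fin 3 → F, (∀ j, c j ∈ Lo S p) ∧ (a : F) = ∑ j, c j * z j := by
  obtain ⟨t, a, b, c, e⟩ := Nn.nnS (Bm.trdeg_eq aff.ff) S aff.fg aff.fr p res
  let k := IntermediateField.adjoin ℂ (range fun l => (t l : F))
  let tk : Fin 2 → k := fun l => ⟨t l, IntermediateField.subset_adjoin _ _ ⟨l, rfl⟩⟩
  have mB : ∀ b ∈ Mul.Bs tk, algebraMap k F b ∈ S := fun b hb =>
    Algebra.adjoin_induction (p := fun b _ => algebraMap k F b ∈ S)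
      (by rintro _ ⟨l, rfl⟩; exact (t l).2) (fun c => S.algebraMap_mem c)
      (fun _ _ _ _ a b => map_add (algebraMap k F) _ _ ▸ add_mem a b)
      (fun _ _ _ _ a b => map_mul (algebraMap k F) _ _ ▸ mul_mem a b) hb
  have H : Mul.Ctx S p tk t (((algebraMap k F).comp (Mul.Bs tk).val.toRingHom).codRestrict S
      fun b => mB b b.2) := ⟨aff, nor, hp, Skp.rat_adjoin b, fun _ => rfl, a, b, c, fun _ => rfl⟩
  obtain ⟨ξ, E, c1, c2, c3⟩ := H.main fr h0 h1 h2 e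
  obtain ⟨w, hw, k⟩ := H.gen c1 c2 c3
  refine ⟨![t 0, t 1, w], fun j => ?_, fun x hx => ?_⟩
  · fin_cases j
    exacts [⟨_, a 0, rfl⟩, ⟨_, a 1, rfl⟩, ⟨_, hw, rfl⟩]
  obtain ⟨c₀, a0, c₁, a1, c₂, a2, e⟩ := k x hx
  refine ⟨![c₀, c₁, c₂], fun j => ?_, by rw [e, Fin.sum_univ_three]; rfl⟩
  fin_cases j
  exacts [a0, a1, a2]

end Vale.Agent.P283R.T3
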