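import Vale.Agent.P283R.T3.Lf45
import Vale.Agent.P283R.Bx.St
import Vale.Agent.P287D.On.Nor

/-!
# P283R, block T3: a hypersurface section with klt normalisation is normal
-/

open Set

noncomputable section

namespace Vale.Agent.P283R.T3.L45

open Vale.Agent.P287D Vale.Agent.P283M Vale.Agent.P297Z Vale.Agent.P283R.Sk1

variable {K : Type} [Field K] [Algebra ℂ K] {n : ℕ} {P R : Pl K} {w : K} {y : Fin n → K}
  {S : Subalgebra ℂ K} {p q : Ideal S}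

theorem lo_mono (le : q ≤ p) {a : K} (h : a ∈ Lo S p) : a ∈ Lo S q :=
  let ⟨s, t, ht, e⟩ := h
  ⟨s, t, fun k => ht (le k), e⟩

theorem thp_of (h : PDat S p R) : Thp S {p} R :=
  let ⟨_, le, cen, _⟩ := h
  ⟨fun s hs => (cen ⟨s, hs⟩).1, p, rfl, fun a ha => le ((cen a).2.2 ha)⟩

theorem ord_un (h : Thp S {p} R) {s : S} (s0 : s ∉ p) : R.ord (s : K) = 0 := by
  obtain ⟨r, _, rfl, k⟩ := h
  have a := Pl.ord_nonneg_of_mem _ (r s s.2)
  have b := mt (Bm.rd_zero_iff R (r s s.2)).2 fun e => s0 (k s e)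
  rw [not_or] at b
  omega

theorem rd_div (h : Thp S {p} R) (s : S) {t : S} (t0 : t ∉ p) :
    (s : K) / t ∈ R.ring ∧ R.rd t ≠ 0 ∧ R.rd ((s : K) / t) = R.rd s / R.rd t := by
  obtain ⟨r, _, rfl, k⟩ := h
  have t1 : R.rd t ≠ 0 := fun e => t0 (k t e)
  obtain ⟨a, b⟩ := Hd.rd_inv' (r t t.2) t1
  rw [div_eq_mul_inv, div_eq_mul_inv]
  exact ⟨mul_mem (r s s.2) a, t1, by rw [Cb.rd_mul (r s s.2) a, b]⟩

theorem lo_rg (h : Thp S {p} R) {a : K} (ha : a ∈ Lo S p) : a ∈ R.ring := by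
  obtain ⟨s, t, ht, rfl⟩ := ha
  exact (rd_div h s ht).1

/-- the data of a hypersurface section `t = 0` with klt normalisation -/
structure Hs (n : ℕ) (S : Subalgebra ℂ K) (p : Ideal S) (P : Pl K) (t : S) (y : Fin n → K)
    (w : K) : Prop where
  aff : Aff (n + 1) S
  nor : IsIntegrallyClosed S
  max : p.IsMaximal
  pd : PDat S p P
  pos : 0 < P.ord (t : K)
  mem : ∀ i, y i ∈ P.ring
  frm : Frm fun i => P.rd (y i)
  ne : w ≠ 0
  un : P.ord w = 0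
  bd : ∀ R, PDat S p R → ld (Fin.cons (t : K) y : Fin (n + 1) → K) 1 w R = 1
  klt : ∀ Q, Thr S p P Q → 0 < ld (fun i => P.rd (y i)) 1 (P.rd w) Q

variable {t : S}

namespace Hs

/-- the extension theorem at a prime between the centre of `P` and `p` -/
theorem ext (h : Hs n S p P t y w) (hq : q.IsPrime) (le : q ≤ p) (hP : Thp S {q} P) {f : P.κ}
    (hf : f = 0 ∨ ∀ Q, Thr S q P Q → 0 < ld (fun i => P.rd (y i)) 1 (P.rd w) Q + Q.ord f) :
    ∃ g ∈ Lo S q, P.rd g = f ∧ (f ≠ 0 → ∀ R, Thp S {q} R → R ≠ P → (R.ord (t : K) : ℝ) <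
      ld (Fin.cons (t : K) y : Fin (n + 1) → K) 1 w R + R.ord g) :=
  let ⟨g, a, _, b⟩ := loc h.aff h.nor hq hP one_pos (Gf.lo_of hq t) h.pos h.mem h.frm h.ne h.un
    (fun R ⟨r, l, c⟩ _ => (h.bd R ⟨r, l.trans le, c⟩).le) hf
  ⟨g, a, b⟩

theorem one (h : Hs n S p P t y w) : P.ord (t : K) = 1 := by
  have := (ld_self (m := 1) h.aff.ff h.pos h.mem h.frm h.un).2
  rw [h.bd P h.pd] at this
  exact_mod_cast this.symm

/-- the log canonical threshold of `t` -/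
theorem lt (h : Hs n S p P t y w) (hR : Thp S {p} R) (ne : R ≠ P) :
    (R.ord (t : K) : ℝ) < ld (Fin.cons (t : K) y : Fin (n + 1) → K) 1 w R := by
  have hP := thp_of h.pd
  obtain ⟨_, ⟨s, u, u0, rfl⟩, e, k⟩ := h.ext h.max.isPrime le_rfl hP (f := 1)
    (.inr fun Q hQ => by simpa using h.klt Q hQ)
  obtain ⟨-, u1, e1⟩ := rd_div hP s u0
  rw [e1, div_eq_one_iff_eq u1] at e
  obtain ⟨r, _, ⟨⟩, c⟩ := hP
  have s0 : s ∉ p := fun hs => u0 (by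
    have := c (s - u) (by rw [Subalgebra.coe_sub, Cb.rd_sub (r s s.2) (r u u.2), e, sub_self])
    simpa using p.sub_mem hs this)
  have := k one_ne_zero R hR ne
  rw [Pl.ord_div _ (Gf.ne_of s0) (Gf.ne_of u0), ord_un hR s0, ord_un hR u0] at this
  simpa using this

theorem mem_p (h : Hs n S p P t y w) : t ∈ p := by
  by_contra c
  have := ord_un (thp_of h.pd) c
  have := h.pos
  omega

/-- the kernel of the restriction -/
theorem ker (h : Hs n S p P t y w) {g : K} (hg : g ∈ Lo S p) (e : P.rd g = 0) :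
    g / t ∈ Lo S p := by
  have t0 : (t : K) ≠ 0 := fun e => by simpa [e] using h.pos
  by_cases g0 : g = 0
  · rw [g0, zero_div]
    exact Gf.lo_of h.max.isPrime 0
  refine (hrt _ K S h.aff h.nor).2.2.1 p h.max.isPrime _ fun R hR => ?_
  have r := thp_of hR
  refine (Pl.ord_nonneg_iff _ (div_ne_zero g0 t0)).1 ?_
  rw [Pl.ord_div _ g0 t0]
  rcases eq_or_ne R P with rfl | ne
  · have := ((Bm.rd_zero_iff R (lo_rg r hg)).1 e).resolve_left g0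
    have := h.one
    omega
  · have a := h.lt r ne
    rw [h.bd R hR] at a
    have b : R.ord (t : K) < 1 := by exact_mod_cast a
    have := Pl.ord_nonneg_of_mem _ (lo_rg r hg)
    omega

end Hs

/-- `(S₁, p₁)` is the germ of the hypersurface -/
structure Sec (n : ℕ) (S : Subalgebra ℂ K) (p : Ideal S) (P : Pl K) (S₁ : Subalgebra ℂ P.κ)
    (p₁ : Ideal S₁) (ψ : S →ₐ[ℂ] S₁) : Prop where
  aff : Aff n S₁
  nor : IsIntegrallyClosed S₁
  max : p₁.IsMaximal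
  val : ∀ x, (ψ x : P.κ) = P.rd x
  mem : ∀ x, ψ x ∈ p₁ ↔ x ∈ p
  int : ∀ Q : Pl P.κ, (∀ a ∈ S, P.rd a ∈ Q.ring) → ∀ f ∈ S₁, f ∈ Q.ring
  sur : ∀ f ∈ S₁, ∃ g ∈ Lo S p, P.rd g = f

theorem Hs.sec (h : Hs n S p P t y w) : ∃ S₁ p₁ ψ, Sec n S p P S₁ p₁ ψ := by
  have hP := thp_of h.pd
  have hκ := Gm.ff_κ P h.aff.ff
  obtain ⟨q, le, cen, lo⟩ := h.pd
  let ρ := Cb.rdA (P := P) S hP.1
  let B := ρ.range
  let S₁ := (integralClosure B P.κ).restrictScalars ℂ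
  have mB : B ≤ S₁ := fun z hz => (integralClosure B P.κ).algebraMap_mem ⟨z, hz⟩
  have fg : B.FG := by
    have := (Subalgebra.fg_iff_finiteType _).1 h.aff.fg
    exact (Subalgebra.fg_iff_finiteType _).2
      (.of_surjective ρ.rangeRestrict ρ.rangeRestrict_surjective)
  have fr : ∀ a : P.κ, ∃ s u : B, a = s / u := fun a => by
    obtain ⟨g, hg, rfl⟩ := Pb.rd_sur P a
    obtain ⟨s, u, u0, rfl⟩ := lo g hg
    exact ⟨⟨_, s, rfl⟩, ⟨_, u, rfl⟩, (rd_div (p := q)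
      ⟨hP.1, q, rfl, fun a ha => (cen a).2.2 ha⟩ s u0).2.2⟩
  have : IsFractionRing B P.κ := IsFractionRing.of_field _ _ fr
  have ic : IsIntegrallyClosed (integralClosure B P.κ) :=
    integralClosure.isIntegrallyClosedOfFiniteExtension P.κ
  have int : ∀ Q : Pl P.κ, (∀ a ∈ S, P.rd a ∈ Q.ring) → ∀ f ∈ S₁, f ∈ Q.ring := fun Q r f hf => by
    let φ : B →+* Q.ring := B.val.toRingHom.codRestrict Q.ring fun ⟨_, a, e⟩ => e ▸ r a a.2
    have h0 : IsIntegral B f := hf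
    have h1 : IsIntegral Q.ring f := h0.map_of_comp_eq φ (RingHom.id _) rfl
    obtain ⟨c, rfl⟩ := IsIntegrallyClosed.isIntegral_iff.1 h1
    exact c.2
  let ψ : S →ₐ[ℂ] S₁ := ρ.codRestrict S₁ fun a => mB ⟨a, rfl⟩
  let _ := ψ.toRingHom.toAlgebra
  have : Algebra.IsIntegral S S₁ := ⟨fun f => by
    obtain ⟨r, rm, e⟩ := f.2
    obtain ⟨r', rfl, -, h3⟩ := Polynomial.lifts_and_degree_eq_and_monic
      ((Polynomial.mem_lifts r).2 (Polynomial.map_surjective ρ.rangeRestrict.toRingHom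
        ρ.rangeRestrict_surjective r)) rm
    refine ⟨r', h3, Subtype.ext ?_⟩
    rw [Polynomial.eval₂_map] at e
    exact (Polynomial.hom_eval₂ r' (algebraMap S S₁) S₁.val.toRingHom f).trans e⟩
  have := h.max
  obtain ⟨p₁, m1, c1⟩ := Ideal.exists_ideal_over_maximal_of_isIntegral (S := S₁) p
    fun a ha => le ((cen a).2.2 (congrArg Subtype.val ha))
  refine ⟨S₁, p₁, ψ, ⟨hκ, On.fg_of_int hκ fg mB fun a ha => ha, fun a => ?_⟩, ic, m1, fun _ => rfl,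
    fun x => by rw [← c1]; rfl, int, fun f hf => ?_⟩
  · obtain ⟨s, u, e⟩ := fr a
    exact ⟨⟨s, mB s.2⟩, ⟨u, mB u.2⟩, e⟩
  · obtain ⟨g, a, b, -⟩ := h.ext h.max.isPrime le_rfl hP (f := f) (.inr fun Q hQ => by
      have := h.klt Q hQ
      have o : (0 : ℝ) ≤ Q.ord f := by exact_mod_cast Pl.ord_nonneg_of_mem _ (int Q hQ.1 f hf)
      linarith)
    exact ⟨g, a, b⟩

variable {S₁ : Subalgebra ℂ P.κ} {p₁ : Ideal S₁} {ψ : S →ₐ[ℂ] S₁}

namespace Sec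

theorem thr (s : Sec n S p P S₁ p₁ ψ) {Q : Pl P.κ} (h : Thp S₁ {p₁} Q) : Thr S p P Q := by
  obtain ⟨r, _, rfl, k⟩ := h
  exact ⟨fun a ha => s.val ⟨a, ha⟩ ▸ r _ (ψ _).2,
    fun a ha => (s.mem a).1 (k _ (by rwa [s.val]))⟩

/-- the local rings at the primes below `p₁` -/
theorem lo (s : Sec n S p P S₁ p₁ ψ) (hP : Thp S {p} P) {q₁ : Ideal S₁} (hq : q₁.IsPrime)
    (le : q₁ ≤ p₁) {f : P.κ} (hf : f ∈ Lo S₁ q₁) :
    ∃ a b : S, ψ b ∉ q₁ ∧ f = P.rd a / P.rd b := by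
  obtain ⟨c, d, d0, rfl⟩ := hf
  obtain ⟨_, ⟨c1, c2, c0, rfl⟩, e⟩ := s.sur c c.2
  obtain ⟨_, ⟨d1, d2, d3, rfl⟩, e'⟩ := s.sur d d.2
  obtain ⟨-, a1, a2⟩ := rd_div hP c1 c0
  obtain ⟨-, b1, b2⟩ := rd_div hP d1 d3
  rw [a2] at e
  rw [b2] at e'
  have k : d * ψ d2 = ψ d1 := Subtype.ext (by
    rw [Subalgebra.coe_mul, s.val, s.val, ← e', div_mul_cancel₀ _ b1])
  refine ⟨c1 * d2, c2 * d1, fun m => ?_, ?_⟩
  · rw [map_mul, ← k] at m
    exact (hq.mem_or_mem m).elim (fun m => c0 ((s.mem _).1 (le m))) fun m =>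
      (hq.mem_or_mem m).elim d0 fun m => d3 ((s.mem _).1 (le m))
  · rw [← e, ← e', Subalgebra.coe_mul, Subalgebra.coe_mul, Cb.rd_mul (hP.1 _ c1.2) (hP.1 _ d2.2),
      Cb.rd_mul (hP.1 _ c2.2) (hP.1 _ d1.2), div_div_div_eq]

theorem lo' (s : Sec n S p P S₁ p₁ ψ) (hP : Thp S {p} P) {f : P.κ} (hf : f ∈ Lo S₁ p₁) :
    ∃ g ∈ Lo S p, P.rd g = f := by
  obtain ⟨a, b, b0, rfl⟩ := s.lo hP s.max.isPrime le_rfl hf
  have b1 : b ∉ p := fun m => b0 ((s.mem b).2 m)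
  exact ⟨_, ⟨a, b, b1, rfl⟩, (rd_div hP a b1).2.2⟩

/-- the members of `p₁` -/
theorem max' (s : Sec n S p P S₁ p₁ ψ) (hP : Thp S {p} P) {f : S₁} (hf : f ∈ p₁) :
    ∃ a ∈ p, ∃ b ∉ p, (f : P.κ) = P.rd a / P.rd b := by
  obtain ⟨_, ⟨a, b, b0, rfl⟩, e⟩ := s.sur f f.2
  obtain ⟨-, a1, a2⟩ := rd_div hP a b0
  rw [a2] at e
  have k : f * ψ b = ψ a := Subtype.ext (by
    rw [Subalgebra.coe_mul, s.val, s.val, ← e, div_mul_cancel₀ _ a1])
  exact ⟨a, (s.mem a).1 (k ▸ p₁.mul_mem_right _ hf), b, b0, e.symm⟩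

/-- the canonical class of the section is trivial -/
theorem triv (s : Sec n S p P S₁ p₁ ψ) (h : Hs n S p P t y w) {Q : Pl P.κ} (hQ : PDat S₁ p₁ Q) :
    ld (fun i => P.rd (y i)) 1 (P.rd w) Q = 1 := by
  have hP := thp_of h.pd
  have k := h.klt Q (s.thr (thp_of hQ))
  obtain ⟨q₁, le, cen, lo⟩ := hQ
  obtain ⟨z, hz⟩ := Cb.kap_int (fun i => P.rd (y i)) Q
  have hq : q₁.IsPrime := by
    have : q₁ = RingHom.ker (Bm.rdh Q S₁ fun a ha => (cen ⟨a, ha⟩).1) :=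
      Ideal.ext fun a => (cen a).2
    exact this ▸ RingHom.ker_isPrime _
  have tP : Thp S {q₁.comap ψ} P := ⟨hP.1, _, rfl, fun a ha => by
    rw [Ideal.mem_comap, show ψ a = 0 from Subtype.ext (by rwa [s.val])]
    exact zero_mem _⟩
  have e : ld (fun i => P.rd (y i)) 1 (P.rd w) Q = (1 + z - Q.ord (P.rd w) : ℤ) := by
    simp [ld, hz]
  rw [e] at k ⊢
  have k1 : 0 < 1 + z - Q.ord (P.rd w) := by exact_mod_cast k
  by_contra c
  have k2 : 1 + z - Q.ord (P.rd w) ≠ 1 := fun e => c (by rw [e]; simp)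
  obtain ⟨π, π0, π1⟩ := Pl.exists_ord_eq_one Q.toPlace
  obtain ⟨_, ⟨a, b, b0, rfl⟩, e1, -⟩ := h.ext (q := q₁.comap ψ) (hq.comap ψ)
    (fun a ha => (s.mem a).1 (le ha)) tP (f := π⁻¹) (.inr fun Q' hQ' => by
      obtain rfl : Q = Q' := P287D.Pl.ext' (Pl.ring_eq_of_le (fun f hf => by
        obtain ⟨a, b, b0, rfl⟩ := s.lo hP hq le (lo f hf)
        rw [div_eq_mul_inv]
        exact mul_mem (hQ'.1 _ a.2)
          (Hd.rd_inv' (hQ'.1 _ b.2) fun e => b0 (hQ'.2 b e)).1) (Pl.ring_ne_top _))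
      rw [e, Pl.ord_inv, π1]
      exact_mod_cast (by omega : 0 < 1 + z - Q.ord (P.rd w) + -1))
  have m : π⁻¹ ∈ Q.ring := by
    rw [← e1, (rd_div tP a b0).2.2, ← s.val, ← s.val]
    exact Gf.lo_ring cen ⟨_, _, b0, rfl⟩
  have := Pl.ord_nonneg_of_mem _ m
  rw [Pl.ord_inv] at this
  omega

/-- the embedding dimension -/
theorem emd (s : Sec n S p P S₁ p₁ ψ) (h : Hs n S p P t y w) {E : ℕ} (H : Bx.Emd E S₁ p₁) :
    Bx.Emd (E + 1) S p := by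
  have hP := thp_of h.pd
  have hp := h.max.isPrime
  have t0 : (t : K) ≠ 0 := fun e => by simpa [e] using h.pos
  obtain ⟨z, hz, gen⟩ := H
  choose a ha b hb e using fun j => s.max' hP (hz j)
  refine ⟨Fin.cons t a, Fin.cases h.mem_p ha, fun x hx => ?_⟩
  obtain ⟨c, hc, ex⟩ := gen (ψ x) ((s.mem x).2 hx)
  choose g hg eg using fun j => s.lo' hP (hc j)
  have m : ∀ j, g j * ((a j : K) / b j) ∈ Ws.lo S p hp := fun j =>
    Gf.lo_mul hp (hg j) ⟨_, _, hb j, rfl⟩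
  have mx : (x : K) ∈ Ws.lo S p hp := Gf.lo_of hp x
  let τ := Cb.rdA (P := P) (Ws.lo S p hp) fun _ => lo_rg hP
  have k := h.ker (g := x - ∑ j, g j * ((a j : K) / b j)) (sub_mem mx (sum_mem fun j _ => m j)) (by
    have : τ (⟨x, mx⟩ - ∑ j, ⟨_, m j⟩) = 0 := by
      rw [map_sub, map_sum, sub_eq_zero]
      change P.rd x = ∑ j, P.rd (g j * ((a j : K) / b j))
      rw [← s.val, ex]
      exact Finset.sum_congr rfl fun j _ => by
        rw [Cb.rd_mul (lo_rg hP (hg j)) (rd_div hP _ (hb j)).1, eg, (rd_div hP _ (hb j)).2.2, e]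
    simpa [τ, Cb.rdA] using this)
  refine ⟨Fin.cons _ fun j => g j * (((1 : S) : K) / b j),
    Fin.cases k fun j => Gf.lo_mul hp (hg j) ⟨_, _, hb j, rfl⟩, ?_⟩
  rw [Fin.sum_univ_succ]
  simp only [Fin.cons_zero, Fin.cons_succ]
  rw [div_mul_cancel₀ _ t0, sub_add, eq_comm, sub_eq_self, sub_eq_zero]
  exact Finset.sum_congr rfl fun j _ => by push_cast; ring

end Sec

end Vale.Agent.P283R.T3.L45
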