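import Vale.Agent.P287D.Ti.Tie
import Vale.Agent.P287D.Sf.Row
import Vale.Agent.P287D.Sf.Mum
import Vale.Agent.P287D.Ku.Ex
import Vale.Agent.P287D.Cv.Rr

/-!
# P283R, block T3: the adjoint sections of a normal surface do not vanish on all curves
-/

set_option linter.all false

open Set

noncomputable section

namespace Vale.Agent.P283R.T3

open Vale.Agent.P287D Vale.Agent.P287D.Sf

namespace S88

/-- a section on a curve -/
theorem crv {K : Type} [Field K] [Algebra ℂ K] (hK : FF K 1) {E : BD K} (h : E ∈ CarZ K)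
    (h0 : 0 ≤ I1 E) (h1 : 2 * pg K 1 - 2 < I1 E) : ∃ u, u ≠ 0 ∧ Sec E u := by
  have e := Cv.rr_large hK h h1
  obtain ⟨u, u0, hu⟩ := Cv.exists_sec hK (β := E) (Nat.cast_pos (α := ℝ).1 (by
    rcases Nat.eq_zero_or_pos (pg K 1) with g | g
    · rw [e, g, Nat.cast_zero]; linarith
    · have : (1 : ℝ) ≤ pg K 1 := Nat.one_le_cast.2 g
      linarith))
  exact ⟨u, u0, Or.inr hu⟩

variable {L : Type} [Field L] [Algebra ℂ L] (R : Rows L) (m : Nm L) {β Λ G : BD L} {P : Pl L}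
include R

/-- the value of a pull back -/
theorem loc (hβ : β ∈ Car L) (d : Det m.A β)
    (h : ∀ C, 0 < dg m.A C → 0 < m.c C P → 0 ≤ β C) :
    0 ≤ β P ∧ ∀ C, 0 < dg m.A C → 0 < m.c C P → 0 < β C → 0 < β P := by
  have fin := m.fin β (R.isb β hβ)
  have U : ∀ Q ∈ fin.toFinset, 0 < dg m.A Q := fun Q k => (fin.mem_toFinset.1 k).1
  have e : β = m.cm fin.toFinset β := R.mum_unique m.nn m.pos hβ (m.cm_car R β U) d
    (m.cm_det R β U) fun Q k => by
      by_cases s : Q ∈ fin.toFinset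
      · exact (m.cm_of_mem R β U s).symm
      · rw [m.cm_of_not R β U k s]
        by_contra z
        exact s (fin.mem_toFinset.2 ⟨k, z⟩)
  have v : β P = ∑ C ∈ fin.toFinset, β C * m.c C P :=
    (congrFun e P).trans (by simp [Nm.cm, Finset.sum_apply])
  have nn : ∀ C ∈ fin.toFinset, 0 ≤ β C * m.c C P := fun C k =>
    (m.c0 C (U C k) P).eq_or_lt.elim (fun z => by rw [← z]; simp)
      fun z => mul_nonneg (h C (U C k) z) z.le
  exact v ▸ ⟨Finset.sum_nonneg nn, fun C a b c => (mul_pos c b).trans_le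
    (Finset.single_le_sum nn (fin.mem_toFinset.2 ⟨a, c.ne'⟩))⟩

/-- the comparison with the minimal resolution -/
theorem pos {j : L} (hΛ : Λ ∈ Car L) (l0 : 0 ≤ Λ) (g0 : 0 ≤ G) (s : Smp (Λ - G))
    (d : Det m.A Λ) (h0 : ∀ P, Λ P = 0 → G P = 0 → (P.ord j : ℝ) ≤ cn L 2 P)
    (h1 : ∀ P, Λ P = 0 → 0 < G P → (P.ord j : ℝ) < cn L 2 P + G P) (a : Λ P = 0)
    (b : 0 < G P) : (P.ord j : ℝ) < m.k P + G P := by
  have gc : G ∈ Car L := by simpa using sub_mem hΛ s.car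
  have z : ∀ C, 0 < dg m.A C → 0 < m.c C P → Λ C = 0 := fun C u v =>
    (l0 C).eq_or_lt.elim Eq.symm fun w =>
      (((loc R m hΛ d fun C _ _ => l0 C).2 C u v w).ne' a).elim
  have kc := sub_mem m.kcar (dv_mem_Car j)
  have kd : Det m.A (m.k - dv j) :=
    R.det_sub m.kd (fun Q _ => R.prn _ (dv_mem_Prn j) Q) m.kcar (dv_mem_Car j)
  by_cases c : ∃ C, 0 < dg m.A C ∧ 0 < m.c C P ∧ 0 < G C
  · obtain ⟨C, c1, c2, c3⟩ := c
    have wc := add_mem gc kc
    obtain ⟨W, w1, w2, w3, -⟩ := m.trace R (R.isb _ wc)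
    have v : ∀ C, 0 < dg m.A C → W C = G C + (cn L 2 C - C.ord j) := fun C u => by
      rw [w3 C u, ← m.ko C u]; rfl
    have le := R.negat m.nn m.pos (sub_mem wc w1) (fun Q u => (sub_eq_zero.2 (w3 Q u).symm).ge)
      (fun Q u => by
        have := (R.nn_smp s).nn Q
        rw [R.sub hΛ gc, d Q u] at this
        rw [R.sub wc w1, R.add _ gc _ kc, w2 Q u, kd Q u]
        linarith) P
    have := (loc R m w1 w2 fun C u x => by
      rw [v C u]
      rcases (g0 C).eq_or_lt with y | y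
      · have y : G C = 0 := y.symm
        linarith [h0 C (z C u x) y]
      · linarith [h1 C (z C u x) y]).2 C c1 c2 (by
        rw [v C c1]; linarith [h1 C (z C c1 c2) c3])
    change 0 ≤ G P + (m.k P - P.ord j) - W P at le
    linarith
  · push Not at c
    have : 0 ≤ m.k P - P.ord j := (loc R m kc kd fun C u x => by
      change 0 ≤ m.k C - C.ord j
      rw [m.ko C u]
      linarith [h0 C (z C u x) ((c C u x).antisymm (g0 C))]).1
    linarith

end S88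

/-- **the surface lemma** -/
theorem surf {L : Type} [Field L] [Algebra ℂ L] (hL : FF L 2) {Λ G : BD L} {j : L}
    (hΛ : Smp Λ) (hb : Big Λ) (l0 : 0 ≤ Λ) (lz : Λ ∈ CarZ L) (g0 : 0 ≤ G) (s : Smp (Λ - G))
    (pt : ∀ P, Λ P = 0 → 0 < G P → res P Λ = 0) (ex : ∃ P, Λ P = 0 ∧ 0 < G P)
    (h0 : ∀ P, Λ P = 0 → G P = 0 → (P.ord j : ℝ) ≤ cn L 2 P)
    (h1 : ∀ P, Λ P = 0 → 0 < G P → (P.ord j : ℝ) < cn L 2 P + G P) :
    ∃ f : L, f ≠ 0 ∧ (∀ R : Pl L, Λ R = 0 → 0 ≤ (R.ord f : ℝ) + cn L 2 R) ∧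
      ∃ P, Λ P = 0 ∧ 0 < G P ∧ (P.ord f : ℝ) + P.ord j < G P := by
  have R := Sf.rows hL
  have gc : G ∈ Car L := by simpa using sub_mem hΛ.car s.car
  obtain ⟨m, d, -, nf, -⟩ := R.minres (R.nn_smp hΛ) hb
  obtain ⟨R₀, r1, r2⟩ := ex
  have k0 : ∀ Q, 0 ≤ dsc 2 m.k Q := fun Q => sub_nonneg.2 (m.k_le Q)
  obtain ⟨a, a0, ha⟩ : ∃ a : ℝ, 0 < a ∧ a * G R₀ = dsc 2 m.k R₀ + 1 :=
    ⟨_ / G R₀, div_pos (by linarith [k0 R₀]) r2, div_mul_cancel₀ _ r2.ne'⟩
  have ac := Submodule.smul_mem _ a gc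
  obtain ⟨μ, D, P, p1, m0, -, d0, dc, ds, db, dr, p0, lc, pl⟩ := Ti.tie_big0 (n := 1)
    (S := {Q | Λ Q = 0}) (G := a • G) (R := R₀) hL hΛ.nef hb m.kcar ac (smul_nonneg a0.le g0)
    (fun Q u P c => (l0 P).eq_or_lt.elim Eq.symm fun w => ((c Λ (.refl l0) w).ne' u).elim)
    (fun Q _ => neg_one_lt_zero.trans_le (k0 Q)) r1 (by rw [Pr.dsc_add_smul]; linarith) one_pos
  have p0 : Λ P = 0 := p0
  have p1 : 0 < G P := (mul_pos_iff_of_pos_left a0).1 p1
  set Γ := m.k + μ • a • G + D with hΓ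
  have Γc : Γ ∈ Car L := add_mem (add_mem m.kcar (Submodule.smul_mem _ μ ac)) dc
  obtain ⟨N, hN⟩ := exists_nat_ge (1 + μ * a)
  have s' : Smp ((μ * a) • (Λ - G) + (N - (1 + μ * a)) • Λ) :=
    (s.smul (mul_pos m0 a0).le).add (hΛ.smul (sub_nonneg.2 hN))
  have e : m.k + (N : ℝ) • Λ - Γ =
      ((1 : ℝ) • Λ - D) + ((μ * a) • (Λ - G) + (N - (1 + μ * a)) • Λ) := by
    rw [hΓ]; module
  have nz := add_mem m.kZ (CarZ.nsmul lz N)
  have nc := CarZ.car nz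
  obtain ⟨k, hk⟩ := CarZ.int nz P
  have hκ := Bm.ff_κ hL P
  have r0 := pt P p0 p1
  obtain ⟨j1, j2, -⟩ := a1 1 L hL P Γ Γc
  have kl : ∀ Q, -1 < dsc 1 (adj 1 P Γ) Q := fun Q => by
    obtain ⟨T, ⟨t1, t2⟩, -, -, -, t3⟩ := a2 1 L hL P Q {Γ, Λ} Λ 0 (toFinite _)
      (by simp [insert_subset_iff, Γc, hΛ.car]) hΛ.car
    have u := t3 Γ (by simp)
    have v := t2 Λ (by simp)
    rw [r0, p0, zero_mul, add_zero] at v
    rw [lc, neg_add_cancel, zero_mul, add_zero] at u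
    exact u ▸ pl T v t1
  have xc : dsc 1 (adj 1 P Γ) ∈ Car P.κ := sub_mem (Cv.cn_car hκ) j1
  have cz : (fun Q => (⌈dsc 1 (adj 1 P Γ) Q⌉ : ℝ)) ∈ CarZ P.κ := by
    have := neg_mem (Cv.fl_carZ hκ (neg_mem xc))
    rwa [show -Cv.fl (-dsc 1 (adj 1 P Γ)) = fun Q => (⌈dsc 1 (adj 1 P Γ) Q⌉ : ℝ) from
      funext fun Q => by simp [Cv.fl, Int.floor_neg]] at this
  have ad := Cv.I1_add hκ (res_car hL P (m.k + (N : ℝ) • Λ)) (CarZ.car cz)
  obtain ⟨u, u0, hu⟩ := S88.crv hκ (add_mem (res_carZ hL P nz) cz) (by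
      have x := nf P (by rw [dg, r0, Cv.I1_zero])
      rw [ad, res_add_smul hL P m.kcar hΛ.car, r0, smul_zero, add_zero]
      exact add_nonneg x (Cv.I1_nonneg fun Q => Int.cast_nonneg
        (Int.add_one_le_iff.2 (Int.lt_ceil.2 (by simpa using kl Q) : (-1 : ℤ) < _))))
    (by
      have x1 := Cv.I1_mono hκ xc (CarZ.car cz) fun Q => Int.le_ceil _
      have x2 := Cv.I1_prn hκ j2
      have x4 := dr.add_smp (res_smp hL P s')
      rw [← res_add hL P ds.car s'.car, ← e] at x4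
      have x3 := (Cv.big_iff hκ (res_car hL P _)).1 x4
      rw [res_sub hL P nc Γc, Cv.I1_sub hκ (res_car hL P _) (res_car hL P _)] at x3
      rw [Cv.I1_sub hκ j1 (res_car hL P _)] at x2
      have x5 : I1 (dsc 1 (adj 1 P Γ)) = _ := Cv.I1_sub hκ (Cv.cn_car hκ) j1
      rw [Cv.I1_cn hκ] at x5
      rw [ad]
      linarith)
  obtain ⟨f, f1, f2⟩ := Ku.extu 1 L hL P Γ _ k u Γc lc nz hk (e ▸ (ds.add s').nef)
    (e ▸ db.add_smp s') hu
  have f0 : f ≠ 0 := fun z => u0 (by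
    rw [← f2, z, zero_mul]; exact (Bm.rd_zero_iff P (zero_mem _)).2 (Or.inl rfl))
  obtain ⟨f3, f4⟩ := f1.resolve_left f0
  have val : ∀ Q, Λ Q = 0 → (m.k + (N : ℝ) • Λ) Q = m.k Q := fun Q z => by simp [z]
  refine ⟨f, f0, fun Q z => ?_, P, p0, p1, ?_⟩
  · by_cases c : Q = P
    · subst c
      rw [val Q z] at f3
      linarith [m.k_le Q]
    · have x := f4 Q c
      obtain ⟨y, hy⟩ := R.cnz Q
      obtain ⟨w, hw⟩ := CarZ.int m.kZ Q
      have : ⌈dsc (1 + 1) Γ Q⌉ ≤ y - w := Int.ceil_le.2 (by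
        rw [hΓ, Pr.dsc_add, Pr.dsc_add_smul, dsc, Pi.sub_apply]
        push_cast
        have := mul_nonneg m0.le (smul_nonneg a0.le g0 Q)
        have := d0 Q
        change cn L 2 Q - m.k Q - _ - _ ≤ _
        rw [hy, hw]
        simp only [Pi.zero_apply] at *
        linarith)
      have := Int.cast_le (R := ℝ).2 this
      rw [val Q z, hw] at x
      push_cast at this
      linarith
  · have x := S88.pos R m hΛ.car l0 g0 s d h0 h1 p0 p1
    have y : P.ord (f * P.t ^ k) ≤ 0 := by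
      by_contra c
      have c := not_le.1 c
      refine u0 (f2 ▸ (Bm.rd_zero_iff P ?_).2 (Or.inr c))
      exact (P297Z.Pl.ord_nonneg_iff P.toPlace (mul_ne_zero f0 (zpow_ne_zero _ P.t_ne))).1 c.le
    rw [P.ord_mul_t f0] at y
    have := Int.cast_le (R := ℝ).2 y
    rw [val P p0] at hk
    push_cast at this
    linarith

end Vale.Agent.P283R.T3
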