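import Vale.Agent.P283R.T3.St
import Vale.Agent.P283R.T3.Sf88

/-!
# P283R, block T3: the row SF
-/

open Set

noncomputable section

namespace Vale.Agent.P283R.T3

open Vale.Agent.P287D Vale.Agent.P283M

theorem sf52 : SF := by
  classical
  intro K _ _ v y w hy w0 h
  obtain ⟨j, j0, e⟩ := Cb.kap_cn h.ff hy.ind
  obtain ⟨Q₀, o₀, z₀⟩ := h.ex
  have nz : Nz v := by_contra fun k => by simp [mx_of_not k] at z₀
  have l : ∀ P : Pl K, ld y 1 w P - 1 = cn K 2 P - P.ord (w / j) := fun P => by
    rw [ld, e, P297Z.Pl.ord_div _ w0 j0]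
    simp only [Pi.add_apply, dv]
    push_cast
    ring
  have g : ∀ P, inf v P = 0 → (inf v - mx v) P = -mx v P := fun P k => by
    rw [Pi.sub_apply, k, zero_sub]
  obtain ⟨f, f0, a, P, b, c, d⟩ := surf h.ff (Λ := inf v) (G := inf v - mx v) (j := w / j)
    (Kl.inf_smp v) h.big (Kl.inf_nn v) (mx_mem_CarZ _)
    (fun P => by
      obtain ⟨a, ha, a0, k⟩ := P.exists_mz nz
      have := Sk1.le_inf P ha a0
      simp only [Pi.zero_apply, Pi.sub_apply, mx_apply, k]
      push_cast
      linarith)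
    (by rw [sub_sub_cancel]; exact smp_mx v)
    (fun P a b => by
      have o := Kl.inf_zero.1 a
      rw [g P a] at b
      rw [Kl.res_inf h.ff o]
      refine funext fun Q => Kl.inf_zero.2 fun x hx => ?_
      obtain ⟨s, hs, rfl⟩ := Finset.mem_image.1 hx
      rw [(Bm.rd_zero_iff P (o s hs)).2 (or_iff_not_imp_left.2 fun s0 => by
        have k : (-(P.ord s : ℤ) : ℝ) ≤ mx v P := by
          rw [mx_apply]
          exact_mod_cast P.le_mz hs s0
        exact_mod_cast (show (0 : ℝ) < (P.ord s : ℤ) by linarith))]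
      exact zero_mem _)
    ⟨Q₀, Kl.inf_zero.2 o₀, by rw [g _ (Kl.inf_zero.2 o₀)]; linarith⟩
    (fun P a b => by
      have := h.h0 P (Kl.inf_zero.1 a) (by rw [g P a] at b; linarith)
      simp only [l] at this
      linarith)
    (fun P a b => by
      rw [g P a] at b ⊢
      have := h.h1 P (Kl.inf_zero.1 a) (by linarith)
      simp only [l] at this
      linarith)
  have wj := div_ne_zero w0 j0
  rw [g P b] at c d
  refine ⟨f * (w / j), mul_ne_zero f0 wj, fun Q o => ?_, P, Kl.inf_zero.1 b, by linarith, ?_⟩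
  · have := a Q (Kl.inf_zero.2 o)
    have k := l Q
    rw [P297Z.Pl.ord_mul _ f0 wj]
    push_cast
    linarith
  · rw [P297Z.Pl.ord_mul _ f0 wj]
    push_cast
    linarith

/-- the rows give the theorem -/
theorem mild_of (h1 : BRT) (h2 : ADJ) (h3 : UNI) (h4 : NRM) (h5 : M2) (h6 : SHR) (h7 : TH3)
    (h8 : IND) : MILD := fun n => by
  induction n with
  | zero => simpa using h6 1 4 0 le_rfl (h7 h1 h2 sf52 h3 h4 h5)
  | succ n ih =>
    have := h6 (n + 2) (n + 4 + 1) (n + 1) (by positivity)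
      (h8 h1 h2 h3 h4 (n + 2) (n + 4) n (Nat.cast_nonneg n) ih)
    simpa using this

end Vale.Agent.P283R.T3
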