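import Vale.Agent.P283R.T3.Br84
import Vale.Agent.P283R.Mi.Loc
import Vale.Agent.P283R.Be2.SkT
import Vale.Agent.P283R.Tp.Oner
import Vale.Agent.P283R.Tp.Eig
import Vale.Agent.P283R.Tp.Ram

/-!
# P283R, block T3: shrinking, the choice of coordinates
-/

open Set MvPolynomial

noncomputable section

namespace Vale.Agent.P283R.T3

open Vale.Agent.P287D Vale.Agent.P283M Vale.Agent.P297Z

namespace S79

variable {F : Type} [Field F] [Algebra ℂ F] {N : ℕ} {S : Subalgebra ℂ F} {y : Fin N → F} {h : F}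
  {v : Finset F}

/-- the divisor of a form is finite -/
theorem fin_kap (A : Aff N S) (f : Frm y) : {R | PD S R ∧ kap y R ≠ 0}.Finite := by
  obtain ⟨D, hD⟩ := f
  obtain ⟨u, hu⟩ := A.fg
  have fin : (range y ∪ ⋃ j, D j '' (u : Set F)).Finite :=
    (finite_range y).union (finite_iUnion fun j => u.finite_toSet.image _)
  refine (fin.biUnion fun a _ => Hr.fin_ord A a).subset fun R ⟨⟨q, c, l⟩, k⟩ => ?_
  by_contra e
  have m : ∀ a ∈ range y ∪ ⋃ j, D j '' (u : Set F), a ∈ R.ring := fun a ha => by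
    by_cases a0 : a = 0
    · exact a0 ▸ zero_mem _
    · exact (Pl.ord_nonneg_iff _ a0).1 (by_contra fun z =>
        e (mem_biUnion ha ⟨⟨q, c, l⟩, fun w => z w.ge⟩))
  have r : ∀ a ∈ S, a ∈ R.ring := fun a ha => (c ⟨a, ha⟩).1
  have d : ∀ j, ∀ a ∈ Algebra.adjoin ℂ (u : Set F), D j a ∈ R.ring := fun j a ha => by
    induction ha using Algebra.adjoin_induction with
    | mem x hx => exact m _ (.inr (mem_iUnion.2 ⟨j, x, hx, rfl⟩))
    | algebraMap c => rw [Derivation.map_algebraMap]; exact zero_mem _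
    | add a b _ _ ha hb => rw [map_add]; exact add_mem ha hb
    | mul a b ka kb ha hb =>
      rw [Derivation.leibniz, smul_eq_mul, smul_eq_mul]
      exact add_mem (mul_mem (r a (hu ▸ ka)) hb) (mul_mem (r b (hu ▸ kb)) ha)
  rw [hu] at d
  have a : P287D.Ad R y D := ⟨hD, fun j => m _ (.inl ⟨j, rfl⟩), fun j g hg => by
    obtain ⟨s, t, ht, rfl⟩ := l g hg
    have t0 := Hr.ne_of_notMem ht
    have i : (t : F)⁻¹ ∈ R.ring := (Pl.ord_nonneg_iff _ (inv_ne_zero t0)).1 (by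
      rw [Pl.ord_inv, Hr.cen_ord c ht, neg_zero])
    rw [Derivation.leibniz_div, smul_eq_mul, smul_eq_mul, smul_eq_mul]
    exact mul_mem (pow_mem i 2) (sub_mem (mul_mem (r t t.2) (d j s s.2))
      (mul_mem (r s s.2) (d j t t.2)))⟩
  exact k (by rw [Cb.kap_eq a, Cb.jac_self hD, Pl.ord_one, Int.cast_zero])

/-- a function which cuts out the bad locus -/
theorem cut {p : Ideal S} (A : Aff N S) (hp : p.IsPrime) (f : Frm y) (h0 : h ≠ 0)
    (pd : ∀ R, PDat S p R → ld y 1 h R = 1) (kl : ∀ R, Thp S {p} R → 0 < ld y 1 h R) :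
    ∃ g : S, g ∉ p ∧ ∀ R : Pl F, (∀ s ∈ S, s ∈ R.ring) → R.ord g = 0 →
      0 < ld y 1 h R ∧ (PD S R → ld y 1 h R = 1) := by
  classical
  obtain ⟨u, hu⟩ := A.fg
  obtain ⟨g, gp, c, -, hc⟩ := Sk1.twi N F S p y 1 h u A.ff hp f.ind h0 hu kl
  have fin : {R | PD S R ∧ ld y 1 h R ≠ 1}.Finite :=
    ((fin_kap A f).union (Hr.fin_ord A h)).subset fun R ⟨a, b⟩ => by
      by_contra e
      simp only [mem_union, mem_ofPred_eq, not_or, not_and, not_not] at e
      exact b (by simp [ld, e.1 a, e.2 a])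
  have ex : ∀ R ∈ fin.toFinset, ∃ s : S, s ∉ p ∧ 0 < R.ord (s : F) := fun R hR => by
    obtain ⟨⟨q, c, l⟩, b⟩ := fin.mem_toFinset.1 hR
    obtain ⟨s, s1, s2⟩ := SetLike.not_le_iff_exists.1 fun le : q ≤ p => b (pd R ⟨q, le, c, l⟩)
    exact ⟨s, s2, ((Hr.cen_iff c s).1 s1).resolve_left (Hr.ne_of_notMem s2)⟩
  choose! s s1 s2 using ex
  have np : ∏ R ∈ fin.toFinset, s R ∉ p := fun w => by
    obtain ⟨R, a, b⟩ := (Ideal.IsPrime.prod_mem_iff (hp := hp)).1 w
    exact s1 R a b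
  refine ⟨g * ∏ R ∈ fin.toFinset, s R, fun w => (hp.mem_or_mem w).elim gp np, fun R r o => ?_⟩
  have nn : ∀ a : S, 0 ≤ R.ord (a : F) := fun a => Pl.ord_nonneg_of_mem _ (r a a.2)
  rw [MulMemClass.coe_mul, Pl.ord_mul _ (Hr.ne_of_notMem gp) (Hr.ne_of_notMem np)] at o
  have a1 := nn g
  have a2 := nn (∏ R ∈ fin.toFinset, s R)
  refine ⟨?_, fun k => by_contra fun e => ?_⟩
  · have i0 : inf u R = 0 := Kl.inf_zero.2 fun a ha => r a (hu ▸ Algebra.subset_adjoin ha)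
    simpa [i0, show R.ord (g : F) = 0 by omega] using hc R
  · have m := fin.mem_toFinset.2 (show R ∈ {R | PD S R ∧ ld y 1 h R ≠ 1} from ⟨k, e⟩)
    have b := s2 R m
    rw [← Finset.mul_prod_erase _ _ m] at np o
    rw [MulMemClass.coe_mul, Pl.ord_mul _ (Hr.ne_of_notMem fun w => np (p.mul_mem_right _ w))
      (Hr.ne_of_notMem fun w => np (p.mul_mem_left _ w))] at o
    have := nn (∏ R ∈ fin.toFinset.erase R, s R)
    omega

/-- coordinates centred at a closed point -/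
theorem coo (A : Aff N S) (p : Ideal S) [p.IsMaximal] :
    ∃ v : Finset F, Ad v = S ∧ ∀ a : S, (a : F) ∈ v → a ∈ p := by
  classical
  obtain ⟨u, hu⟩ := A.fg
  choose c hc using Eg.res_max A p
  have m : ∀ a ∈ u, a ∈ S := fun a ha => hu ▸ Algebra.subset_adjoin ha
  let g : u → S := fun a => ⟨a, m a a.2⟩ - algebraMap ℂ S (c ⟨a, m a a.2⟩)
  refine ⟨Finset.univ.image fun a => (g a : F), le_antisymm (Algebra.adjoin_le fun a ha => ?_) ?_,
    fun a ha => ?_⟩
  · obtain ⟨b, -, rfl⟩ := Finset.mem_image.1 (Finset.mem_coe.1 ha)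
    exact (g b).2
  · refine hu.ge.trans (Algebra.adjoin_le fun a ha => ?_)
    have e : a = (g ⟨a, ha⟩ : F) + algebraMap ℂ F (c ⟨a, m a ha⟩) := by simp [g]
    rw [e]
    exact add_mem (Algebra.subset_adjoin (Finset.mem_coe.2
      (Finset.mem_image_of_mem _ (Finset.mem_univ _)))) (Subalgebra.algebraMap_mem _ _)
  · obtain ⟨b, -, e⟩ := Finset.mem_image.1 ha
    exact (Subtype.ext e : g b = a) ▸ hc _

/-- evaluation at the coordinates -/
def ev (v : Finset F) : MvPolynomial v ℂ →ₐ[ℂ] Ad v :=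
  aeval fun a => ⟨a, Algebra.subset_adjoin a.2⟩

theorem ev_coe (q : MvPolynomial v ℂ) : (ev v q : F) = aeval (fun a : v => (a : F)) q :=
  DFunLike.congr_fun (MvPolynomial.algHom_ext fun a => by simp [ev] :
    (Ad v).val.comp (ev v) = aeval fun a : v => (a : F)) q

theorem ev_mem {J : Ideal (Ad v)} (hJ : ∀ a : Ad v, (a : F) ∈ v → a ∈ J) (q : MvPolynomial v ℂ) :
    ev v q - algebraMap ℂ (Ad v) (constantCoeff q) ∈ J := by
  induction q using MvPolynomial.induction_on with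
  | C c => simp [ev]
  | add a b ha hb =>
    rw [map_add, map_add, map_add, add_sub_add_comm]
    exact add_mem ha hb
  | mul_X a i _ =>
    rw [map_mul, map_mul, constantCoeff_X, mul_zero, map_zero, sub_zero]
    exact J.mul_mem_left _ (hJ _ (by simp [ev]))

variable {p : Ideal (Ad v)}

theorem ev_zero (o : Og v p) {q : MvPolynomial v ℂ} (hq : ev v q ∈ p) : constantCoeff q = 0 :=
  by_contra fun e => o.1.ne_top (p.eq_top_of_isUnit_mem
    (by simpa using sub_mem hq (ev_mem o.2 q)) ((IsUnit.mk0 _ e).map (algebraMap ℂ (Ad v))))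

theorem le_of (o : Og v p) {J : Ideal (Ad v)} (hJ : ∀ a : Ad v, (a : F) ∈ v → a ∈ J) : p ≤ J :=
  fun a ha => by
    obtain ⟨q, hq⟩ := (Algebra.adjoin_eq_range ℂ (v : Set F)).le a.2
    obtain rfl : ev v q = a := Subtype.ext ((ev_coe q).trans hq)
    simpa [ev_zero o ha] using ev_mem hJ q

/-- the theorem on a shrunken variety -/
theorem core {n E : ℕ} {b : ℝ} (hb : 0 ≤ b) (T : TH n E b) {y : Fin (n + 2) → F} {p : Ideal S}
    (A : Aff (n + 2) S) (nr : IsIntegrallyClosed S) (hp : p.IsMaximal) (f : Frm y) (h0 : h ≠ 0)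
    (pd : ∀ R, PD S R → ld y 1 h R = 1)
    (kl : ∀ R : Pl F, (∀ s ∈ S, s ∈ R.ring) → 0 < ld y 1 h R)
    (te : ∀ R, Cen S p R → ∃ x ∈ p, x ≠ 0 ∧ 1 + b * R.ord (x : F) < ld y 1 h R) :
    Bx.Emd E S p := by
  obtain ⟨v, rfl, hv⟩ := coo A p
  have o : Og v p := ⟨hp, hv⟩
  by_cases nz : Nz v
  swap
  · refine ⟨0, fun _ => zero_mem _, fun a ha => ⟨0, fun _ => ⟨0, 1,
      (Ideal.ne_top_iff_one p).1 hp.ne_top, by simp⟩, ?_⟩⟩
    have : a ∈ (⊥ : Ideal (Ad v)) := le_of o (fun a k => Subtype.ext (by_contra fun e =>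
      nz ⟨a, k, e⟩)) ha
    simp [show a = 0 from this]
  refine T F v y h p ⟨A, nr, f, h0, pd, fun R r => kl R fun s hs => Br.adj_le r hs,
    fun R r z => ?_, ?_⟩ o
  · have r' : ∀ s ∈ Ad v, s ∈ R.ring := fun s hs => Br.adj_le r hs
    obtain ⟨q, hq, c⟩ := Oner.exists_cen _ R r'
    obtain rfl : p = q := hp.eq_of_le hq.ne_top
      (le_of o fun a k => (Hr.cen_iff c a).2 (B84.pos_of z k))
    obtain ⟨x, x1, x0, e⟩ := te R c
    have m : x ∈ (Oner.subS _ R r' (mx v R)).comap (Algebra.linearMap (Ad v) F) :=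
      le_of o (fun a k => or_iff_not_imp_left.2 fun a0 => by
        have := Int.cast_le (R := ℝ).2 (R.le_mz k a0)
        push_cast at this
        change 0 ≤ (R.ord (a : F) : ℝ) + (R.mz _ : ℝ)
        linarith) x1
    have k : 0 ≤ (R.ord (x : F) : ℝ) + mx v R :=
      Or.resolve_left m fun w => x0 (Subtype.ext w)
    nlinarith [mul_nonneg hb k]
  · obtain ⟨a, a1, a0⟩ := id nz
    obtain ⟨Q, hQ⟩ := Dg.Spc.org A.ff (fun a : v => (a : F)) ⟨⟨a, a1⟩, a0⟩ fun q hq e =>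
      hq (ev_zero o (by
        rw [show ev v q = 0 from Subtype.ext ((ev_coe q).trans e)]
        exact zero_mem _))
    exact ⟨Q, B84.neg_of nz fun a k => hQ ⟨a, k⟩⟩

end S79

/-- **SHR** -/
theorem shr : SHR := by
  intro n E b hb T F _ _ S p y h A nr hp f h0 pd kl te
  obtain ⟨g, gp, hg⟩ := S79.cut A hp.isPrime f h0 pd fun R ⟨r, q, e, k⟩ => by
    obtain ⟨q', -, c⟩ := Oner.exists_cen S R r
    exact kl q' (fun a ha => e ▸ k a ((c a).2.1 ha)) R c
  have g0 := Hr.ne_of_notMem gp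
  have L := Uc.lz_ex (Mi.le_Aw S (g : F)) hp.isPrime (Mi.lo_Aw g0 hp.isPrime gp)
  set p₁ := Uc.ex hp.isPrime (Mi.lo_Aw g0 hp.isPrime gp)
  have key : ∀ R : Pl F, (∀ s ∈ Mi.Aw S (g : F), s ∈ R.ring) →
      0 < ld y 1 h R ∧ (PD S R → ld y 1 h R = 1) := fun R r => by
    refine hg R (fun s hs => r s (Mi.le_Aw S _ hs)) ?_
    have a := P297Z.Pl.ord_nonneg_of_mem _ (r _ (Mi.le_Aw S (g : F) g.2))
    have c := P297Z.Pl.ord_nonneg_of_mem _ (r _ (Mi.inv_Aw S (g : F)))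
    rw [P297Z.Pl.ord_inv] at c
    omega
  obtain ⟨z, z1, z2⟩ := S79.core hb T (Mi.aff_Aw A (g : F)) (Mi.nor_Aw A g0 nr)
    (Mi.Ov.max g0 L.pri (fun a => L.com a _ rfl) hp) f h0
    (fun R ⟨q, c, l⟩ => by
      have k := Mi.Ov.lz (p := q.comap (Subalgebra.inclusion (Mi.le_Aw S (g : F)))) g0
        (Hr.cen_prime c) fun _ => Iff.rfl
      exact (key R fun s hs => (c ⟨s, hs⟩).1).2 ⟨_, (k.cen R).1 c, k.lo_eq ▸ l⟩)
    (fun R r => (key R r).1) fun R c => by
      obtain ⟨x, x1, x0, e⟩ := te R ((L.cen R).1 c)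
      exact ⟨⟨x, L.le x.2⟩, (L.com x _ rfl).1 x1, fun w => x0 (Subtype.ext
        (congrArg Subtype.val w :)), e⟩
  choose s t ht e using fun j => L.lo (z j) (z j).2
  refine ⟨s, fun j => (L.frac (ht j) (e j)).1 (z1 j), fun a ha => ?_⟩
  obtain ⟨c, c1, c2⟩ := z2 ⟨a, L.le a.2⟩ ((L.com a _ rfl).1 ha)
  refine ⟨fun j => c j / t j, fun j => ?_, c2.trans (Finset.sum_congr rfl fun j _ => ?_)⟩
  · obtain ⟨s', t', ht', e'⟩ := L.lo_eq ▸ c1 j
    exact ⟨s', t' * t j, fun w => (hp.isPrime.mem_or_mem w).elim ht' (ht j), by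
      simp only [e', div_div, MulMemClass.coe_mul]⟩
  · rw [e j]
    ring

end Vale.Agent.P283R.T3
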