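import Vale.Agent.P283R.T3.Ms97

/-!
# P283R, block T3: the splitting in the trace dual of the normal surface
-/

open Set MvPolynomial

noncomputable section

namespace Vale.Agent.P283R.T3.M97

open Vale.Agent.P287D

namespace S18

theorem sub_mem (f : MvPolynomial (Fin 2) ℂ) :
    f - C (constantCoeff f) ∈ Ideal.span {(X 0 : MvPolynomial (Fin 2) ℂ), X 1} := by
  induction f using MvPolynomial.induction_on with
  | C a => simp
  | add p q hp hq =>
    have := add_mem hp hq
    rwa [← add_sub_add_comm, ← map_add, ← map_add] at this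
  | mul_X p j _ =>
    simp only [map_mul, constantCoeff_X, mul_zero, map_zero, sub_zero]
    exact Ideal.mul_mem_left _ _ (Ideal.subset_span (by fin_cases j <;> simp))

theorem ker_eq : RingHom.ker (constantCoeff : MvPolynomial (Fin 2) ℂ →+* ℂ) =
    Ideal.span {X 0, X 1} :=
  le_antisymm (fun f hf => by simpa [RingHom.mem_ker.1 hf] using sub_mem f)
    (Ideal.span_le.2 (by rintro _ (rfl | rfl) <;> simp [RingHom.mem_ker]))

/-- two coprime multiples are integral -/
theorem int_of {A k F : Type} [CommRing A] [IsDomain A] [IsIntegrallyClosed A] [Field k]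
    [Algebra A k] [IsFractionRing A k] [Field F] [Algebra k F] [Algebra A F] [IsScalarTower A k F]
    [FiniteDimensional k F] {a b : A} (pa : Prime a) (nd : ¬ a ∣ b) {x : F}
    (ha : IsIntegral A (a • x)) (hb : IsIntegral A (b • x)) : IsIntegral A x := by
  have inj := IsFractionRing.injective A k
  have ix : IsIntegral k x := .of_finite k x
  have key : ∀ c : A, c ≠ 0 → IsIntegral A (c • x) → ∀ i, ∃ r, algebraMap A k r =
      (minpoly k x).coeff i * algebraMap A k c ^ ((minpoly k x).natDegree - i) := by
    intro c c0 hc i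
    have e := IsIntegrallyClosed.minpoly_smul ((map_ne_zero_iff _ inj).2 c0) ix
    rw [algebraMap_smul, minpoly.isIntegrallyClosed_eq_field_fractions' k hc] at e
    exact ⟨_, by rw [← Polynomial.coeff_scaleRoots, ← e, Polynomial.coeff_map]⟩
  obtain ⟨q, e, -, m⟩ := Polynomial.lifts_and_natDegree_eq_and_monic (f := algebraMap A k)
    ((Polynomial.lifts_iff_coeff_lifts _).2 fun i => by
      obtain ⟨r, hr⟩ := key a pa.ne_zero ha i
      obtain ⟨s, hs⟩ := key b (fun e => nd (e ▸ dvd_zero a)) hb i
      generalize (minpoly k x).natDegree - i = j at hr hs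
      obtain ⟨c, rfl⟩ : a ^ j ∣ r := pa.pow_dvd_of_dvd_mul_left j
        (fun d => nd (pa.dvd_of_dvd_pow (n := j) d)) ⟨s, inj (by
          rw [map_mul, map_mul, map_pow, map_pow, hr, hs]; ring)⟩
      rw [map_mul, map_pow, mul_comm] at hr
      exact ⟨c, mul_right_cancel₀ (pow_ne_zero j ((map_ne_zero_iff _ inj).2 pa.ne_zero)) hr⟩)
    (minpoly.monic ix)
  exact ⟨q, m, by rw [← Polynomial.aeval_def, ← Polynomial.aeval_map_algebraMap k, e,
    minpoly.aeval]⟩

end S18

open S18

/-- **SPL** -/
theorem spl : SPL := by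
  intro k F _ _ _ _ _ _ t S p h ξ hξ
  classical
  have : CharZero k := charZero_of_injective_algebraMap (algebraMap ℂ k).injective
  have : FiniteDimensional k F := Pb.fin_of_ff h.rat.ff h.aff.ff
  let A := MvPolynomial (Fin 2) ℂ
  let : Algebra A k := (aeval t : A →ₐ[ℂ] k).toRingHom.toAlgebra
  let : Algebra A F := (aeval (up F t) : A →ₐ[ℂ] F).toRingHom.toAlgebra
  have e' : ∀ a : A, aeval (up F t) a = algebraMap k F (aeval t a) := fun a => by
    rw [← IsScalarTower.toAlgHom_apply ℂ k F, comp_aeval_apply]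
    rfl
  have : IsScalarTower A k F := IsScalarTower.of_algebraMap_eq e'
  have : FaithfulSMul A k := (faithfulSMul_iff_algebraMap_injective _ _).2 h.rat.1
  have : IsFractionRing A k := IsFractionRing.of_field A k h.rat.2
  have m : ∀ a : A, aeval (up F t) a ∈ Algebra.adjoin ℂ (range (up F t)) := fun a => by
    rw [Algebra.adjoin_range_eq_range_aeval]; exact ⟨a, rfl⟩
  have hI : ∀ a : F, a ∈ S ↔ IsIntegral A a := fun a => by
    refine ⟨fun ha => ?_, fun ha => ?_⟩
    · let : Algebra A (Algebra.adjoin ℂ (range (up F t))) :=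
        ((aeval (up F t) : A →ₐ[ℂ] F).codRestrict _ m).toRingHom.toAlgebra
      have : IsScalarTower A (Algebra.adjoin ℂ (range (up F t))) F :=
        IsScalarTower.of_algebraMap_eq fun _ => rfl
      have : Algebra.IsIntegral A (Algebra.adjoin ℂ (range (up F t))) :=
        Algebra.isIntegral_of_surjective fun b => by
          have : (b : F) ∈ (aeval (up F t) : A →ₐ[ℂ] F).range :=
            Algebra.adjoin_range_eq_range_aeval ℂ (up F t) ▸ b.2
          exact this.imp fun a e => Subtype.ext e
      exact isIntegral_trans a (h.int a ha)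
    · have le : Algebra.adjoin ℂ (range (up F t)) ≤ S := Algebra.adjoin_le (by
        rintro _ ⟨l, rfl⟩
        obtain ⟨b, -, e⟩ := h.tp l
        exact e ▸ b.2)
      have := h.aff.isFrac
      have := h.nor
      obtain ⟨b, rfl⟩ := IsIntegrallyClosed.algebraMap_eq_of_integral (R := S)
        (ha.map_of_comp_eq ((aeval (up F t) : A →ₐ[ℂ] F).codRestrict S
          fun a => le (m a)).toRingHom (RingHom.id F) rfl)
      exact b.2
  let n : Ideal A := RingHom.ker constantCoeff
  have nm : n.IsMaximal := RingHom.ker_isMaximal_of_surjective _ fun c => ⟨C c, constantCoeff_C _ c⟩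
  let R := Localization.subalgebra.ofField k n.primeCompl n.primeCompl_le_nonZeroDivisors
  have : IsLocalRing R := IsLocalization.AtPrime.isLocalRing R n
  have : IsNoetherianRing R := IsLocalization.isNoetherianRing n.primeCompl R inferInstance
  have hm : IsLocalRing.maximalIdeal R = Ideal.span {algebraMap A R (X 0), algebraMap A R (X 1)} := by
    rw [← IsLocalization.AtPrime.map_eq_maximalIdeal n R, show n = _ from ker_eq, Ideal.map_span,
      image_pair]
  have lr : ∀ r : R, Lr t (algebraMap R k r) := fun ⟨_, a, s, hs, e⟩ =>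
    ⟨a, s, hs, e.trans (div_eq_mul_inv _ _).symm⟩
  have iv : ∀ s : A, s ∉ n → ∃ r : R, ∀ x : F, r • s • x = x := fun s hs =>
    (IsLocalization.map_units R (⟨s, hs⟩ : n.primeCompl)).exists_left_inv.imp fun r e x => by
      rw [← algebraMap_smul R s, smul_smul, e, one_smul]
  let M := Submodule.span R (S : Set F)
  have mem : ∀ x, x ∈ M ↔ ∃ s ∉ n, IsIntegral A (s • x) := fun x => by
    refine ⟨fun hx => ?_, fun ⟨s, hs, hx⟩ => ?_⟩
    · induction hx using Submodule.span_induction with
      | mem x hx => exact ⟨1, n.ne_top_iff_one.1 nm.ne_top, by simpa using (hI x).1 hx⟩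
      | zero => exact ⟨1, n.ne_top_iff_one.1 nm.ne_top, by simpa using isIntegral_zero⟩
      | add x y _ _ hx hy =>
        obtain ⟨s, a, b⟩ := hx
        obtain ⟨u, c, d⟩ := hy
        refine ⟨s * u, n.primeCompl.mul_mem a c, ?_⟩
        rw [smul_add, mul_smul s u y, mul_comm, mul_smul]
        exact (b.smul u).add (d.smul s)
      | smul r x _ hx =>
        obtain ⟨s, a, b⟩ := hx
        obtain ⟨⟨c, u⟩, e⟩ := IsLocalization.surj n.primeCompl r
        refine ⟨s * u, n.primeCompl.mul_mem a u.2, ?_⟩
        rw [mul_smul, ← algebraMap_smul R u.1, smul_smul _ r, mul_comm, e, algebraMap_smul,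
          smul_comm]
        exact b.smul c
    · obtain ⟨r, e⟩ := iv s hs
      exact e x ▸ M.smul_mem r (Submodule.subset_span ((hI _).2 hx))
  have fg : M.FG := by
    have := IsIntegralClosure.finite A k F (integralClosure A F)
    obtain ⟨G, hG⟩ : (Subalgebra.toSubmodule (integralClosure A F)).FG :=
      Module.Finite.iff_fg.1 this
    refine ⟨G, ?_⟩
    rw [← Submodule.span_span_of_tower A R, hG]
    exact congrArg _ (Set.ext fun a => (hI a).symm)
  have x0 : algebraMap A k (X 0) ≠ 0 := (map_ne_zero_iff _ (IsFractionRing.injective A k)).2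
    (X_ne_zero 0)
  obtain ⟨ξ₁, ξ₂, e, h1, h2⟩ := split (K := k) hm (fun e => x0 (congrArg Subtype.val e)) M fg
    (eq_top_iff.2 fun x _ => by
      have : Algebra.IsAlgebraic A F :=
        (IsFractionRing.comap_isAlgebraic_iff (K := k)).2 inferInstance
      obtain ⟨c, c0, hc⟩ := (Algebra.IsAlgebraic.isAlgebraic (R := A) x).exists_integral_multiple
      have := Submodule.smul_mem (Submodule.span k (M : Set F)) (algebraMap A k c)⁻¹
        (Submodule.subset_span (Submodule.subset_span ((hI _).2 hc)))
      rwa [← algebraMap_smul k c, inv_smul_smul₀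
        ((map_ne_zero_iff _ (IsFractionRing.injective A k)).2 c0)] at this)
    (fun x hx ⟨y, hy, e⟩ => by
      obtain ⟨s, a, b⟩ := (mem x).1 hx
      obtain ⟨u, c, d⟩ := (mem y).1 hy
      rw [algebraMap_smul, algebraMap_smul] at e
      have k0 : (X 0 : A) • (algebraMap A k (X 0))⁻¹ • x = x := by
        rw [← algebraMap_smul k (X 0 : A), smul_inv_smul₀ x0]
      refine ⟨(algebraMap A k (X 0))⁻¹ • x, (mem _).2 ⟨s * u, n.primeCompl.mul_mem a c,
        int_of (k := k) (a := X 0) (b := X 1) X_prime (by simp [X_dvd_X]) ?_ ?_⟩, ?_⟩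
      · rw [smul_comm, k0, mul_comm, mul_smul]
        exact b.smul u
      · rw [smul_comm, smul_comm (X 1 : A), e, ← algebraMap_smul k (X 0 : A) y,
          inv_smul_smul₀ x0, mul_smul]
        exact d.smul s
      · rw [algebraMap_smul, k0]) (ξ := ξ) fun x hx => by
      induction hx using Submodule.span_induction with
      | mem x hx =>
        obtain ⟨a, s, hs, ha, e⟩ := hξ x hx
        refine ⟨IsLocalization.mk' R a (⟨s, hs⟩ : n.primeCompl),
          (IsLocalization.AtPrime.mk'_mem_maximal_iff R n a _).2 ha, e.trans ?_⟩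
        have := congrArg (algebraMap R k) (IsLocalization.mk'_spec R a (⟨s, hs⟩ : n.primeCompl))
        rw [map_mul] at this
        exact div_eq_of_eq_mul ((map_ne_zero_iff _ (IsFractionRing.injective A k)).2
          fun e => hs (by rw [e, map_zero])) this.symm
      | zero => exact ⟨0, zero_mem _, by simp⟩
      | add x y _ _ hx hy =>
        obtain ⟨a, b, c⟩ := hx
        obtain ⟨d, e, f⟩ := hy
        exact ⟨a + d, add_mem b e, by rw [mul_add, map_add, map_add, c, f]⟩
      | smul r x _ hx =>
        obtain ⟨a, b, c⟩ := hx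
        exact ⟨r * a, Ideal.mul_mem_left _ _ b, by
          rw [mul_smul_comm, LinearMap.map_smul_of_tower, c, map_mul, Algebra.smul_def]⟩
  refine ⟨![ξ₁, ξ₂], ?_, Fin.forall_fin_two.2 ⟨fun a ha => ?_, fun a ha => ?_⟩⟩
  · rw [e, Fin.sum_univ_two, algebraMap_smul, algebraMap_smul, Algebra.smul_def, Algebra.smul_def]
    exact congrArg₂ (· + ·) (congrArg (· * _) (aeval_X _ 0)) (congrArg (· * _) (aeval_X _ 1))
  · obtain ⟨r, e⟩ := h1 a (Submodule.subset_span ha)
    exact e ▸ lr r
  · obtain ⟨r, e⟩ := h2 a (Submodule.subset_span ha)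
    exact e ▸ lr r

end Vale.Agent.P283R.T3.M97
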