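import Mathlib

/-!
# P283R, block T3: splitting in the trace dual of a module with a regular sequence
-/

open IsLocalRing TensorProduct

namespace Vale.Agent.P283R.T3

/-- a finite module with a regular sequence which generates the maximal ideal is free -/
theorem free_of_seq {R F : Type} [CommRing R] [IsLocalRing R] [IsNoetherianRing R]
    [AddCommGroup F] [Module R F] {x₁ x₂ : R} (hm : maximalIdeal R = Ideal.span {x₁, x₂})
    (tf : ∀ a : F, x₁ • a = 0 → a = 0) (M : Submodule R F) (fg : M.FG)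
    (rs : ∀ m ∈ M, (∃ m' ∈ M, x₂ • m = x₁ • m') → ∃ m' ∈ M, m = x₁ • m') : Module.Free R M := by
  have : Module.Finite R M := Module.Finite.iff_fg.2 fg
  have : Module.FinitePresentation R M := Module.finitePresentation_of_finite R M
  have h₁ : x₁ ∈ maximalIdeal R := hm ▸ Ideal.subset_span (by simp)
  have h₂ : x₂ ∈ maximalIdeal R := hm ▸ Ideal.subset_span (by simp)
  refine Module.free_of_maximalIdeal_rTensor_injective ((injective_iff_map_eq_zero _).2 ?_)
  have rep : ∀ z : maximalIdeal R ⊗[R] M, ∃ a b : M,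
      z = (⟨x₁, h₁⟩ : maximalIdeal R) ⊗ₜ a + (⟨x₂, h₂⟩ : maximalIdeal R) ⊗ₜ b := by
    intro z
    induction z with
    | zero => exact ⟨0, 0, by simp⟩
    | tmul r m =>
      obtain ⟨c, d, e⟩ := Ideal.mem_span_pair.1 (hm ▸ r.2 : r.1 ∈ Ideal.span {x₁, x₂})
      refine ⟨c • m, d • m, ?_⟩
      rw [← smul_tmul, ← smul_tmul, ← add_tmul]
      exact congrArg (· ⊗ₜ m) (Subtype.ext e.symm)
    | add y z hy hz =>
      obtain ⟨a, b, rfl⟩ := hy
      obtain ⟨c, d, rfl⟩ := hz
      exact ⟨a + c, b + d, by rw [tmul_add, tmul_add]; abel⟩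
  intro z hz
  obtain ⟨a, b, rfl⟩ := rep z
  have e : x₁ • a + x₂ • b = 0 := by
    have := congrArg (TensorProduct.lid R M) hz
    simpa using this
  have e' : x₁ • (a : F) + x₂ • (b : F) = 0 := by simpa using congrArg Subtype.val e
  obtain ⟨c, hc, eb⟩ := rs b b.2 ⟨-a, neg_mem a.2, by
    rw [smul_neg]; exact eq_neg_of_add_eq_zero_right e'⟩
  have ea : (a : F) = -(x₂ • c) := eq_neg_of_add_eq_zero_left (tf _ (by
    rw [smul_add, smul_comm x₁ x₂, ← eb, e']))
  obtain rfl : a = -(x₂ • ⟨c, hc⟩) := Subtype.ext ea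
  obtain rfl : b = x₁ • ⟨c, hc⟩ := Subtype.ext eb
  rw [tmul_neg, ← smul_tmul, ← smul_tmul, neg_add_eq_zero]
  exact congrArg (· ⊗ₜ _) (Subtype.ext (mul_comm x₂ x₁))

/-- **SPLIT** -/
theorem split {R K F : Type} [CommRing R] [IsDomain R] [IsLocalRing R] [IsNoetherianRing R]
    [Field K] [Algebra R K] [IsFractionRing R K] [Field F] [Algebra K F] [Algebra R F]
    [IsScalarTower R K F] [FiniteDimensional K F] [Algebra.IsSeparable K F] {x₁ x₂ : R}
    (hm : maximalIdeal R = Ideal.span {x₁, x₂}) (x0 : x₁ ≠ 0) (M : Submodule R F) (fg : M.FG)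
    (sp : Submodule.span K (M : Set F) = ⊤)
    (rs : ∀ m ∈ M, (∃ m' ∈ M, x₂ • m = x₁ • m') → ∃ m' ∈ M, m = x₁ • m') {ξ : F}
    (hξ : ∀ m ∈ M, ∃ r ∈ maximalIdeal R, Algebra.trace K F (ξ * m) = algebraMap R K r) :
    ∃ ξ₁ ξ₂ : F, ξ = x₁ • ξ₁ + x₂ • ξ₂ ∧
      (∀ m ∈ M, ∃ r, Algebra.trace K F (ξ₁ * m) = algebraMap R K r) ∧
      ∀ m ∈ M, ∃ r, Algebra.trace K F (ξ₂ * m) = algebraMap R K r := by
  classical
  have inj : Function.Injective (algebraMap R F) := by
    rw [IsScalarTower.algebraMap_eq R K F]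
    exact (algebraMap K F).injective.comp (IsFractionRing.injective R K)
  have : Module.Free R M := free_of_seq hm (fun a h => by
    rw [Algebra.smul_def, mul_eq_zero] at h
    exact h.resolve_left fun k => x0 (inj (k.trans (map_zero _).symm))) M fg rs
  have : Module.Finite R M := Module.Finite.iff_fg.2 fg
  let b := Module.Free.chooseBasis R M
  have li : LinearIndependent K fun i => (b i : F) :=
    (LinearIndependent.iff_fractionRing R K).1 (b.linearIndependent.map' M.subtype M.ker_subtype)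
  have rp : ∀ m ∈ M, ∃ c : _ → R, m = ∑ i, c i • (b i : F) := fun m h =>
    ⟨b.repr ⟨m, h⟩, by
      have := congrArg M.subtype (b.sum_repr ⟨m, h⟩).symm
      rwa [map_sum] at this⟩
  have top : ⊤ ≤ Submodule.span K (Set.range fun i => (b i : F)) := by
    rw [← sp, Submodule.span_le]
    intro m h
    obtain ⟨c, rfl⟩ := rp m h
    exact sum_mem fun i _ => Submodule.smul_of_tower_mem _ _ (Submodule.subset_span ⟨i, rfl⟩)
  let B := Module.Basis.mk li top
  have hB : ∀ i, B i = b i := fun i => Module.Basis.mk_apply li top i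
  have du : ∀ (α : _ → R), ∀ m ∈ M,
      ∃ r, Algebra.trace K F ((∑ i, α i • B.traceDual i) * m) = algebraMap R K r := by
    intro α m h
    obtain ⟨c, rfl⟩ := rp m h
    refine ⟨∑ i, α i * c i, ?_⟩
    simp only [Finset.sum_mul, Finset.mul_sum, map_sum, smul_mul_smul_comm, ← hB,
      LinearMap.map_smul_of_tower, B.trace_traceDual_mul]
    refine Finset.sum_congr rfl fun i _ => ?_
    simp [Algebra.smul_def]
  choose r hr er using fun i => hξ _ (b i).2
  choose α β e using fun i => Ideal.mem_span_pair.1 (hm ▸ hr i : r i ∈ Ideal.span {x₁, x₂})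
  refine ⟨_, _, ?_, du α, du β⟩
  rw [← B.traceDual.sum_repr ξ, Finset.smul_sum, Finset.smul_sum, ← Finset.sum_add_distrib]
  refine Finset.sum_congr rfl fun i _ => ?_
  rw [B.traceDual_repr_apply, Algebra.traceForm_apply, hB, er, ← e, algebraMap_smul, add_smul,
    smul_smul, smul_smul, mul_comm x₁, mul_comm x₂]

end Vale.Agent.P283R.T3
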