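import Vale.Agent.P283R.T3.Ms97
import Vale.Agent.P283R.Kw.Cn

/-!
# P283R, block T3: killing the other points of the fibre
-/

open Set

noncomputable section

namespace Vale.Agent.P283R.T3.M97

open Vale.Agent.P287D Vale.Agent.P297Z

variable {F : Type} [Field F] [Algebra ℂ F] {S : Subalgebra ℂ F} {r : Ideal S} {R : Pl F}

/-- the centre of a place over the origin is a closed point -/
theorem res95 {x : Fin 2 → F} (c : Cen S r R) (hx : ∀ l, x l ∈ S) (h0 : ∀ l, 0 < R.ord (x l))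
    (a : S) (i : IsIntegral (Algebra.adjoin ℂ (range x)) (a : F)) :
    ∃ d : ℂ, a - algebraMap ℂ S d ∈ r := by
  let ρ := Cb.rdA (P := R) S fun s hs => (c ⟨s, hs⟩).1
  have le : Algebra.adjoin ℂ (range x) ≤ S := Algebra.adjoin_le (range_subset_iff.2 hx)
  have k : ∀ b (hb : b ∈ Algebra.adjoin ℂ (range x)), ρ ⟨b, le hb⟩ ∈ (⊥ : Subalgebra ℂ R.κ) :=
    fun b hb => by
      induction hb using Algebra.adjoin_induction with
      | mem y hy =>
        obtain ⟨l, rfl⟩ := hy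
        have : ρ ⟨x l, hx l⟩ = 0 := (c _).2.1 ((Hr.cen_iff c _).2 (.inr (h0 l)))
        exact this ▸ zero_mem _
      | algebraMap d => exact (ρ.commutes d).symm ▸ algebraMap_mem _ d
      | add y z ky kz hy hz => exact (map_add ρ ⟨y, le ky⟩ ⟨z, le kz⟩).symm ▸ add_mem hy hz
      | mul y z ky kz hy hz => exact (map_mul ρ ⟨y, le ky⟩ ⟨z, le kz⟩).symm ▸ mul_mem hy hz
  let ψ := (ρ.comp (Subalgebra.inclusion le)).codRestrict ⊥ fun b => k b b.2
  obtain ⟨q, q1, q2⟩ := i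
  have e : q.eval₂ (Subalgebra.inclusion le).toRingHom a = 0 := Subtype.val_injective (by
    have := Polynomial.hom_eval₂ q (Subalgebra.inclusion le).toRingHom S.val.toRingHom a
    exact this.trans q2)
  have i2 : IsIntegral (⊥ : Subalgebra ℂ R.κ) (ρ a) := ⟨q.map ψ.toRingHom, q1.map _, by
    rw [Polynomial.eval₂_map]
    have := Polynomial.hom_eval₂ q (Subalgebra.inclusion le).toRingHom ρ.toRingHom a
    rw [e, map_zero] at this
    exact this.symm⟩
  have : Algebra.IsIntegral ℂ (⊥ : Subalgebra ℂ R.κ) := ⟨fun b => by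
    obtain ⟨d, hd⟩ := Algebra.mem_bot.1 b.2
    exact (Subtype.ext hd : algebraMap ℂ _ d = b) ▸ isIntegral_algebraMap⟩
  obtain ⟨d, hd⟩ := (IsAlgClosed.algebraMap_bijective_of_isIntegral
    (k := ℂ) (K := integralClosure ℂ R.κ)).2 ⟨ρ a, isIntegral_trans _ i2⟩
  refine ⟨d, (c _).2.2 ?_⟩
  change ρ _ = 0
  rw [map_sub, ρ.commutes, sub_eq_zero]
  exact (congrArg Subtype.val hd).symm

/-- **UEX** -/
theorem uex : UEX := by
  classical
  intro k F _ _ _ _ _ _ t S p D T δ hT hB δ0 hδ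
  have tS : ∀ l, up F t l ∈ S := fun l => by
    obtain ⟨a, -, e⟩ := D.tp l
    exact e ▸ a.2
  have f := ((Hr.fin_ord D.aff δ).subset (t := {R | PD S R ∧ R.ord δ ≠ 0 ∧ ¬ PDat S p R})
    fun R a => ⟨a.1, a.2.1⟩).union (hT.subset (t := {R | R ∈ T ∧ ¬ Cen S p R}) fun R a => a.1)
  have h : ∀ R ∈ f.toFinset, (∀ a ∈ S, a ∈ R.ring) ∧ ∃ s : S, s ∉ p ∧ 0 < R.ord (s : F) :=
    fun R a => by
      have z : ∀ {r}, Cen S r R → ¬ r ≤ p →
          (∀ a ∈ S, a ∈ R.ring) ∧ ∃ s : S, s ∉ p ∧ 0 < R.ord (s : F) := fun c w => by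
        obtain ⟨s, s1, s2⟩ := not_subset.1 w
        exact ⟨fun x hx => (c ⟨x, hx⟩).1, s, s2,
          ((Hr.cen_iff c s).1 s1).resolve_left (Hr.ne_of_notMem s2)⟩
      rcases f.mem_toFinset.1 a with ⟨⟨r, a1, a2⟩, -, a3⟩ | ⟨a1, a2⟩
      · exact z a1 fun w => a3 ⟨r, w, a1, a2⟩
      · obtain ⟨b1, b2, b3, -⟩ := hB R a1
        obtain ⟨r, c⟩ := Kw.cen_of b1
        refine z c fun w => a2 ((le_antisymm w fun a ha => ?_) ▸ c)
        obtain ⟨d, hd⟩ := res95 c tS (fun l => b3 l ▸ b2) a (D.int a a.2)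
        by_cases d0 : d = 0
        · simpa [d0] using hd
        · exact (D.mx.ne_top (p.eq_top_of_isUnit_mem (by simpa using p.sub_mem ha (w hd))
            ((IsUnit.mk0 d d0).map (algebraMap ℂ S)))).elim
  choose! h1 s s1 s2 using h
  have hp := D.mx.isPrime
  let u : S := ∏ R ∈ f.toFinset, s R ^ ((R.ord δ).toNat + 1)
  have u0 : u ∉ p := fun w => by
    obtain ⟨R, a, b⟩ := Ideal.IsPrime.prod_mem_iff.1 w
    exact s1 R a (hp.mem_of_pow_mem _ b)
  have u1 := Hr.ne_of_notMem u0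
  have big : ∀ R ∈ f.toFinset, 0 < R.ord (u / δ : F) := fun R a => by
    have e : u = s R ^ ((R.ord δ).toNat + 1) * _ := (Finset.mul_prod_erase _ _ a).symm
    generalize (∏ x ∈ f.toFinset.erase R, s x ^ ((x.ord δ).toNat + 1)) = w at e
    have e' : (u : F) = (s R : F) ^ ((R.ord δ).toNat + 1) * w := by rw [e]; rfl
    have n := Pl.ord_nonneg_of_mem _ (h1 R a w w.2)
    have b := s2 R a
    rw [Pl.ord_div _ u1 δ0, e', Pl.ord_mul _ (left_ne_zero_of_mul (e' ▸ u1))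
      (right_ne_zero_of_mul (e' ▸ u1)), Pl.ord_pow]
    push_cast
    nlinarith [Int.self_le_toNat (R.ord δ), Int.natCast_nonneg (R.ord δ).toNat]
  refine ⟨u, u0, fun R a => ?_, fun R a => or_iff_not_imp_left.2 fun c =>
    big R (f.mem_toFinset.2 (.inr ⟨a, c⟩))⟩
  obtain ⟨r, c, -⟩ := id a
  have k0 : 0 ≤ kap (up F t) R := Cb.kap_nonneg D.aff.ff fun l => (c ⟨_, tS l⟩).1
  have n := Int.cast_nonneg (R := ℝ) (Pl.ord_nonneg_of_mem _ (c u).1)
  by_cases b : R.ord δ ≠ 0 ∧ ¬ PDat S p R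
  · have := Int.cast_pos (R := ℝ).2 (big R (f.mem_toFinset.2 (.inl ⟨a, b⟩)))
    linarith
  rw [Pl.ord_div _ u1 δ0]
  push_cast
  rcases not_and_or.1 b with b | b
  · rw [not_not.1 b, Int.cast_zero]
    linarith
  · linarith [hδ R (not_not.1 b)]

end Vale.Agent.P283R.T3.M97
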