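import Vale.Agent.P283R.T3.Ms97
import Vale.Agent.P283R.Be2.RSk
import Vale.Agent.P283R.Tp.Hrt

/-!
# P283R, block T3: killing the other points of the fibre
-/

set_option linter.all false

open Set MvPolynomial

noncomputable section

namespace Vale.Agent.P283R.T3.M97

open Vale.Agent.P287D Vale.Agent.P297Z

/-- a prime which contains the coordinates is maximal -/
theorem max_of {F : Type} [Field F] [Algebra ℂ F] {S : Subalgebra ℂ F} {t : Fin 2 → S}
    (int : ∀ a ∈ S, IsIntegral (Algebra.adjoin ℂ (range fun l => (t l : F))) a) {q : Ideal S}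
    (hq : q.IsPrime) (tq : ∀ l, t l ∈ q) : q.IsMaximal := by
  have le : Algebra.adjoin ℂ (range fun l => (t l : F)) ≤ S :=
    Algebra.adjoin_le (by rintro _ ⟨l, rfl⟩; exact (t l).2)
  have e' : ∀ G : MvPolynomial (Fin 2) ℂ, ((aeval t G : S) : F) = aeval (fun l => (t l : F)) G :=
    fun G => comp_aeval_apply t S.val G
  refine Ideal.isMaximal_of_isIntegral_of_isMaximal_comap'
    (aeval t : MvPolynomial (Fin 2) ℂ →ₐ[ℂ] S).toRingHom (fun a => ?_) q ?_
  · let B := MvPolynomial (Fin 2) ℂ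
    let : Algebra B F := (S.val.comp (aeval t : B →ₐ[ℂ] S)).toRingHom.toAlgebra
    obtain ⟨G, g1, g2⟩ : IsIntegral B (a : F) := Skp.int_mono (fun b => by
      have : (b : F) ∈ (aeval fun l => (t l : F) : B →ₐ[ℂ] F).range :=
        Algebra.adjoin_range_eq_range_aeval ℂ (fun l => (t l : F)) ▸ b.2
      exact this.imp fun G h => (e' G).trans h) (int a a.2)
    exact ⟨G, g1, Subtype.ext ((Polynomial.hom_eval₂ G _ S.val.toRingHom a).trans g2)⟩
  · rw [show q.comap (aeval t : MvPolynomial (Fin 2) ℂ →ₐ[ℂ] S).toRingHom =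
      RingHom.ker constantCoeff from Ideal.ext (Skp.mem_iff hq tq)]
    exact RingHom.ker_isMaximal_of_surjective _ fun c => ⟨C c, constantCoeff_C _ c⟩

theorem uex : UEX := by
  intro k F _ _ _ _ _ _ t S p D T δ Tf Tb d0 ek
  classical
  have pr := D.mx.isPrime
  choose ts tp et using D.tp
  have eu : up F t = fun l => (ts l : F) := funext fun l => (et l).symm
  have fin : ({R | PD S R ∧ R.ord δ ≠ 0 ∧ ¬ PDat S p R} ∪ {R | R ∈ T ∧ ¬ Cen S p R}).Finite :=
    ((Hr.fin_ord D.aff δ).subset fun R h => ⟨h.1, h.2.1⟩).union (Tf.subset fun R h => h.1)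
  have ex : ∀ R ∈ fin.toFinset, ∃ q : Ideal S, Cen S q R ∧ ¬ q ≤ p := fun R hR => by
    rcases fin.mem_toFinset.1 hR with ⟨⟨q, c, l⟩, -, n⟩ | ⟨hT, n⟩
    · exact ⟨q, c, fun h => n ⟨q, h, c, l⟩⟩
    · obtain ⟨b1, b2, b3, -⟩ := Tb R hT
      have c : Cen S (RingHom.ker (Bm.rdh R S b1)) R := fun x => ⟨b1 x x.2, Iff.rfl⟩
      refine ⟨_, c, fun h => n ?_⟩
      rwa [← (max_of (eu ▸ D.int) (Hr.cen_prime c) fun l => (Hr.cen_iff c _).2
        (.inr (by rw [et, b3]; exact b2))).eq_of_le pr.ne_top h]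
  have ex' : ∀ R : Pl F, ∃ b : S, b ∉ p ∧ (R ∈ fin.toFinset → R.ord δ < R.ord (b : F)) := fun R => by
    by_cases hR : R ∈ fin.toFinset
    · obtain ⟨q, c, n⟩ := ex R hR
      obtain ⟨a, a1, a2⟩ := SetLike.not_le_iff_exists.1 n
      have := ((Hr.cen_iff c a).1 a1).resolve_left (Hr.ne_of_notMem a2)
      refine ⟨a ^ ((R.ord δ).toNat + 1), fun h => a2 (pr.mem_of_pow_mem _ h), fun _ => ?_⟩
      rw [SubmonoidClass.coe_pow, Pl.ord_pow]
      have := Int.self_le_toNat (R.ord δ)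
      push_cast
      nlinarith [Int.natCast_nonneg (R.ord δ).toNat]
    · exact ⟨1, (Ideal.ne_top_iff_one p).1 pr.ne_top, fun h => (hR h).elim⟩
  choose b b1 b2 using ex'
  have un : ∏ R ∈ fin.toFinset, b R ∉ p := fun h => by
    obtain ⟨R, -, h⟩ := Ideal.IsPrime.prod_mem_iff.1 h
    exact b1 R h
  have big : ∀ R ∈ fin.toFinset, 0 < R.ord (((∏ R ∈ fin.toFinset, b R : S) : F) / δ) :=
    fun R hR => by
      obtain ⟨q, c, -⟩ := ex R hR
      rw [Pl.ord_div _ (Hr.ne_of_notMem un) d0]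
      rw [← Finset.mul_prod_erase _ _ hR] at un ⊢
      rw [Subalgebra.coe_mul, Pl.ord_mul _ (Hr.ne_of_notMem (b1 R))
        (Hr.ne_of_notMem fun h => un (p.mul_mem_left _ h))]
      have := Pl.ord_nonneg_of_mem R.toPlace (c (∏ x ∈ fin.toFinset.erase R, b x)).1
      have := b2 R hR
      omega
  refine ⟨_, un, fun R hR => ?_, fun R hR => ?_⟩
  · obtain ⟨q, c, l⟩ := hR
    have k0 : 0 ≤ kap (up F t) R := Cb.kap_nonneg D.aff.ff fun l => et l ▸ (c (ts l)).1
    have o : (0 : ℝ) ≤ R.ord ((∏ R ∈ fin.toFinset, b R : S) : F) := by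
      exact_mod_cast Pl.ord_nonneg_of_mem R.toPlace (c _).1
    by_cases m : R ∈ fin.toFinset
    · exact (neg_nonpos.2 k0).trans (by exact_mod_cast (big R m).le)
    rw [Pl.ord_div _ (Hr.ne_of_notMem un) d0]
    push_cast at o ⊢
    by_cases z : R.ord δ = 0
    · rw [z]; push_cast; linarith
    · have := ek R (by_contra fun n => m (fin.mem_toFinset.2 (.inl ⟨⟨q, c, l⟩, z, n⟩)))
      linarith
  · by_cases c : Cen S p R
    · exact .inl c
    · exact .inr (big R (fin.mem_toFinset.2 (.inr ⟨hR, c⟩)))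

end Vale.Agent.P283R.T3.M97
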