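import Vale.Agent.P283R.T3.Ms97
import Vale.Agent.P283R.Be2.RSk

/-!
# P283R, block T3: the trace vanishes at the origin
-/

open Set MvPolynomial

noncomputable section

namespace Vale.Agent.P283R.T3.M97

open Vale.Agent.P287D Vale.Agent.P297Z Skp

/-- **VAN** -/
theorem van : VAN := by
  classical
  intro k F _ _ _ _ _ _ t S p D
  have hk := D.rat
  have := Pb.fin_of_ff hk.ff D.aff.ff
  have : CharZero k := charZero_of_injective_algebraMap (algebraMap ℂ k).injective
  obtain ⟨W, w0, w1, w2, -⟩ := place hk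
  let Ω := AlgebraicClosure k
  obtain ⟨V, hV⟩ := val_over (algebraMap k Ω) W
  have t0 : t 0 ≠ 0 := hk.1.ne_zero 0
  have ex : ∀ σ : F →ₐ[k] Ω, ∃ R : Pl F, R.ring = V.comap (σ : F →+* Ω) := fun σ =>
    pl_over W _ fun a => by
      rw [hV, ValuationSubring.mem_comap]
      exact Iff.of_eq (congrArg (· ∈ V) (σ.commutes a).symm)
  choose R hR using ex
  have m : ∀ σ a, a ∈ (R σ).ring ↔ (σ : F →+* Ω) a ∈ V := fun σ a => by
    rw [hR, ValuationSubring.mem_comap]
  have l : ∀ σ a, a ∈ W.ring ↔ algebraMap k F a ∈ (R σ).ring := fun σ a => by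
    rw [hV, m]
    exact Iff.of_eq (congrArg (· ∈ V) (σ.commutes a).symm)
  have ev : ∀ {ι : Type} (x : ι → k) (G : MvPolynomial ι ℂ),
      aeval (fun i => algebraMap k F (x i)) G = algebraMap k F (aeval x G) := fun x G =>
    (comp_aeval_apply x (IsScalarTower.toAlgHom ℂ k F) G).symm
  have ind : AlgebraicIndependent ℂ (up F t) :=
    hk.1.map' (f := IsScalarTower.toAlgHom ℂ k F) (algebraMap k F).injective
  obtain ⟨o, -⟩ := kap_ch hk.ff hk.1 W w0 w2
  have tm : ∀ l, t l ∈ W.ring := fun l => Cb.mem_ord (by rw [o]; exact w0.le)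
  have un : ∀ G : MvPolynomial (Fin 2) ℂ, constantCoeff G ≠ 0 →
      aeval t G ≠ 0 ∧ W.ord (aeval t G) = 0 := fun G G0 => by
    have a : aeval t G ∈ W.ring := Cb.adj_mem (S := range t) (forall_mem_range.2 tm)
      (by rw [Algebra.adjoin_range_eq_range_aeval]; exact ⟨G, rfl⟩)
    have b : W.rd (aeval t G) ≠ 0 := by
      rw [Cb.rd_aeval tm, show (fun i => W.rd (t i)) = 0 from funext fun i =>
        (Bm.rd_zero_iff W (tm i)).2 (.inr (by rw [o]; exact w0)), aeval_zero]
      exact (map_ne_zero _).2 G0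
    rw [Ne, Bm.rd_zero_iff W a, not_or] at b
    exact ⟨b.1, le_antisymm (not_lt.1 b.2) (Pl.ord_nonneg_of_mem _ a)⟩
  refine ⟨range R, finite_range R, ?_, fun ξ ⟨r, s, s0, e⟩ h => ⟨r, s, s0, by_contra fun r0 => ?_, e⟩⟩
  · rintro _ ⟨σ, rfl⟩
    have u0 : up F t 0 ≠ 0 := ind.ne_zero 0
    have r0 : 0 < (R σ).ord (up F t 0) := ((lt_iff (m σ) _).1 (by
      have := (lt_iff hV (t 0)).2 (.inr w0)
      rwa [← σ.commutes] at this)).resolve_left u0
    obtain ⟨k1, k2⟩ := kap_ch D.aff.ff ind (R σ) r0 fun G G0 => by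
      obtain ⟨a, b⟩ := w2 G G0
      have c : aeval (fun l : Fin 1 => up F t l.succ / up F t 0) G =
          algebraMap k F (aeval (fun l : Fin 1 => t l.succ / t 0) G) := by
        rw [← ev]
        exact congrArg (aeval · G) (funext fun l => (map_div₀ _ _ _).symm)
      have a' := (map_ne_zero (algebraMap k F)).2 a
      rw [c]
      refine ⟨a', le_antisymm ?_ (Pl.ord_nonneg_of_mem _ ((l σ _).1 (Cb.mem_ord b.ge)))⟩
      have := Pl.ord_nonneg_of_mem _ ((l σ _).1 (Cb.mem_ord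
        (x := (aeval (fun l : Fin 1 => t l.succ / t 0) G)⁻¹) (by rw [Pl.ord_inv, b, neg_zero])))
      rw [map_inv₀, Pl.ord_inv] at this
      omega
    refine ⟨fun a ha => ?_, r0, k1, by exact_mod_cast k2⟩
    have i : IsIntegral (R σ).ring a := int_mono (fun b => ⟨⟨b, Cb.adj_mem
      (forall_mem_range.2 fun i => (l σ _).1 (tm i)) b.2⟩, rfl⟩) (D.int a ha)
    obtain ⟨y, rfl⟩ := IsIntegrallyClosed.algebraMap_eq_of_integral i
    exact y.2
  · have a : V.valuation (algebraMap k Ω (Algebra.trace k F ξ)) < 1 := by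
      rw [trace_eq_sum_embeddings Ω]
      exact Valuation.map_sum_lt _ one_ne_zero fun σ _ =>
        (lt_iff (m σ) ξ).2 (h.imp_right fun h => h _ ⟨σ, rfl⟩)
    obtain ⟨r1, r2⟩ := un r r0
    obtain ⟨s1, s2⟩ := un s s0
    rw [lt_iff hV, e, Pl.ord_div _ r1 s1, r2, s2] at a
    exact a.elim (div_ne_zero r1 s1) (by omega)

end Vale.Agent.P283R.T3.M97
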